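import Vale.Agent.P205.Defs

/-!
# P205, the exact solutions of the flat problem (statement)
-/

namespace Vale.Agent.P205

open Real
open scoped ContDiff

/-- Mean over the period square. -/
noncomputable def avg2 (f : E2 → ℝ) : ℝ := ∫ x in (0 : ℝ)..1, ∫ y in (0 : ℝ)..1, f (x, y)

/-- Flux of `u + η S` for the conductivity `cond / (1 + η C)`. -/
noncomputable def baseFlux (g : Metric) (I : Iso g) (C S : E2 → ℝ) (η : ℝ) (i : Fin 2) (x : E2) :
    ℝ :=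
  (∑ k, g.cond i k x * (pd k I.u x + η * pd k S x)) / (1 + η * C x)

/-- The exact family: divergence free, and the direction of the conjugate periods moves. -/
def BaseStmt : Prop := ∀ (g : Metric) (I : Iso g), ∃ C S : E2 → ℝ,
  ContDiff ℝ ∞ C ∧ ContDiff ℝ ∞ S ∧ Per C ∧ Per S ∧ (∀ x, |C x| ≤ 1) ∧
  (∀ η : ℝ, |η| ≤ 1 / 2 → ∀ x,
    pd 0 (baseFlux g I C S η 0) x + pd 1 (baseFlux g I C S η 1) x = 0) ∧
  ∀ η0 : ℝ, 0 < η0 → η0 ≤ 1 / 2 → ∃ p q : ℤ, 0 < q ∧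
    ((q : ℝ) * -avg2 (baseFlux g I C S 0 1) - p * avg2 (baseFlux g I C S 0 0)) *
      ((q : ℝ) * -avg2 (baseFlux g I C S η0 1) - p * avg2 (baseFlux g I C S η0 0)) < 0

end Vale.Agent.P205
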