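import Vale.Agent.P205.CoreImm

/-!
# P205, core: assembly
-/

namespace Vale.Agent.P205

open Real Set
open scoped ContDiff

/-- At `ε = 0` the flux is the exact one. -/
lemma flux_at_zero (F : Facts) {D : Dat} (hB : BaseRel D) {S : E2 → ℝ} (hS : SP S) {η : ℝ}
    (hη : |η| ≤ 1 / 2) {z : St} (hz : Sol D η 0 z)
    (hdiv : ∀ x, pd 0 (baseFlux D.g D.I D.C S η 0) x + pd 1 (baseFlux D.g D.I D.C S η 1) x = 0)
    (i : Fin 2) : D.flux η 0 z i = baseFlux D.g D.I D.C S η i := by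
  have hν : ∀ x, 0 < D.nu η x := fun x => BaseAux.den_pos hη _ (D.abs_C x)
  have hadj : ∀ p k x, D.adjh η 0 z p k x = adjg D.g p k x := fun p k x => by
    simp [Dat.adjh, adjg, Dat.h]
  have hdet : ∀ x, D.detH η 0 z x = D.g.det x := fun x => by
    simp [Dat.detH, Dat.h, Metric.det, Metric.comp]
  have hm : ∀ x, z.m x = D.m0 x := fun x => by
    have h1 := hz.m_sq x
    rw [hdet, ← hB.m0_sq x] at h1
    have h0 : 0 ≤ D.m0 x := one_div_nonneg.2 (Real.sqrt_nonneg _)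
    exact (mul_self_inj (hz.m_pos x).le h0).1 (mul_left_cancel₀ (hB.det_pos x).ne' h1)
  have hfl : ∀ j x, D.flux η 0 z j x = (∑ k, D.g.cond j k x * (D.du k x + pd k z.bet x))
      / D.nu η x := fun j x => by
    have hv : z.iv x = 1 / D.nu η x := by rw [eq_div_iff (hν x).ne']; exact hz.iv_nu x
    simp only [Dat.flux, Dat.vv, hadj, hm, hv, Dat.al, Fin.sum_univ_two, ← hB.cond_eq,
      F.dop_smooth hz.sp_bet.1 hz.sp_bet.2]
    ring
  set L : E2 → ℝ := fun x => z.bet x - η * S x with hL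
  have hdL : ∀ k x, pd k L x = pd k z.bet x - η * pd k S x := fun k x => by
    rw [hL, pd_sub hz.sp_bet.1 (contDiff_const.mul hS.1), pd_mul contDiff_const hS.1]
    simp [pd]
  have hbase : ∀ j x, D.flux η 0 z j x = baseFlux D.g D.I D.C S η j x
      + (D.g.cond j 0 x / D.nu η x * pd 0 L x + D.g.cond j 1 x / D.nu η x * pd 1 L x) := fun j x => by
    simp only [hfl, baseFlux, hdL, Fin.sum_univ_two, Dat.du, Dat.nu]
    ring
  have sb : ∀ j, SP (baseFlux D.g D.I D.C S η j) := fun j => by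
    have h : ∀ k, SP fun x => D.g.cond j k x * (pd k D.I.u x + η * pd k S x) := fun k =>
      (D.g.sp_cond j k).mul ((D.sp_du k).add ((sp_const η).mul (hS.pd k)))
    have e : baseFlux D.g D.I D.C S η j = fun x => (D.g.cond j 0 x * (pd 0 D.I.u x + η * pd 0 S x)
        + D.g.cond j 1 x * (pd 1 D.I.u x + η * pd 1 S x)) / D.nu η x :=
      funext fun x => by simp [baseFlux, Fin.sum_univ_two, Dat.nu]
    exact e ▸ ((h 0).add (h 1)).div sp_nu fun x => (hν x).ne'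
  have h10 : ∀ x, D.g.cond 1 0 x = D.g.cond 0 1 x := fun x => by simp [Metric.cond]
  obtain ⟨hL0, -⟩ := eq_const_of_energy (L := L) (c := 0)
    (a00 := fun x => D.g.cond 0 0 x / D.nu η x) (a01 := fun x => D.g.cond 0 1 x / D.nu η x)
    (a11 := fun x => D.g.cond 1 1 x / D.nu η x)
    ((D.g.sp_cond 0 0).div sp_nu fun x => (hν x).ne')
    ((D.g.sp_cond 0 1).div sp_nu fun x => (hν x).ne')
    ((D.g.sp_cond 1 1).div sp_nu fun x => (hν x).ne') (hz.sp_bet.sub ((sp_const η).mul hS))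
    (fun x => div_pos (by
      simp only [Metric.cond, if_true]
      exact div_pos (by simpa [Metric.comp] using D.g.c_pos x)
        (Real.sqrt_pos.2 (D.g.det_gt x))) (hν x))
    (fun x => by
      have h1 := Real.sqrt_pos.2 (D.g.det_gt x)
      have h2 := D.g.det_pos x
      have h3 := hν x
      simp only [Metric.cond, Metric.comp, Fin.isValue, zero_ne_one, one_ne_zero, if_false, if_true,
        sub_zero, sub_self]
      field_simp
      nlinarith)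
    (fun x => by
      have e0 : (fun y => D.g.cond 0 0 y / D.nu η y * pd 0 L y + D.g.cond 0 1 y / D.nu η y * pd 1 L y)
          = fun y => D.flux η 0 z 0 y - baseFlux D.g D.I D.C S η 0 y := funext fun y => by
        rw [hbase]; ring
      have e1 : (fun y => D.g.cond 0 1 y / D.nu η y * pd 0 L y + D.g.cond 1 1 y / D.nu η y * pd 1 L y)
          = fun y => D.flux η 0 z 1 y - baseFlux D.g D.I D.C S η 1 y := funext fun y => by
        rw [hbase, h10]; ring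
      rw [e0, e1, pd_sub (hz.sp_flux 0).1 (sb 0).1, pd_sub (hz.sp_flux 1).1 (sb 1).1]
      linarith [hz.div x, hdiv x])
  funext x
  rw [hbase, hL0, hL0]
  ring

/-- A change of sign of a Lipschitz function persists for small parameters. -/
lemma exists_root {Φ : ℝ → ℝ → ℝ} {σ M : ℝ} (hσ : 0 < σ) (hM : 0 ≤ M)
    (hl : ∀ η ε η' ε', |η| ≤ σ → |ε| ≤ σ → |η'| ≤ σ → |ε'| ≤ σ →
      |Φ η ε - Φ η' ε'| ≤ M * (|η - η'| + |ε - ε'|)) (hprod : Φ 0 0 * Φ σ 0 < 0) :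
    ∃ ε1, 0 < ε1 ∧ ε1 ≤ σ ∧ ∀ ε, |ε| ≤ ε1 → ∃ η, |η| ≤ σ ∧ Φ η ε = 0 := by
  have s0 : |(0 : ℝ)| ≤ σ := by simpa using hσ.le
  have sσ : |σ| ≤ σ := (abs_of_pos hσ).le
  have n0 : Φ 0 0 ≠ 0 := fun h => by rw [h, zero_mul] at hprod; exact lt_irrefl _ hprod
  have n1 : Φ σ 0 ≠ 0 := fun h => by rw [h, mul_zero] at hprod; exact lt_irrefl _ hprod
  set m := min |Φ 0 0| |Φ σ 0| with hm
  have hmp : 0 < m := lt_min (abs_pos.2 n0) (abs_pos.2 n1)
  refine ⟨min σ (m / (2 * (M + 1))), by positivity, min_le_left _ _, fun ε hε => ?_⟩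
  have hεσ : |ε| ≤ σ := hε.trans (min_le_left _ _)
  have h2 : |ε| * (2 * (M + 1)) ≤ m := by
    have := hε.trans (min_le_right _ _)
    rwa [le_div_iff₀ (by positivity)] at this
  have hclose : ∀ η, |η| ≤ σ → |Φ η ε - Φ η 0| < m := fun η a => by
    refine (hl η ε η 0 a hεσ a s0).trans_lt ?_
    simp only [sub_self, sub_zero, abs_zero, zero_add]
    linarith [mul_nonneg hM (abs_nonneg ε), mul_comm |ε| M, abs_nonneg ε]
  have d0 := abs_lt.1 ((hclose 0 s0).trans_le (min_le_left _ _))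
  have d1 := abs_lt.1 ((hclose σ sσ).trans_le (min_le_right _ _))
  have hmem : (0 : ℝ) ∈ uIcc (Φ 0 ε) (Φ σ ε) := by
    rw [mem_uIcc]
    rcases mul_neg_iff.1 hprod with ⟨h0, h1⟩ | ⟨h0, h1⟩
    · rw [abs_of_pos h0] at d0
      rw [abs_of_neg h1] at d1
      exact Or.inr ⟨by linarith [d1.2], by linarith [d0.1]⟩
    · rw [abs_of_neg h0] at d0
      rw [abs_of_pos h1] at d1
      exact Or.inl ⟨by linarith [d0.2], by linarith [d1.1]⟩
  have hsub : ∀ η ∈ uIcc (0 : ℝ) σ, |η| ≤ σ := fun η h => by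
    rw [uIcc_of_le hσ.le] at h
    rw [abs_of_nonneg h.1]; exact h.2
  have hcont : ContinuousOn (fun η => Φ η ε) (uIcc 0 σ) :=
    (LipschitzOnWith.of_dist_le_mul (K := M.toNNReal) fun η h η' h' => by
      simpa [Real.dist_eq, Real.coe_toNNReal _ hM] using hl η ε η' ε (hsub η h) hεσ (hsub η' h') hεσ).continuousOn
  obtain ⟨η, hη, hzero⟩ := intermediate_value_uIcc hcont hmem
  exact ⟨η, hsub η hη, hzero⟩

/-- Small admissible frequencies. -/
lemma exists_freq {q : ℤ} (hq : 0 < q) {ε1 : ℝ} (h : 0 < ε1) :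
    ∃ n : ℕ, 0 < n ∧ |1 / (2 * π * (q * n)) ^ 2| ≤ ε1 := by
  obtain ⟨n, hn1⟩ := exists_nat_gt (1 / ε1)
  have hnp : (0 : ℝ) < n := lt_trans (by positivity) hn1
  have hnN : 0 < n := by exact_mod_cast hnp
  refine ⟨n, hnN, ?_⟩
  have hq1 : (1 : ℝ) ≤ q := by exact_mod_cast hq
  have hn' : (1 : ℝ) ≤ n := by exact_mod_cast hnN
  rw [abs_of_nonneg (by positivity), div_le_iff₀ (by positivity)]
  rw [div_lt_iff₀ h] at hn1
  have h1 : (n : ℝ) ≤ 2 * π * (q * n) := by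
    nlinarith [pi_gt_three, mul_le_mul_of_nonneg_right hq1 hnp.le]
  have h2 : (n : ℝ) ≤ (2 * π * (q * n)) ^ 2 := by nlinarith
  nlinarith [mul_le_mul_of_nonneg_left h2 h.le]

/-- The immersion from isothermal functions. -/
theorem core_of (hF : Facts) (hC : CtxStmt) (hR : BaseRelStmt) (hI : StateIdentStmt) :
    CoreStmt := by
  intro g I
  obtain ⟨C, S, hCd, hSd, hCp, hSp, hC1, hdiv, hdir⟩ := base g I
  set D : Dat := ⟨g, I, C, 0, 1, hCd, hCp, hC1, one_pos⟩ with hD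
  obtain ⟨K, hG, hj⟩ := hC hF D
  have hB := hR hF D
  have hne : ∃ P, K.Adm P := (hj 0).imp fun P h => h.1
  obtain ⟨cm, hcm, hmlow⟩ := exists_pos_lower D.sp_m0.1.continuous D.sp_m0.2 fun x =>
    one_div_pos.2 (Real.sqrt_pos.2 (g.det_gt x))
  obtain ⟨cr, hcr, hrlow⟩ := exists_pos_lower D.sp_rho0.1.continuous D.sp_rho0.2 hB.rho0_pos
  obtain ⟨cN, hcN, hNlow⟩ := exists_pos_lower D.sp_N0.1.continuous D.sp_N0.2 hB.N0_pos
  obtain ⟨Cs, hCs0, hCs⟩ := K.F.sup_le K.R0 K.hR0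
  obtain ⟨-, Cn, hCn, hn⟩ := est_nn hG
  set δ1 : ℝ := min (1 / 2) (min (cm / (Cs + 1)) (min (cr / (Cs + 1))
    (min (cN / (Cs * Cn + 1)) (I.τ2 / 2)))) with hδ1
  have hδ1p : 0 < δ1 := by have := I.τ2_pos; positivity
  obtain ⟨δ, σ, L, hσ, hσδ, hδ, hδone, hL, hfix⟩ := exists_fixed hG hB hne hδ1p
  obtain ⟨b1, b2, b3, b4, b5⟩ : δ ≤ 1 / 2 ∧ δ ≤ cm / (Cs + 1) ∧ δ ≤ cr / (Cs + 1) ∧
      δ ≤ cN / (Cs * Cn + 1) ∧ δ ≤ I.τ2 / 2 := by
    simpa [hδ1, le_min_iff] using hδ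
  have hδ0 : 0 < δ := hσ.trans_le hσδ
  set Z := fixedSt K D with hZ
  have small : ∀ {c C0 : ℝ}, 0 ≤ C0 → δ ≤ c / (C0 + 1) → C0 * δ < c := fun h0 hb => by
    rw [le_div_iff₀ (by linarith)] at hb; nlinarith
  obtain ⟨P, hP, hPj⟩ := hj 0
  have hsol : ∀ η ε, |η| ≤ σ → |ε| ≤ σ → Sol D η ε (Z η ε) := fun η ε a b => by
    obtain ⟨hT, hcl⟩ := hfix η ε a b
    have hc := (hcl P hP).1
    have sup : ∀ {f : E2 → ℝ} {M : ℝ}, RB P 4 f M → ∀ x, |f x| ≤ Cs * M := fun h =>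
      hCs P (K.adm_R0 P hP) _ _ h
    refine sol_of hG hI hB hj rfl (a.trans hσδ) (b.trans hσδ) hδone hT (fun Q hQ => (hcl Q hQ).1)
      (fun x => ?_) (fun x => ?_) (fun x => ?_) ?_
    · have h1 := (abs_le.1 (sup hc.2.1 x)).1
      have h2 := small hCs0 b2
      have h3 := hmlow x
      change -(Cs * δ) ≤ (Z η ε).m x - D.m0 x at h1
      linarith
    · have h1 := (abs_le.1 (sup (hc.2.2.2.2.2.1.weaken (by norm_num)) x)).1
      have h2 := small hCs0 b3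
      have h3 := hrlow x
      change -(Cs * δ) ≤ (Z η ε).rho x - D.rho0 x at h1
      linarith
    · have h1 := (abs_le.1 (sup (hn P hP η ε δ _ (a.trans hσδ) (b.trans hσδ) hδone hc).1 x)).1
      have h2 := small (mul_nonneg hCs0 hCn) b4
      have h3 := hNlow x
      linarith
    · have h1 := (abs_le.1 hc.2.2.2.1).1
      have h3 : D.z0.kap = I.τ2 := by simp only [D, Dat.z0]; simp
      have := I.τ2_pos
      linarith
  -- the direction of the periods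
  obtain ⟨p, q, hq, hsign⟩ := hdir σ hσ ((hσδ.trans b1))
  set Φ : ℝ → ℝ → ℝ := fun η ε => (q : ℝ) * -avg2 (D.flux η ε (Z η ε) 1)
    - p * avg2 (D.flux η ε (Z η ε) 0) with hΦ
  have hlip : ∀ i, ∃ M : ℝ, 0 ≤ M ∧ ∀ η ε η' ε', |η| ≤ σ → |ε| ≤ σ → |η'| ≤ σ → |ε'| ≤ σ →
      |avg2 (D.flux η ε (Z η ε) i) - avg2 (D.flux η' ε' (Z η' ε') i)|
        ≤ M * (|η - η'| + |ε - ε'|) := fun i => by
    obtain ⟨-, M, hM, hest⟩ := (est_flux hG i).mean (le_refl 3)
    refine ⟨M * (14 * L + 1), by positivity, fun η ε η' ε' a b a' b' => ?_⟩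
    set Δ := |η - η'| + |ε - ε'| with hΔ
    have hΔ0 : 0 ≤ Δ := by positivity
    have hd : ∀ j : Fin 7, 0 ≤ (fun _ => L * Δ) j := fun _ => mul_nonneg hL hΔ0
    obtain ⟨-, hcl⟩ := hfix η ε a b
    obtain ⟨-, hcl'⟩ := hfix η' ε' a' b'
    have h := abs_const_le ((hest P hP η ε δ _ (a.trans hσδ) (b.trans hσδ) hδone (hcl P hP).1).2
      (Z η' ε') η' ε' _ (a'.trans hσδ) (b'.trans hσδ) (hcl' P hP).1 hd
      ((hcl P hP).2 η' ε' a' b'))
    rw [mean_eq_avg2 ((hsol η ε a b).sp_flux i).1.continuous,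
      mean_eq_avg2 ((hsol η' ε' a' b').sp_flux i).1.continuous] at h
    refine h.trans ?_
    rw [mul_assoc]
    refine mul_le_mul_of_nonneg_left ?_ hM
    have h7 : tot (fun _ : Fin 7 => L * Δ) = 7 * (L * Δ) := by simp [tot]
    have hlow := low_le_tot 3 hd
    rw [h7] at hlow ⊢
    nlinarith [mul_le_mul_of_nonneg_right hδone (by positivity : (0:ℝ) ≤ 7 * (L * Δ))]
  obtain ⟨M0, hM0, hl0⟩ := hlip 0
  obtain ⟨M1, hM1, hl1⟩ := hlip 1
  set M := |(q : ℝ)| * M1 + |(p : ℝ)| * M0 with hMdef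
  have hM : 0 ≤ M := by positivity
  have hΦl : ∀ η ε η' ε', |η| ≤ σ → |ε| ≤ σ → |η'| ≤ σ → |ε'| ≤ σ →
      |Φ η ε - Φ η' ε'| ≤ M * (|η - η'| + |ε - ε'|) := fun η ε η' ε' a b a' b' => by
    have e : Φ η ε - Φ η' ε'
        = -(q : ℝ) * (avg2 (D.flux η ε (Z η ε) 1) - avg2 (D.flux η' ε' (Z η' ε') 1))
        - (p : ℝ) * (avg2 (D.flux η ε (Z η ε) 0) - avg2 (D.flux η' ε' (Z η' ε') 0)) := by
      simp only [hΦ]; ring
    rw [e]
    refine (abs_sub _ _).trans ?_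
    rw [abs_mul, abs_mul, abs_neg, hMdef, add_mul, mul_assoc, mul_assoc]
    exact add_le_add (mul_le_mul_of_nonneg_left (hl1 η ε η' ε' a b a' b') (abs_nonneg _))
      (mul_le_mul_of_nonneg_left (hl0 η ε η' ε' a b a' b') (abs_nonneg _))
  have s0 : |(0 : ℝ)| ≤ σ := by simpa using hσ.le
  have sσ : |σ| ≤ σ := (abs_of_pos hσ).le
  have hbaseΦ : ∀ η, |η| ≤ σ → Φ η 0 = (q : ℝ) * -avg2 (baseFlux g I C S η 1)
      - p * avg2 (baseFlux g I C S η 0) := fun η a => by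
    have h1 : |η| ≤ 1 / 2 := a.trans (hσδ.trans b1)
    have h := flux_at_zero hF hB ⟨hSd, hSp⟩ h1 (hsol η 0 a s0) (hdiv η h1)
    simp only [hΦ, h]
    rfl
  have hprod : Φ 0 0 * Φ σ 0 < 0 := by rw [hbaseΦ 0 s0, hbaseΦ σ sσ]; exact hsign
  obtain ⟨ε1, hε1, hε1σ, hroot⟩ := exists_root hσ hM hΦl hprod
  obtain ⟨n, hnN, hnε⟩ := exists_freq hq hε1
  obtain ⟨η, hη, hzero⟩ := hroot _ hnε
  have hs := hsol η _ hη (hnε.trans hε1σ)
  refine immerses_of_sol hF hs p q hq n hnN rfl ?_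
  simp only [hΦ] at hzero
  rw [← hs.kap_eq]
  linarith

end Vale.Agent.P205
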