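import Vale.Agent.P205.BaseStmt

/-!
# P205, the exact solutions of the flat problem
-/

namespace Vale.Agent.P205.BaseAux

open Real Set MeasureTheory
open scoped ContDiff Interval

/-- Antiderivative of `1 / (1 + η cos 2πs)`. -/
noncomputable def prim (η s : ℝ) : ℝ := ∫ t in (0 : ℝ)..s, 1 / (1 + η * cos (2 * π * t))

theorem den_pos {η : ℝ} (hη : |η| ≤ 1 / 2) (c : ℝ) (hc : |c| ≤ 1) : 0 < 1 + η * c := by
  have h : |η * c| ≤ 1 / 2 := by
    rw [abs_mul]; exact (mul_le_of_le_one_right (abs_nonneg η) hc).trans hη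
  linarith [(abs_le.1 h).1]

theorem cont_integrand {η : ℝ} (hη : |η| ≤ 1 / 2) :
    Continuous fun t : ℝ => 1 / (1 + η * cos (2 * π * t)) :=
  continuous_const.div (by fun_prop) fun t => (den_pos hη _ (abs_cos_le_one _)).ne'

theorem hasDerivAt_prim {η : ℝ} (hη : |η| ≤ 1 / 2) (s : ℝ) :
    HasDerivAt (prim η) (1 / (1 + η * cos (2 * π * s))) s :=
  ((cont_integrand hη).integral_hasStrictDerivAt 0 s).hasDerivAt

theorem contDiff_prim {η : ℝ} (hη : |η| ≤ 1 / 2) : ContDiff ℝ ∞ (prim η) := by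
  rw [contDiff_infty_iff_deriv]
  refine ⟨fun s => (hasDerivAt_prim hη s).differentiableAt, ?_⟩
  rw [show deriv (prim η) = fun s => 1 / (1 + η * cos (2 * π * s)) from
    funext fun s => (hasDerivAt_prim hη s).deriv]
  exact contDiff_const.div (by fun_prop) fun t => (den_pos hη _ (abs_cos_le_one _)).ne'

theorem periodic_integrand (η : ℝ) :
    Function.Periodic (fun t : ℝ => 1 / (1 + η * cos (2 * π * t))) 1 := fun t => by
  simp only [mul_add, mul_one, cos_add_two_pi]

theorem prim_add_int {η : ℝ} (hη : |η| ≤ 1 / 2) (s : ℝ) (m : ℤ) :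
    prim η (s + m) = prim η s + m * prim η 1 := by
  have hi : ∀ a b : ℝ, IntervalIntegrable (fun t => 1 / (1 + η * cos (2 * π * t))) volume a b :=
    fun a b => (cont_integrand hη).intervalIntegrable a b
  have h2 := (periodic_integrand η).intervalIntegral_add_zsmul_eq m s hi
  rw [(periodic_integrand η).intervalIntegral_add_eq s 0] at h2
  simp only [zsmul_eq_mul, mul_one, zero_add] at h2
  rw [prim, ← intervalIntegral.integral_add_adjacent_intervals (hi 0 s) (hi s (s + m)), h2]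
  rfl

theorem prim_one_gt {η : ℝ} (h0 : 0 < η) (hη : η ≤ 1 / 2) : 1 < prim η 1 := by
  have ha : |η| ≤ 1 / 2 := by rwa [abs_of_pos h0]
  have hcos : ∫ t in (0 : ℝ)..1, cos (2 * π * t) = 0 := by
    rw [intervalIntegral.integral_comp_mul_left _ Real.two_pi_pos.ne']
    simp
  have hlin : ∫ t in (0 : ℝ)..1, (1 - η * cos (2 * π * t)) = 1 := by
    rw [intervalIntegral.integral_sub intervalIntegrable_const
      ((by fun_prop : Continuous fun t : ℝ => η * cos (2 * π * t)).intervalIntegrable _ _),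
      intervalIntegral.integral_const_mul, hcos]
    simp
  have hle : ∀ c : ℝ, |c| ≤ 1 → 1 - η * c ≤ 1 / (1 + η * c) := fun c hc => by
    rw [le_div_iff₀ (den_pos ha c hc)]
    nlinarith [sq_nonneg (η * c)]
  rw [prim]
  calc (1 : ℝ) = ∫ t in (0 : ℝ)..1, (1 - η * cos (2 * π * t)) := hlin.symm
    _ < _ := by
      refine intervalIntegral.integral_lt_integral_of_continuousOn_of_le_of_exists_lt zero_lt_one
        (by fun_prop) (cont_integrand ha).continuousOn
        (fun t _ => hle _ (abs_cos_le_one _)) ⟨0, left_mem_Icc.2 zero_le_one, ?_⟩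
      rw [mul_zero, cos_zero, mul_one, lt_div_iff₀ (by linarith)]
      nlinarith

theorem pd_comm {f : E2 → ℝ} (hf : ContDiff ℝ ∞ f) (x : E2) :
    pd 0 (pd 1 f) x = pd 1 (pd 0 f) x := by
  have hd : Differentiable ℝ (fderiv ℝ f) := (hf.fderiv_right (m := ∞) (by simp)).differentiable
    (by simp)
  have key : ∀ v w : E2, fderiv ℝ (fun y => fderiv ℝ f y v) x w = fderiv ℝ (fderiv ℝ f) x w v :=
    fun v w => by
      rw [fderiv_clm_apply (hd x) (differentiableAt_const v)]
      simp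
  show fderiv ℝ (fun y => fderiv ℝ f y (e 1)) x (e 0) = fderiv ℝ (fun y => fderiv ℝ f y (e 0)) x (e 1)
  rw [key, key]
  exact second_derivative_symmetric (f := f)
    (fun y => (hf.differentiable (by simp) y).hasFDerivAt) (hd x).hasFDerivAt _ _

theorem continuous_pd {f : E2 → ℝ} (hf : ContDiff ℝ ∞ f) (i : Fin 2) : Continuous (pd i f) :=
  (hf.continuous_fderiv (by simp)).clm_apply continuous_const

theorem mean2_pd_one {f : E2 → ℝ} {c : ℝ} (hf : ContDiff ℝ ∞ f)
    (h : ∀ x : ℝ, f (x, 1) = f (x, 0) + c) : avg2 (pd 1 f) = c := by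
  have hi : ∀ x : ℝ, ∫ y in (0 : ℝ)..1, pd 1 f (x, y) = c := fun x => by
    have hd : ∀ y : ℝ, HasDerivAt (fun y => f (x, y)) (pd 1 f (x, y)) y := fun y =>
      (hf.differentiable (by simp) (x, y)).hasFDerivAt.comp_hasDerivAt y
        ((hasDerivAt_const y x).prodMk (hasDerivAt_id y))
    rw [intervalIntegral.integral_eq_sub_of_hasDerivAt (fun y _ => hd y)
      (((continuous_pd hf 1).comp (by fun_prop)).intervalIntegrable _ _), h x]
    ring
  simp [avg2, hi]

theorem mean2_pd_zero {f : E2 → ℝ} {c : ℝ} (hf : ContDiff ℝ ∞ f)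
    (h : ∀ y : ℝ, f (1, y) = f (0, y) + c) : avg2 (pd 0 f) = c := by
  have hi : ∀ y : ℝ, ∫ x in (0 : ℝ)..1, pd 0 f (x, y) = c := fun y => by
    have hd : ∀ x : ℝ, HasDerivAt (fun x => f (x, y)) (pd 0 f (x, y)) x := fun x =>
      (hf.differentiable (by simp) (x, y)).hasFDerivAt.comp_hasDerivAt x
        ((hasDerivAt_id x).prodMk (hasDerivAt_const x y))
    rw [intervalIntegral.integral_eq_sub_of_hasDerivAt (fun x _ => hd x)
      (((continuous_pd hf 0).comp (by fun_prop)).intervalIntegrable _ _), h y]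
    ring
  have hint : Integrable (Function.uncurry fun x y : ℝ => pd 0 f (x, y))
      ((volume.restrict (Ioc 0 1)).prod (volume.restrict (Ioc 0 1))) := by
    rw [Measure.prod_restrict]
    exact ((continuous_pd hf 0).continuousOn.integrableOn_compact
      ((isCompact_Icc (a := (0 : ℝ)) (b := 1)).prod (isCompact_Icc (a := (0 : ℝ)) (b := 1)))).mono_set
      (prod_mono Ioc_subset_Icc_self Ioc_subset_Icc_self)
  have hs : avg2 (pd 0 f) = ∫ y in (0 : ℝ)..1, ∫ x in (0 : ℝ)..1, pd 0 f (x, y) := by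
    simp only [avg2, intervalIntegral.integral_of_le zero_le_one]
    exact integral_integral_swap hint
  simp [hs, hi]

theorem mean2_neg (f : E2 → ℝ) : avg2 (fun x => -f x) = -avg2 f := by
  simp [avg2]

theorem cond_facts (g : Metric) (x : E2) :
    g.cond 0 1 x = g.cond 1 0 x ∧ g.cond 0 0 x * g.cond 1 1 x - g.cond 0 1 x ^ 2 = 1 := by
  have hd : 0 < g.det x := by
    have := g.det_pos x
    unfold Metric.det
    linarith
  have hs : √(g.det x) ^ 2 = g.det x := Real.sq_sqrt hd.le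
  have hne : √(g.det x) ≠ 0 := (Real.sqrt_pos.2 hd).ne'
  refine ⟨by simp [Metric.cond], ?_⟩
  simp only [Metric.cond, Metric.comp]
  simp
  field_simp
  unfold Metric.det at hs ⊢
  linear_combination -hs

end Vale.Agent.P205.BaseAux

namespace Vale.Agent.P205

open Real BaseAux
open scoped ContDiff

/-- The exact family. -/
theorem base : BaseStmt := by
  intro g I
  have hτ := I.τ2_pos
  obtain ⟨m, hm⟩ : ∃ m : ℤ, I.τ1 / I.τ2 < m := ⟨⌊I.τ1 / I.τ2⌋ + 1, by
    push_cast; exact Int.lt_floor_add_one _⟩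
  obtain ⟨k2, hk2⟩ : ∃ k2, k2 = 1 / I.τ2 := ⟨_, rfl⟩
  obtain ⟨k1, hk1⟩ : ∃ k1, k1 = (m : ℝ) - I.τ1 / I.τ2 := ⟨_, rfl⟩
  obtain ⟨n, hn⟩ : ∃ n, n = k1 ^ 2 + k2 ^ 2 := ⟨_, rfl⟩
  have hk2p : 0 < k2 := by rw [hk2]; positivity
  have hk1p : 0 < k1 := by rw [hk1]; linarith
  have hnp : 0 < n := by rw [hn]; positivity
  have hper1 : k1 + k2 * I.τ1 = m := by rw [hk1, hk2]; field_simp; ring
  have hper2 : k2 * I.τ2 = 1 := by rw [hk2]; field_simp
  set K : E2 → ℝ := fun x => k1 * I.u x + k2 * I.v x with hK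
  set C : E2 → ℝ := fun x => cos (2 * π * K x) with hC
  set S : E2 → ℝ := fun x => k1 / (2 * π * n) * sin (2 * π * K x) with hS
  have sK : ContDiff ℝ ∞ K :=
    (contDiff_const.mul I.smooth_u).add (contDiff_const.mul I.smooth_v)
  have pK : ∀ (x : E2) (a b : ℤ), K (x + ((a : ℝ), (b : ℝ))) = K x + ((a * m + b : ℤ) : ℝ) := by
    intro x a b
    simp only [K, I.per_u x a b, I.per_v x a b]
    push_cast
    linear_combination (a : ℝ) * hper1 + (b : ℝ) * hper2
  have pcs : ∀ (x : E2) (a b : ℤ), cos (2 * π * K (x + ((a : ℝ), (b : ℝ)))) = cos (2 * π * K x) ∧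
      sin (2 * π * K (x + ((a : ℝ), (b : ℝ)))) = sin (2 * π * K x) := fun x a b => by
    rw [pK, mul_add, mul_comm (2 * π) ((a * m + b : ℤ) : ℝ)]
    exact ⟨cos_add_int_mul_two_pi _ _, sin_add_int_mul_two_pi _ _⟩
  have sC : ContDiff ℝ ∞ C := (contDiff_const.mul sK).cos
  have sS : ContDiff ℝ ∞ S := contDiff_const.mul (contDiff_const.mul sK).sin
  set Ψ : ℝ → E2 → ℝ := fun η x =>
    k2 / n * prim η (K x) + k1 / n * (k1 * I.v x - k2 * I.u x) with hΨ
  have du : ∀ x, DifferentiableAt ℝ I.u x := fun x => I.smooth_u.differentiable (by simp) x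
  have dv : ∀ x, DifferentiableAt ℝ I.v x := fun x => I.smooth_v.differentiable (by simp) x
  have pdK : ∀ i x, pd i K x = k1 * pd i I.u x + k2 * pd i I.v x := fun i x => by
    have h : HasFDerivAt K (k1 • fderiv ℝ I.u x + k2 • fderiv ℝ I.v x) x :=
      ((du x).hasFDerivAt.const_mul k1).add ((dv x).hasFDerivAt.const_mul k2)
    show fderiv ℝ K x (e i) = _
    rw [h.fderiv]
    rfl
  have pdS : ∀ i x, pd i S x = k1 / n * C x * pd i K x := fun i x => by
    have h : HasFDerivAt S _ x :=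
      (((sK.differentiable (by simp) x).hasFDerivAt.const_mul (2 * π)).sin).const_mul
        (k1 / (2 * π * n))
    show fderiv ℝ S x (e i) = _
    rw [h.fderiv]
    simp [C, pd]
    field_simp
  have sΨ : ∀ η : ℝ, |η| ≤ 1 / 2 → ContDiff ℝ ∞ (Ψ η) := fun η hη =>
    (contDiff_const.mul ((contDiff_prim hη).comp sK)).add
      (contDiff_const.mul ((contDiff_const.mul I.smooth_v).sub (contDiff_const.mul I.smooth_u)))
  have pdΨ : ∀ η : ℝ, |η| ≤ 1 / 2 → ∀ i x, pd i (Ψ η) x
      = k2 / n * (1 / (1 + η * C x)) * pd i K x + k1 / n * (k1 * pd i I.v x - k2 * pd i I.u x) := by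
    intro η hη i x
    have h : HasFDerivAt (Ψ η) _ x :=
      (((hasDerivAt_prim hη (K x)).comp_hasFDerivAt x
        (sK.differentiable (by simp) x).hasFDerivAt).const_mul (k2 / n)).add
        ((((dv x).hasFDerivAt.const_mul k1).sub ((du x).hasFDerivAt.const_mul k2)).const_mul
          (k1 / n))
    show fderiv ℝ (Ψ η) x (e i) = _
    rw [h.fderiv]
    simp [C, pd]
    ring
  have flux : ∀ η : ℝ, |η| ≤ 1 / 2 → baseFlux g I C S η 0 = pd 1 (Ψ η) ∧
      baseFlux g I C S η 1 = fun x => -pd 0 (Ψ η) x := by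
    intro η hη
    have hpt : ∀ x, baseFlux g I C S η 0 x = pd 1 (Ψ η) x ∧
        baseFlux g I C S η 1 x = -pd 0 (Ψ η) x := fun x => by
      have hν : 1 + η * C x ≠ 0 := (den_pos hη _ (abs_cos_le_one _)).ne'
      obtain ⟨hsym, hdet⟩ := cond_facts g x
      have c0 := I.cr0 x
      have c1 := I.cr1 x
      have hd0 : g.cond 0 0 x * pd 0 I.v x + g.cond 0 1 x * pd 1 I.v x = -pd 1 I.u x := by
        linear_combination (-(g.cond 0 1 x)) * c0 + g.cond 0 0 x * c1
          + (g.cond 0 0 x * pd 0 I.u x) * hsym - pd 1 I.u x * hdet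
      have hd1 : g.cond 1 0 x * pd 0 I.v x + g.cond 1 1 x * pd 1 I.v x = pd 0 I.u x := by
        rw [← hsym] at c1 ⊢
        linear_combination (-(g.cond 1 1 x)) * c0 + g.cond 0 1 x * c1 + pd 0 I.u x * hdet
      simp only [baseFlux, Fin.sum_univ_two, pdS, pdK, pdΨ η hη]
      constructor
      · field_simp
        linear_combination (n + η * k1 * C x * k1) * c0 + η * k1 * C x * k2 * hd0
          + pd 1 I.v x * hn
      · field_simp
        linear_combination (n + η * k1 * C x * k1) * c1 + η * k1 * C x * k2 * hd1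
          - pd 0 I.v x * hn
    exact ⟨funext fun x => (hpt x).1, funext fun x => (hpt x).2⟩
  refine ⟨C, S, sC, sS, fun x a b => by simp only [C, (pcs x a b).1],
    fun x a b => by simp only [S, (pcs x a b).2], fun x => abs_cos_le_one _, fun η hη x => ?_,
    fun η0 h0 h0' => ?_⟩
  · rw [(flux η hη).1, (flux η hη).2]
    have : pd 1 (fun y => -pd 0 (Ψ η) y) x = -pd 1 (pd 0 (Ψ η)) x := by
      simp [pd]; rfl
    rw [this, pd_comm (sΨ η hη) x]
    ring
  have periods : ∀ η : ℝ, |η| ≤ 1 / 2 →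
      avg2 (baseFlux g I C S η 0) = I.τ2 + (prim η 1 - 1) * (k2 / n) ∧
      -avg2 (baseFlux g I C S η 1) = I.τ1 + (prim η 1 - 1) * (k2 / n) * m := by
    intro η hη
    have hΨs : ∀ (x : E2) (a b : ℤ), Ψ η (x + ((a : ℝ), (b : ℝ))) = Ψ η x
        + (k2 / n * ((a * m + b : ℤ) * prim η 1)
          + k1 / n * (k1 * (a * I.τ1 + b * I.τ2) - k2 * a)) := fun x a b => by
      simp only [Ψ, pK x a b, prim_add_int hη, I.per_u x a b, I.per_v x a b]
      ring
    constructor
    · rw [(flux η hη).1]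
      refine mean2_pd_one (sΨ η hη) fun x => ?_
      have h := hΨs (x, 0) 0 1
      simp only [Int.cast_zero, Int.cast_one, Prod.mk_add_mk, add_zero, zero_add] at h
      rw [h]
      push_cast
      field_simp
      linear_combination (-k2) * hper2 - I.τ2 * hn
    · rw [(flux η hη).2, mean2_neg, neg_neg]
      refine mean2_pd_zero (sΨ η hη) fun y => ?_
      have h := hΨs (0, y) 1 0
      simp only [Int.cast_zero, Int.cast_one, Prod.mk_add_mk, add_zero, zero_add] at h
      rw [h]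
      push_cast
      field_simp
      linear_combination (-k2) * hper1 - I.τ1 * hn
  have hp0 : prim 0 1 = 1 := by simp [prim]
  have hM := prim_one_gt h0 h0'
  have a0 : |η0| ≤ 1 / 2 := by rwa [abs_of_pos h0]
  obtain ⟨A0, B0⟩ := periods 0 (by simp)
  obtain ⟨A1, B1⟩ := periods η0 a0
  set δ := (prim η0 1 - 1) * (k2 / n) with hδ
  have hδp : 0 < δ := mul_pos (by linarith) (div_pos hk2p hnp)
  rw [hp0, sub_self, zero_mul, add_zero] at A0
  rw [hp0, sub_self, zero_mul, zero_mul, add_zero] at B0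
  obtain ⟨r, hr0, hr1⟩ : ∃ r : ℚ, I.τ1 / I.τ2 < r ∧ (r : ℝ) < (I.τ1 + δ * m) / (I.τ2 + δ) := by
    refine exists_rat_btwn ?_
    rw [div_lt_div_iff₀ hτ (add_pos hτ hδp)]
    rw [div_lt_iff₀ hτ] at hm
    nlinarith
  refine ⟨r.num, r.den, by exact_mod_cast r.pos, ?_⟩
  push_cast
  rw [A0, B0, A1, B1]
  have hq : (0 : ℝ) < r.den := by exact_mod_cast r.pos
  rw [Rat.cast_def] at hr0 hr1
  rw [div_lt_div_iff₀ hτ hq] at hr0
  rw [div_lt_div_iff₀ hq (add_pos hτ hδp)] at hr1
  exact mul_neg_of_neg_of_pos (by linarith) (by linarith)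

end Vale.Agent.P205
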