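import Vale.Agent.P205.CoreCtx
import Vale.Agent.P205.CoreBase

/-!
# P205, core: averages, the energy argument and periodic primitives
-/

namespace Vale.Agent.P205

open Real MeasureTheory Set
open scoped ContDiff

variable {f g : E2 → ℝ}

lemma SP.log (hf : SP f) (h : ∀ x, f x ≠ 0) : SP fun x => Real.log (f x) :=
  ⟨hf.1.log h, fun x a b => by simp [hf.2 x a b]⟩

lemma SP.pow (hf : SP f) (n : ℕ) : SP fun x => f x ^ n :=
  ⟨hf.1.pow n, fun x a b => by simp [hf.2 x a b]⟩

lemma contDiff_pdR (hf : ContDiff ℝ ∞ f) (i : Fin 2) : ContDiff ℝ ∞ (pd i f) :=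
  (hf.fderiv_right (m := ∞) (by simp)).clm_apply contDiff_const

lemma pd_mul (hf : ContDiff ℝ ∞ f) (hg : ContDiff ℝ ∞ g) (i : Fin 2) (x : E2) :
    Vale.Agent.P205.pd i (fun y => f y * g y) x = pd i f x * g x + f x * pd i g x := by
  have h := ((hf.differentiable (by simp) x).hasFDerivAt.mul
    (hg.differentiable (by simp) x).hasFDerivAt).fderiv
  show fderiv ℝ (f * g) x (e i) = _
  rw [h]
  simp [Vale.Agent.P205.pd]
  ring

lemma pd_add (hf : ContDiff ℝ ∞ f) (hg : ContDiff ℝ ∞ g) (i : Fin 2) (x : E2) :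
    Vale.Agent.P205.pd i (fun y => f y + g y) x = pd i f x + pd i g x := by
  have h := ((hf.differentiable (by simp) x).hasFDerivAt.add
    (hg.differentiable (by simp) x).hasFDerivAt).fderiv
  show fderiv ℝ (f + g) x (e i) = _
  rw [h]; rfl

lemma pd_sub (hf : ContDiff ℝ ∞ f) (hg : ContDiff ℝ ∞ g) (i : Fin 2) (x : E2) :
    Vale.Agent.P205.pd i (fun y => f y - g y) x = pd i f x - pd i g x := by
  have h := ((hf.differentiable (by simp) x).hasFDerivAt.sub
    (hg.differentiable (by simp) x).hasFDerivAt).fderiv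
  show fderiv ℝ (f - g) x (e i) = _
  rw [h]; rfl

lemma mean_eq_avg2 (hf : Continuous f) : (fc (cx f) 0).re = avg2 f := by
  have h : fc (cx f) 0 = ((avg2 f : ℝ) : ℂ) := by
    simp [fc, cx, chr, avg2, intervalIntegral.integral_ofReal]
  rw [h, Complex.ofReal_re]

lemma avg2_add (hf : Continuous f) (hg : Continuous g) :
    avg2 (fun x => f x + g x) = avg2 f + avg2 g := by
  have hfg : Continuous fun x => f x + g x := hf.add hg
  rw [← mean_eq_avg2 hfg, ← mean_eq_avg2 hf, ← mean_eq_avg2 hg, ← Complex.add_re]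
  exact congrArg Complex.re
    (fc_cx_add (Complex.continuous_ofReal.comp hf) (Complex.continuous_ofReal.comp hg) 0)

lemma avg2_pd (hf : SP f) (i : Fin 2) : avg2 (pd i f) = 0 := by
  fin_cases i
  · exact BaseAux.mean2_pd_zero hf.1 fun y => by
      have := hf.2 (0, y) 1 0; simpa using this
  · exact BaseAux.mean2_pd_one hf.1 fun x => by
      have := hf.2 (x, 0) 0 1; simpa using this

lemma Per.reduce {α : Type*} {f : E2 → α} (hf : Per f) (x : E2) :
    f x = f (Int.fract x.1, Int.fract x.2) := by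
  have h := hf (Int.fract x.1, Int.fract x.2) ⌊x.1⌋ ⌊x.2⌋
  rw [show ((Int.fract x.1, Int.fract x.2) : E2) + ((⌊x.1⌋ : ℝ), (⌊x.2⌋ : ℝ)) = x by
    ext <;> simp [Int.fract_add_floor]] at h
  exact h

lemma exists_pos_lower (hf : Continuous f) (hp : Per f) (h : ∀ x, 0 < f x) :
    ∃ c : ℝ, 0 < c ∧ ∀ x, c ≤ f x := by
  obtain ⟨z, -, hz⟩ := ((isCompact_Icc (a := (0 : ℝ)) (b := 1)).prod
    (isCompact_Icc (a := (0 : ℝ)) (b := 1))).exists_isMinOn
    ⟨((0 : ℝ), (0 : ℝ)), by simp⟩ hf.continuousOn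
  refine ⟨f z, h z, fun x => ?_⟩
  rw [hp.reduce x]
  exact hz ⟨⟨Int.fract_nonneg _, (Int.fract_lt_one _).le⟩, ⟨Int.fract_nonneg _,
    (Int.fract_lt_one _).le⟩⟩

lemma eq_zero_of_avg2 (hf : Continuous f) (hp : Per f) (h0 : ∀ x, 0 ≤ f x) (h : avg2 f = 0)
    (x : E2) : f x = 0 := by
  by_contra hne
  set a := Int.fract x.1
  set b := Int.fract x.2
  have hpos : 0 < f (a, b) := (lt_of_le_of_ne (h0 x) (Ne.symm hne)).trans_eq (hp.reduce x)
  have hg : Continuous fun s : ℝ => ∫ t in (0 : ℝ)..1, f (s, t) :=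
    intervalIntegral.continuous_parametric_intervalIntegral_of_continuous'
      (show Continuous (Function.uncurry fun s t => f (s, t)) from hf) 0 1
  have : 0 < avg2 f := by
    refine intervalIntegral.integral_pos zero_lt_one hg.continuousOn (fun s _ =>
      intervalIntegral.integral_nonneg zero_le_one fun t _ => h0 _) ⟨a,
      ⟨Int.fract_nonneg _, (Int.fract_lt_one _).le⟩, ?_⟩
    exact intervalIntegral.integral_pos zero_lt_one (hf.comp (by fun_prop)).continuousOn
      (fun t _ => h0 _) ⟨b, ⟨Int.fract_nonneg _, (Int.fract_lt_one _).le⟩, hpos⟩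
  exact this.ne' h

/-- A periodic solution of a uniformly elliptic equation with constant right side is constant. -/
lemma eq_const_of_energy {a00 a01 a11 L : E2 → ℝ} {c : ℝ} (h00 : SP a00) (h01 : SP a01)
    (h11 : SP a11) (hL : SP L) (hp : ∀ x, 0 < a00 x) (hd : ∀ x, a01 x ^ 2 < a00 x * a11 x)
    (h : ∀ x, pd 0 (fun y => a00 y * pd 0 L y + a01 y * pd 1 L y) x
      + pd 1 (fun y => a01 y * pd 0 L y + a11 y * pd 1 L y) x = c) :
    (∀ i x, pd i L x = 0) ∧ ∀ x, L x = L 0 := by
  set V0 := fun y => a00 y * pd 0 L y + a01 y * pd 1 L y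
  set V1 := fun y => a01 y * pd 0 L y + a11 y * pd 1 L y
  have s0 : SP V0 := (h00.mul (hL.pd 0)).add (h01.mul (hL.pd 1))
  have s1 : SP V1 := (h01.mul (hL.pd 0)).add (h11.mul (hL.pd 1))
  have hc : c = 0 := by
    have h2 := avg2_add (s0.pd 0).1.continuous (s1.pd 1).1.continuous
    rw [avg2_pd s0, avg2_pd s1, add_zero, show (fun x => pd 0 V0 x + pd 1 V1 x) = fun _ => c from
      funext h] at h2
    simpa [avg2] using h2
  set E := fun y => pd 0 L y * V0 y + pd 1 L y * V1 y with hE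
  have sE : SP E := ((hL.pd 0).mul s0).add ((hL.pd 1).mul s1)
  have hid : E = fun y => pd 0 (fun z => L z * V0 z) y + pd 1 (fun z => L z * V1 z) y := by
    funext y
    rw [pd_mul hL.1 s0.1, pd_mul hL.1 s1.1]
    have := h y
    rw [hc] at this
    simp only [E]
    linear_combination -(L y) * this
  have hE0 : avg2 E = 0 := by
    rw [hid, avg2_add ((hL.mul s0).pd 0).1.continuous ((hL.mul s1).pd 1).1.continuous,
      avg2_pd (hL.mul s0), avg2_pd (hL.mul s1), add_zero]
  have key : ∀ y, a00 y * E y = (a00 y * pd 0 L y + a01 y * pd 1 L y) ^ 2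
      + (a00 y * a11 y - a01 y ^ 2) * pd 1 L y ^ 2 := fun y => by simp only [E, V0, V1]; ring
  have hnn : ∀ y, 0 ≤ E y := fun y => by
    have := hd y
    have h1 : 0 ≤ a00 y * E y := by rw [key]; positivity
    exact nonneg_of_mul_nonneg_right (by linarith) (hp y)
  have hz : ∀ i y, pd i L y = 0 := by
    intro i y
    have h0 := eq_zero_of_avg2 sE.1.continuous sE.2 hnn hE0 y
    have h1 := key y
    rw [h0, mul_zero] at h1
    have hdd : 0 < a00 y * a11 y - a01 y ^ 2 := sub_pos.2 (hd y)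
    have h2 : pd 1 L y = 0 := by
      have : (a00 y * a11 y - a01 y ^ 2) * pd 1 L y ^ 2 = 0 := by
        nlinarith [sq_nonneg (a00 y * pd 0 L y + a01 y * pd 1 L y),
          mul_nonneg hdd.le (sq_nonneg (pd 1 L y))]
      simpa [hdd.ne'] using this
    have h3 : pd 0 L y = 0 := by
      rw [h2] at h1
      simpa [(hp y).ne'] using h1.symm
    fin_cases i
    exacts [h3, h2]
  refine ⟨hz, fun x => is_const_of_fderiv_eq_zero (hL.1.differentiable (by simp)) (fun y => ?_) x 0⟩
  have h0 := hz 0 y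
  have h1 := hz 1 y
  simp only [Vale.Agent.P205.pd, e] at h0 h1
  apply ContinuousLinearMap.ext
  intro v
  have : v = v.1 • ((1 : ℝ), (0 : ℝ)) + v.2 • ((0 : ℝ), (1 : ℝ)) := by ext <;> simp
  rw [this, map_add, map_smul, map_smul]
  simp at h0 h1
  simp [h0, h1]

/-- Members of all the spaces are smooth and periodic. -/
lemma Facts.sp_of (F : Facts) (h : ∀ j, ∃ P : Par, P.j = j ∧ ∃ M, RB P 4 f M) : SP f := by
  obtain ⟨P, -, M, hM⟩ := h 0
  have hc := F.smoothOut (cx f) 4 (by norm_num) fun j => h j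
  refine ⟨?_, hM.per⟩
  have := Complex.reCLM.contDiff.comp hc
  simpa [cx, Function.comp_def] using this

/-- Members at a point of the parameters with `j = 0`. -/
lemma Facts.rb_of_sp (F : Facts) (hf : SP f) {P : Par} (hP : P.j = 0) (s : ℕ) :
    ∃ M, RB P s f M := by
  obtain ⟨M, hM⟩ := F.smoothMem (cx f) (Complex.ofRealCLM.contDiff.comp hf.1)
    (fun x a b => by simp [cx, hf.2 x a b]) P.R0 P.one_le_R0 s
  obtain ⟨R1, hR1⟩ := hM 0
  exact ⟨M, hR1 P rfl hP (Or.inl rfl)⟩

/-- A closed periodic form has a periodic primitive up to its mean. -/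
lemma Facts.primitive (F : Facts) {w : Fin 2 → E2 → ℝ} (hw : ∀ i, SP (w i))
    (hc : ∀ x, pd 1 (w 0) x = pd 0 (w 1) x) :
    ∃ R : E2 → ℝ, SP R ∧ ∀ i x, pd i R x = w i x - avg2 (w i) := by
  set R : E2 → ℝ := fun x => Ginv (w 0) 0 x + Ginv (w 1) 1 x
  have hwP : ∀ j, ∃ P : Par, P.j = j ∧ ∀ i, ∃ M, RB P 4 (w i) M := by
    intro j
    have h := fun i => F.smoothMem (cx (w i)) (Complex.ofRealCLM.contDiff.comp (hw i).1)
      (fun x a b => by simp [cx, (hw i).2 x a b]) 1 le_rfl 4
    choose M hM using h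
    choose R1 hR1 using fun i => hM i j
    exact ⟨⟨1, max 1 (max (R1 0) (R1 1)), j, le_rfl, le_max_left _ _⟩, rfl, fun i =>
      ⟨M i, hR1 i _ rfl rfl (Or.inr (by
        fin_cases i
        exacts [le_trans (le_max_left _ _) (le_max_right _ _),
          le_trans (le_max_right _ _) (le_max_right _ _)]))⟩⟩
  have sR : SP R := F.sp_of fun j => by
    obtain ⟨P, hPj, hP⟩ := hwP j
    obtain ⟨M0, h0⟩ := hP 0
    obtain ⟨M1, h1⟩ := hP 1
    exact ⟨P, hPj, _, (((F.ginv (by norm_num) h0 0).1.add (F.ginv (by norm_num) h1 1).1)).weaken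
      (by norm_num)⟩
  refine ⟨R, sR, fun i x => ?_⟩
  obtain ⟨P, hPj, hP⟩ := hwP 0
  choose M hM using hP
  have hR := (F.ginv (by norm_num : 3 ≤ 4) (hM 0) 0).1.add (F.ginv (by norm_num) (hM 1) 1).1
  obtain ⟨-, hdR⟩ := F.dop_eq_pd (by norm_num : 4 ≤ 5) hR
  rw [← hdR]
  have hc0 : ∀ n, dsym 1 n * fc (cx (w 0)) n = dsym 0 n * fc (cx (w 1)) n := fun n => by
    have e : Dop 1 (w 0) = Dop 0 (w 1) := by
      funext y
      rw [(F.dop_eq_pd le_rfl (hM 0)).2, (F.dop_eq_pd le_rfl (hM 1)).2, hc]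
    have := congrArg (fun f => fc (cx f) n) e
    simpa only [F.fc_dop le_rfl (hM 0), F.fc_dop le_rfl (hM 1)] using this
  have key := F.ext (le_refl 3) ((F.dop (by norm_num : 3 ≤ 4) hR i).weaken (by norm_num))
    (((hM i).sub (F.rb_const P (by norm_num) (avg2 (w i)))).weaken (by norm_num)) fun n => by
    rw [F.fc_dop (by norm_num : 3 ≤ 4) hR]
    simp only [fc_cx_add (F.ginv (by norm_num) (hM 0) 0).1.1 (F.ginv (by norm_num) (hM 1) 1).1.1,
      (F.ginv (by norm_num : 3 ≤ 4) (hM _) _).2]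
    have e2 : (fun y => w i y - avg2 (w i)) = fun y => w i y + (-1) * (fun _ => avg2 (w i)) y :=
      funext fun y => by ring
    rw [e2, fc_cx_add (hM i).1 ((F.rb_const P (by norm_num : 3 ≤ 4) (avg2 (w i))).const_mul (-1)).1,
      fc_cx_smul, mul_add, ← mul_assoc, ← mul_assoc, dsym_gsym, dsym_gsym]
    by_cases hn : n = 0
    · subst hn
      have e3 : fc (cx (w i)) 0 = ((avg2 (w i) : ℝ) : ℂ) := by
        simp [fc, cx, chr, avg2, intervalIntegral.integral_ofReal]
      simp [psym, fr, e3]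
      simp [fc, cx, chr]
    · have hq : (n.1 : ℂ) ^ 2 + (n.2 : ℂ) ^ 2 ≠ 0 := fun hq => hn (by
        have h2 : ((n.1 ^ 2 + n.2 ^ 2 : ℤ) : ℂ) = 0 := by exact_mod_cast hq
        have h3 : n.1 ^ 2 + n.2 ^ 2 = 0 := Int.cast_eq_zero.1 h2
        exact Prod.ext (by nlinarith [sq_nonneg n.1, sq_nonneg n.2] : n.1 = 0)
          (by nlinarith [sq_nonneg n.1, sq_nonneg n.2] : n.2 = 0))
      have hz : fc (cx fun _ : E2 => avg2 (w i)) n = 0 := by
        obtain ⟨C, hC⟩ := F.eval P.R0 P.one_le_R0 4 (by norm_num)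
        set a : Co := fun k => if k = 0 then ((avg2 (w i) : ℝ) : ℂ) else 0 with ha
        have hev : ev a = cx fun _ => avg2 (w i) := by
          funext y; rw [ev, tsum_eq_single 0 fun k hk => by simp [a, hk]]; simp [a, cx, chr]
        have hb : Bd P 4 a |avg2 (w i)| := by
          refine ⟨abs_nonneg _, fun S => le_trans (Finset.sum_le_sum fun k _ => le_of_eq (?_ :
            _ = if k = 0 then |avg2 (w i)| ^ 2 else 0)) ?_⟩
          · by_cases hk : k = 0
            · subst hk; simp [a, len_zero_wt]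
            · simp [a, hk]
          · rw [Finset.sum_ite_eq' S (0 : ℤ × ℤ) fun _ => |avg2 (w i)| ^ 2]
            split <;> simp [sq_nonneg]
        have := ((hC P rfl).1 a _ hb).2.2.2.2
        rw [hev] at this
        rw [this]; simp [a, hn]
      have h01 : (n.2 : ℂ) * fc (cx (w 0)) n = (n.1 : ℂ) * fc (cx (w 1)) n := by
        have := hc0 n
        simp [dsym, fr] at this
        apply mul_left_cancel₀ (by simp [pi_ne_zero, Complex.I_ne_zero] :
          (2 * (π : ℂ) * Complex.I) ≠ 0)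
        linear_combination this
      rw [hz]
      fin_cases i <;> simp [psym, fr] <;> field_simp
      · linear_combination (n.2 : ℂ) * h01 * (-1)
      · linear_combination (n.1 : ℂ) * h01
  simpa using congrFun key x

end Vale.Agent.P205
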