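import Vale.Agent.P205.CoreMap

/-!
# P205, core: the Newton map contracts
-/

namespace Vale.Agent.P205

open Real
open scoped ContDiff

namespace Est

variable {K : Ctx} {z0 : St} {s n m : ℕ} {F G : ℝ → ℝ → St → E2 → ℝ} {F0 G0 : E2 → ℝ}

/-- Equality only on the ball suffices. -/
lemma congrOn (h : Est K z0 s n F F0)
    (e : ∀ P, K.Adm P → ∀ η ε δ z, |η| ≤ δ → |ε| ≤ δ → δ ≤ 1 → Close P z z0 (fun _ => δ) →
      ∀ x, F η ε z x = G η ε z x) :
    Est K z0 s n G F0 := by
  obtain ⟨h0, C, hC, h⟩ := h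
  refine ⟨h0, C, hC, fun P hP η ε δ z a b c w => ?_⟩
  obtain ⟨q1, q2⟩ := h P hP η ε δ z a b c w
  refine ⟨q1.congr fun x => by rw [e P hP η ε δ z a b c w x], fun z' η' ε' d a' bε w' hd hc => ?_⟩
  exact (q2 z' η' ε' d a' bε w' hd hc).congr fun x => by
    rw [e P hP η ε δ z a b c w x, e P hP η' ε' δ z' a' bε c w' x]

/-- A factor that vanishes at the base point. -/
lemma mul_small (hs : 3 ≤ s) (hF : Est K z0 s n F (fun _ => 0)) (hG : Est K z0 s m G G0) :
    Est K z0 s n (fun η ε z x => F η ε z x * G η ε z x) (fun _ => 0) := by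
  obtain ⟨-, C, hC, hF⟩ := hF
  obtain ⟨⟨N, hN⟩, D, hD, hG⟩ := hG
  obtain ⟨a, ha⟩ := K.F.alg K.R0 K.hR0 s hs
  have prod : ∀ P, K.Adm P → ∀ f h M N, RB P s f M → RB P s h N →
      RB P s (fun x => f x * h x) (|a| * M * N) := fun P hP f h M N hf hh => by
    have := ha P (K.adm_R0 P hP) _ _ M N hf hh
    have e : cx (fun x => f x * h x) = fun x => cx f x * cx h x := by funext x; simp [cx]
    have h2 : RB P s (fun x => f x * h x) (a * M * N) := by unfold RB; rwa [e]
    exact h2.mono (mul_le_mul_of_nonneg_right (mul_le_mul_of_nonneg_right (le_abs_self a) hf.nonneg)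
      hh.nonneg)
  refine ⟨⟨0, fun P _ => RB.zero P s⟩, |a| * (C * (|N| + D) + 2 * (C * D)), by positivity,
    fun P hP η ε δ z h1 h2 hδ e => ?_⟩
  have hδ0 : 0 ≤ δ := (abs_nonneg η).trans h1
  obtain ⟨f1, f2⟩ := hF P hP η ε δ z h1 h2 hδ e
  simp only [sub_zero] at f1
  obtain ⟨g1, g2⟩ := hG P hP η ε δ z h1 h2 hδ e
  have hG' := (g1.add (hN P hP)).congr (h := G η ε z) fun x => sub_add_cancel _ _
  have hN0 := (hN P hP).nonneg
  have bG : D * δ + N ≤ |N| + D := by nlinarith [le_abs_self N, mul_le_mul_of_nonneg_left hδ hD]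
  refine ⟨?_, fun z' η' ε' d a' bε e' hd hc => ?_⟩
  · refine ((prod P hP _ _ _ _ f1 hG').mono ?_).congr fun x => (sub_zero _).symm
    calc |a| * (C * δ) * (D * δ + N) ≤ |a| * (C * δ) * (|N| + D) := by gcongr
      _ ≤ _ := by nlinarith [mul_nonneg (abs_nonneg a) (mul_nonneg (mul_nonneg hC hD) hδ0)]
  · have hF' := (hF P hP η' ε' δ z' a' bε hδ e').1
    simp only [sub_zero] at hF'
    have hl : 0 ≤ low n d + δ * tot d + (|η - η'| + |ε - ε'|) := add_nonneg (add_nonneg (low_nonneg hd) (mul_nonneg hδ0 (tot_nonneg hd))) (add_nonneg (abs_nonneg _) (abs_nonneg _))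
    refine (((prod P hP _ _ _ _ (f2 z' η' ε' d a' bε e' hd hc) hG').add
      (prod P hP _ _ _ _ hF' (g2 z' η' ε' d a' bε e' hd hc))).mono ?_).congr fun x => by ring
    have hlow : δ * (low m d + δ * tot d + (|η - η'| + |ε - ε'|)) ≤ 2 * (low n d + δ * tot d + (|η - η'| + |ε - ε'|)) := by
      have h3 := mul_le_mul_of_nonneg_left (low_le_tot m hd) hδ0
      have h4 : δ * (δ * tot d) ≤ δ * tot d :=
        mul_le_of_le_one_left (mul_nonneg hδ0 (tot_nonneg hd)) hδ
      have h5 : δ * (|η - η'| + |ε - ε'|) ≤ (|η - η'| + |ε - ε'|) := mul_le_of_le_one_left (add_nonneg (abs_nonneg _) (abs_nonneg _)) hδ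
      nlinarith [low_nonneg (n := n) hd, abs_nonneg (η - η'), abs_nonneg (ε - ε')]
    calc |a| * (C * (low n d + δ * tot d + (|η - η'| + |ε - ε'|))) * (D * δ + N)
          + |a| * (C * δ) * (D * (low m d + δ * tot d + (|η - η'| + |ε - ε'|)))
        ≤ |a| * (C * (low n d + δ * tot d + (|η - η'| + |ε - ε'|))) * (|N| + D)
          + |a| * (C * D) * (2 * (low n d + δ * tot d + (|η - η'| + |ε - ε'|))) := by
          refine add_le_add (by gcongr) ?_
          calc |a| * (C * δ) * (D * (low m d + δ * tot d + (|η - η'| + |ε - ε'|)))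
              = |a| * (C * D) * (δ * (low m d + δ * tot d + (|η - η'| + |ε - ε'|))) := by ring
            _ ≤ _ := mul_le_mul_of_nonneg_left hlow (by positivity)
      _ = _ := by ring

/-- Two factors that vanish at the base point. -/
lemma mul_small₂ (hs : 3 ≤ s) (hF : Est K z0 s n F (fun _ => 0))
    (hG : Est K z0 s m G (fun _ => 0)) :
    Est K z0 s 0 (fun η ε z x => F η ε z x * G η ε z x) (fun _ => 0) := by
  obtain ⟨-, C, hC, hF⟩ := hF
  obtain ⟨-, D, hD, hG⟩ := hG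
  obtain ⟨a, ha⟩ := K.F.alg K.R0 K.hR0 s hs
  have prod : ∀ P, K.Adm P → ∀ f h M N, RB P s f M → RB P s h N →
      RB P s (fun x => f x * h x) (|a| * M * N) := fun P hP f h M N hf hh => by
    have := ha P (K.adm_R0 P hP) _ _ M N hf hh
    have e : cx (fun x => f x * h x) = fun x => cx f x * cx h x := by funext x; simp [cx]
    have h2 : RB P s (fun x => f x * h x) (a * M * N) := by unfold RB; rwa [e]
    exact h2.mono (mul_le_mul_of_nonneg_right (mul_le_mul_of_nonneg_right (le_abs_self a) hf.nonneg)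
      hh.nonneg)
  refine ⟨⟨0, fun P _ => RB.zero P s⟩, 4 * (|a| * (C * D)), by positivity,
    fun P hP η ε δ z h1 h2 hδ e => ?_⟩
  have hδ0 : 0 ≤ δ := (abs_nonneg η).trans h1
  obtain ⟨f1, f2⟩ := hF P hP η ε δ z h1 h2 hδ e
  obtain ⟨g1, g2⟩ := hG P hP η ε δ z h1 h2 hδ e
  simp only [sub_zero] at f1 g1
  refine ⟨((prod P hP _ _ _ _ f1 g1).mono ?_).congr fun x => (sub_zero _).symm,
    fun z' η' ε' d a' bε e' hd hc => ?_⟩
  · have hX : 0 ≤ |a| * (C * D) := by positivity
    calc |a| * (C * δ) * (D * δ) = |a| * (C * D) * δ * δ := by ring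
      _ ≤ |a| * (C * D) * δ * 1 := mul_le_mul_of_nonneg_left hδ (mul_nonneg hX hδ0)
      _ ≤ 4 * (|a| * (C * D)) * δ := by linarith [mul_nonneg hX hδ0]
  · have hF' := (hF P hP η' ε' δ z' a' bε hδ e').1
    simp only [sub_zero] at hF'
    refine (((prod P hP _ _ _ _ (f2 z' η' ε' d a' bε e' hd hc) g1).add
      (prod P hP _ _ _ _ hF' (g2 z' η' ε' d a' bε e' hd hc))).mono ?_).congr fun x => by ring
    have hn := low_le_tot n hd
    have hm := low_le_tot m hd
    have ht := tot_nonneg hd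
    have hl0 : 0 ≤ low 0 d := low_nonneg hd
    have he := add_nonneg (abs_nonneg (η - η')) (abs_nonneg (ε - ε'))
    have h3 : low n d + δ * tot d + (|η - η'| + |ε - ε'|) ≤ 2 * tot d + (|η - η'| + |ε - ε'|) := by nlinarith
    have h4 : low m d + δ * tot d + (|η - η'| + |ε - ε'|) ≤ 2 * tot d + (|η - η'| + |ε - ε'|) := by nlinarith
    have hu : δ * (2 * tot d + (|η - η'| + |ε - ε'|)) ≤ 2 * (low 0 d + δ * tot d + (|η - η'| + |ε - ε'|)) := by
      nlinarith [mul_le_of_le_one_left he hδ]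
    calc |a| * (C * (low n d + δ * tot d + (|η - η'| + |ε - ε'|))) * (D * δ)
          + |a| * (C * δ) * (D * (low m d + δ * tot d + (|η - η'| + |ε - ε'|)))
        ≤ |a| * (C * (2 * tot d + (|η - η'| + |ε - ε'|))) * (D * δ)
          + |a| * (C * δ) * (D * (2 * tot d + (|η - η'| + |ε - ε'|))) := by gcongr
      _ = 2 * (|a| * (C * D)) * (δ * (2 * tot d + (|η - η'| + |ε - ε'|))) := by ring
      _ ≤ 2 * (|a| * (C * D)) * (2 * (low 0 d + δ * tot d + (|η - η'| + |ε - ε'|))) :=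
          mul_le_mul_of_nonneg_left hu (by positivity)
      _ = _ := by ring

end Est

lemma Est.rb {K : Ctx} {z0 : St} {s n : ℕ} {F : ℝ → ℝ → St → E2 → ℝ} {F0 : E2 → ℝ} (hF : Est K z0 s n F F0) {P : Par} (hP : K.Adm P) {η ε δ : ℝ} {z : St} (a : |η| ≤ δ)
    (b : |ε| ≤ δ) (c : δ ≤ 1) (e : Close P z z0 (fun _ => δ)) : ∃ B, RB P s (F η ε z) B := by
  obtain ⟨⟨M, hM⟩, C, hC, h⟩ := hF
  exact ⟨_, ((h P hP η ε δ z a b c e).1.add (hM P hP)).congr fun x => sub_add_cancel _ _⟩

lemma Pop_zero (i : Fin 2) : Pop (fun _ _ => (0 : ℝ)) i = fun _ => 0 := by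
  funext x; simp [Pop, mult, cx, fc, ev]

/-- A divergence free argument gives the zero potential. -/
lemma spot_eq_zero (F : Facts) {P : Par} {A : Fin 2 → Fin 2 → E2 → ℝ} {t : ℝ}
    {b : Fin 2 → E2 → ℝ} {B : ℝ} (hb : R2 P 4 b B) (hp : Pop b = fun _ _ => 0) (x : E2) :
    Spot A t b x = 0 := by
  have htb := R2.of (P := P) (s := 4) fun i => (hb.comp i).const_mul t
  have h0 : Pop (fun i x => t * b i x) = fun _ _ => 0 := by
    funext i
    refine F.ext (by norm_num) ((F.pop (by norm_num) htb).comp i) (RB.zero P 4) fun n => ?_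
    have h1 : fc (cx (Pop b i)) n = fc (cx fun _ => (0 : ℝ)) n := by rw [hp]
    have h2 : fc (cx fun _ => (0 : ℝ)) n = 0 := by simp [fc, cx]
    simp only [F.fc_pop (by norm_num) htb, F.fc_pop (by norm_num) hb, fc_cx_smul, h2,
      Fin.sum_univ_two] at h1 ⊢
    linear_combination (t : ℂ) * h1
  have hterm : ∀ k, term A t b k = fun _ _ => 0 := by
    intro k
    induction k with
    | zero => exact h0
    | succ k ih =>
      show Pop (Res A t (term A t b k)) = _
      rw [ih]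
      funext i
      rw [show Res A t (fun _ _ => (0 : ℝ)) = fun _ _ => 0 by funext i x; simp [Res], Pop_zero]
  simp [Spot, usol, hterm, Ginv, mult, cx, fc, ev]

/-- Pointwise relations at the base point. -/
structure BaseRel (D : Dat) : Prop where
  det_pos : ∀ x, 0 < D.g.det x
  N0_pos : ∀ x, 0 < D.N0 x
  rho0_pos : ∀ x, 0 < D.rho0 x
  cond_eq : ∀ i k x, D.m0 x * adjg D.g i k x = D.g.cond i k x
  m0_sq : ∀ x, D.g.det x * (D.m0 x * D.m0 x) = 1
  iq0_eq : ∀ x, D.N0 x * D.iq0 x = 1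
  ir0_eq : ∀ x, D.rho0 x * D.ir0 x = 1
  rho0_sq : ∀ x, D.rho0 x * D.rho0 x * D.N0 x = D.g.det x
  dir0 : ∀ i x, Dop i D.ir0 x = -(D.ir0 x * D.ir0 x * Dop i D.rho0 x)
  mean0 : (fc (cx fun x => 1 * (D.m0 x * D.v0 0 x)) 0).re = D.I.τ2
  popA : Pop (fun i x => 1 * (D.m0 x * D.v0 i x)) = fun _ _ => 0
  popL : Pop (fun i x => D.bL 0 0 D.z0 i x) = fun _ _ => 0

section contraction
variable {K : Ctx} {D : Dat}

lemma Close.base (P : Par) {δ : ℝ} (hδ : 0 ≤ δ) (z : St) :
    Close P z z (fun _ => δ) := by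
  have h : ∀ s (f : E2 → ℝ), RB P s (fun x => f x - f x) δ := fun s f =>
    ((RB.zero P s).mono hδ).congr fun x => (sub_self _).symm
  exact ⟨h _ _, h _ _, h _ _, by simpa using hδ, h _ _, h _ _, h _ _⟩

variable (hG : Good K D) (hB : BaseRel D)

include hG in
lemma est_Tiv : Est K D.z0 4 0 (fun η ε z => (D.T K.t η ε z).iv) (fun _ => 1) :=
  ((Est.ofFix (fix_const (by norm_num) 1)).sub
    (((Est.ofFix (hG.hC.weaken (by norm_num))).mono (by norm_num : 0 ≤ 1)).mul (by norm_num)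
      (est_iv (by norm_num)) |>.eta (by norm_num))).congr (fun _ _ _ _ => rfl) fun _ => sub_zero _

include hG hB in
lemma est_Tm : Est K D.z0 4 1 (fun η ε z => (D.T K.t η ε z).m) D.m0 := by
  have hμ : Est K D.z0 4 7 (fun _ _ z x => z.m x - D.m0 x) (fun _ => 0) :=
    ((est_m hG (by norm_num)).sub ((Est.ofFix (hG.hm.weaken (by norm_num))).mono (by norm_num))).congr
      (fun _ _ _ _ => rfl) fun _ => sub_self _
  have hg : Est K D.z0 4 0 (fun _ _ _ => D.g.det) D.g.det := Est.ofFix (est_det hG).1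
  have hΔ : Est K D.z0 4 0 (fun η ε z x => D.detH η ε z x - D.g.det x) (fun _ => 0) :=
    ((est_det hG).sub hg).congr (fun _ _ _ _ => rfl) fun _ => sub_self _
  have hm0 : Est K D.z0 4 0 (fun _ _ _ => D.m0) D.m0 := Est.ofFix (hG.hm.weaken (by norm_num))
  refine ((((hm0).sub ((hm0.smul (1 / 2)).mul (by norm_num)
    ((hg.mul (by norm_num) (hμ.mul_small₂ (by norm_num) hμ)).add
      (hΔ.mul_small (by norm_num) ((est_m hG (by norm_num : 1 < 2)).mul (by norm_num)
        (est_m hG (by norm_num))))))).mono (by norm_num)).congr (fun η ε z x => ?_) fun x => by simp)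
  simp only [Dat.T]
  linear_combination (z.m x - D.m0 x / 2) * hB.m0_sq x

include hG hB in
lemma est_Tbet (hne : ∃ P, K.Adm P) : Est K D.z0 5 2 (fun η ε z => (D.T K.t η ε z).bet) (fun _ => 0) := by
  have hc : ∀ i k, Est K D.z0 4 0 (fun _ _ _ => D.g.cond i k) (D.g.cond i k) := fun i k =>
    Est.ofFix ((hG.cond i k).weaken (by norm_num))
  have hdu : ∀ k, Est K D.z0 4 0 (fun _ _ _ => D.du k) (D.du k) := fun k =>
    Est.ofFix ((hG.du k).weaken (by norm_num))
  have hΔ : ∀ i k, Est K D.z0 4 2 (fun η ε z x => z.iv x * (z.m x * D.adjh η ε z i k x) - D.g.cond i k x)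
      (fun _ => 0) := fun i k =>
    (((est_iv (by norm_num)).mul (by norm_num) ((est_m hG (by norm_num)).mul (by norm_num)
      ((est_adjh hG i k).mono (by norm_num)))).sub ((hc i k).mono (by norm_num))).congr
      (fun _ _ _ _ => rfl) fun x => by simp [hB.cond_eq i k x]
  have hF2 : ∀ i, Est K D.z0 4 2
      (fun η ε z x => D.flux η ε z i x - ∑ k, D.g.cond i k x * Dop k z.bet x)
      (fun x => 1 * (D.m0 x * D.v0 i x)) := fun i => by
    refine (((((hc i 0).mul (by norm_num) (hdu 0)).add ((hc i 1).mul (by norm_num) (hdu 1))).mono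
      (by norm_num)).add (((hΔ i 0).mul_small (by norm_num) (est_al hG 0)).add
        ((hΔ i 1).mul_small (by norm_num) (est_al hG 1)))).congr (fun η ε z x => ?_) fun x => ?_
    · simp only [Dat.flux, Dat.vv, Dat.al, Fin.sum_univ_two]; ring
    · rw [← hB.cond_eq i 0 x, ← hB.cond_eq i 1 x]
      fin_cases i <;> simp [Dat.v0, adjg, Metric.comp] <;> ring
  refine ((Est.spot hF2).neg.congr (fun _ _ _ _ => rfl) (G0 := fun _ => 0) fun x => ?_).congrOn
    fun P hP η ε δ z ha' hb' hδ e x => ?_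
  · have hb := fun i => (hF2 i).1
    obtain ⟨M0, h0⟩ := hb 0
    obtain ⟨M1, h1⟩ := hb 1
    obtain ⟨P, hP⟩ := hne
    have hbR : R2 P 4 (fun i x => 1 * (D.m0 x * D.v0 i x)) (2 * max M0 M1) := R2.of fun i => by
      fin_cases i
      exacts [(h0 P hP).mono (le_max_left _ _), (h1 P hP).mono (le_max_right _ _)]
    rw [spot_eq_zero K.F hbR hB.popA, neg_zero]
  · have hb : RB P 5 z.bet δ := by simpa [Dat.z0] using e.2.2.1
    have hDb := fun k => K.F.dop (by norm_num : 3 ≤ 4) hb k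
    obtain ⟨C2, hC2⟩ : ∃ B, R2 P 4 (fun i x => ∑ k, K.A i k x * Dop k z.bet x) B := by
      obtain ⟨a, ha⟩ := K.F.alg P.R0 P.one_le_R0 4 (by norm_num)
      have hp : ∀ i k, ∃ B, RB P 4 (fun x => K.A i k x * Dop k z.bet x) B := fun i k => by
        obtain ⟨M, hM⟩ := (hG.cond i k).weaken (by norm_num : 4 ≤ 5)
        refine ⟨a * M * (2 * π * P.R0 * δ), ?_⟩
        have h2 := ha P rfl _ _ _ _ (hM P hP) (hDb k)
        unfold RB
        rw [hG.hA]
        convert h2 using 1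
        funext x; simp [cx]
      obtain ⟨B00, h00⟩ := hp 0 0
      obtain ⟨B01, h01⟩ := hp 0 1
      obtain ⟨B10, h10⟩ := hp 1 0
      obtain ⟨B11, h11⟩ := hp 1 1
      refine ⟨_, R2.of fun i => RB.mono (N := max (B00 + B01) (B10 + B11))
        (M := if i = 0 then B00 + B01 else B10 + B11) ?_ ?_⟩
      · fin_cases i
        · exact ((h00.add h01)).congr fun x => by simp [Fin.sum_univ_two]
        · exact ((h10.add h11)).congr fun x => by simp [Fin.sum_univ_two]
      · split <;> simp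
    have hF : ∃ B, R2 P 4 (fun i x => D.flux η ε z i x - ∑ k, D.g.cond i k x * Dop k z.bet x) B := by
      obtain ⟨B0, h0⟩ := (hF2 0).rb hP ha' hb' hδ e
      obtain ⟨B1, h1⟩ := (hF2 1).rb hP ha' hb' hδ e
      refine ⟨_, R2.of (M := max B0 B1) fun i => ?_⟩
      fin_cases i
      exacts [h0.mono (le_max_left _ _), h1.mono (le_max_right _ _)]
    obtain ⟨B, hB'⟩ := hF
    have hθ := K.adm_mul P hP
    have hadd := congrFun (K.F.spot_add K.hθ K.hθ1 hθ hB' hC2) x
    have hex := K.F.spot_exact K.hθ K.hθ1 hθ hb hC2 x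
    simp only [Dat.T, Dat.potB]
    rw [show (fun i => D.flux η ε z i) = fun i x => (D.flux η ε z i x
      - ∑ k, D.g.cond i k x * Dop k z.bet x) + ∑ k, K.A i k x * Dop k z.bet x from by
        funext i x; rw [hG.hA]; ring]
    simp only [← hG.hA] at hadd ⊢
    rw [hadd, hex]
    ring

/-- The value at the base point. -/
lemma Est.base_eq {n s : ℕ} (hs : 3 ≤ s) {F : ℝ → ℝ → St → E2 → ℝ} {F0 : E2 → ℝ}
    (hF : Est K D.z0 s n F F0) (hne : ∃ P, K.Adm P) (x : E2) : F 0 0 D.z0 x = F0 x := by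
  obtain ⟨P, hP⟩ := hne
  obtain ⟨-, C, hC, h⟩ := hF
  have h0 := (h P hP 0 0 0 D.z0 (by simp) (by simp) zero_le_one (Close.base P le_rfl _)).1
  obtain ⟨c, hc⟩ := K.F.eval P.R0 P.one_le_R0 s hs
  have := ((hc P rfl).2 _ _ h0).2 x
  simp only [mul_zero, cx, Complex.norm_real, Real.norm_eq_abs] at this
  have := abs_nonpos_iff.1 this
  linarith

include hG in
lemma est_Tkap : Est K D.z0 4 3 (fun η ε z _ => (D.T K.t η ε z).kap)
    (fun _ => (fc (cx fun x => 1 * (D.m0 x * D.v0 0 x)) 0).re / D.q) :=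
  (((est_flux hG 0).mean (by norm_num : 3 ≤ 4)).smul (1 / (D.q : ℝ))).congr
    (fun η ε z x => by simp [Dat.T]; ring) fun x => by ring

include hG hB in
lemma est_Tiq : Est K D.z0 4 4 (fun η ε z => (D.T K.t η ε z).iq) D.iq0 := by
  have h0 : Est K D.z0 4 0 (fun _ _ _ => D.iq0) D.iq0 := Est.ofFix (hG.hiq.weaken (by norm_num))
  have hΔ : Est K D.z0 4 4 (fun η ε z x => D.nn η ε z x - D.N0 x) (fun _ => 0) :=
    ((((est_nn hG).sub ((Est.ofFix (est_nn hG).1).mono (by norm_num))).mono (by norm_num)).congr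
      (fun _ _ _ _ => rfl) fun _ => sub_self _)
  refine ((h0.mono (by norm_num)).sub ((h0.mono (by norm_num)).mul (by norm_num)
    (hΔ.mul_small (by norm_num) (est_iq hG (by norm_num : 4 < 5))))).congr (fun η ε z x => ?_)
    fun x => by simp
  simp only [Dat.T]
  linear_combination (z.iq x) * hB.iq0_eq x

include hG hB in
lemma est_Tir : Est K D.z0 4 6 (fun η ε z => (D.T K.t η ε z).ir) D.ir0 := by
  have h0 : Est K D.z0 4 0 (fun _ _ _ => D.ir0) D.ir0 := Est.ofFix (hG.hir.weaken (by norm_num))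
  have hΔ : Est K D.z0 4 6 (fun _ _ z x => z.rho x - D.rho0 x) (fun _ => 0) :=
    ((((est_rho hG (by norm_num : 5 < 6)).weaken (by norm_num)).sub
      ((Est.ofFix (hG.hrho.weaken (by norm_num))).mono (by norm_num)))).congr
      (fun _ _ _ _ => rfl) fun _ => sub_self _
  refine ((h0.mono (by norm_num)).sub ((h0.mono (by norm_num)).mul (by norm_num)
    (hΔ.mul_small (by norm_num) (est_ir hG (by norm_num : 6 < 7))))).congr (fun η ε z x => ?_)
    fun x => by simp
  simp only [Dat.T]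
  linear_combination (z.ir x) * hB.ir0_eq x

include hG hB in
lemma est_Trho (hne : ∃ P, K.Adm P) :
    Est K D.z0 5 5 (fun η ε z => (D.T K.t η ε z).rho) D.rho0 := by
  have fx : ∀ {f : E2 → ℝ}, Fix K 5 f → Est K D.z0 4 0 (fun _ _ _ => f) f := fun h =>
    Est.ofFix (h.weaken (by norm_num))
  have hδ5 : Est K D.z0 5 6 (fun _ _ z x => z.rho x - D.rho0 x) (fun _ => 0) :=
    ((est_rho hG (by norm_num : 5 < 6)).sub ((Est.ofFix hG.hrho).mono (by norm_num))).congr
      (fun _ _ _ _ => rfl) fun _ => sub_self _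
  have hδ := hδ5.weaken (t := 4) (by norm_num)
  have hr : Est K D.z0 4 7 (fun _ _ z x => z.ir x - D.ir0 x) (fun _ => 0) :=
    ((est_ir hG (by norm_num : 6 < 7)).sub ((fx hG.hir).mono (by norm_num))).congr
      (fun _ _ _ _ => rfl) fun _ => sub_self _
  have hirt : Est K D.z0 4 7 (fun _ _ z => Dat.irt z) (fun x => D.ir0 x * (2 - D.rho0 x * D.ir0 x)) :=
    ((est_ir hG (by norm_num)).mul (by norm_num)
      (((Est.ofFix (fix_const (by norm_num) 2)).mono (by norm_num)).sub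
        (((est_rho hG (by norm_num : 5 < 7)).weaken (by norm_num)).mul (by norm_num)
          (est_ir hG (by norm_num))))).congr (fun _ _ _ _ => rfl) fun _ => rfl
  have hE : Est K D.z0 4 0 (fun _ _ z x => (z.ir x - D.ir0 x) * -(2 * (D.ir0 x * (z.rho x - D.rho0 x))
      + D.rho0 x * (z.ir x - D.ir0 x) + (z.rho x - D.rho0 x) * (z.ir x - D.ir0 x)))
      (fun _ => 0) := by
    refine hr.mul_small₂ (m := 7) (by norm_num) ?_
    exact ((((((fx hG.hir).mono (by norm_num)).mul (by norm_num)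
      (hδ.mono (by norm_num : 6 ≤ 7))).smul 2).add
      (((fx hG.hrho).mono (by norm_num)).mul (by norm_num) hr)).add
      ((hδ.mono (by norm_num : 6 ≤ 7)).mul (by norm_num) hr)).neg.congr
      (fun _ _ _ _ => rfl) fun x => by simp
  have hDδ : ∀ k, Est K D.z0 4 6 (fun _ _ z x => Dop k z.rho x - Dop k D.rho0 x) (fun _ => 0) := fun k =>
    ((est_drho hG k).sub ((Est.ofFix (est_drho hG k).1).mono (by norm_num))).congr
      (fun _ _ _ _ => rfl) fun _ => sub_self _
  have hpc : ∀ i k, Est K D.z0 4 2 (fun η ε z x => z.m x * D.adjh η ε z i k x - D.g.cond i k x)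
      (fun _ => 0) := fun i k =>
    (((est_m hG (by norm_num)).mul (by norm_num) ((est_adjh hG i k).mono (by norm_num))).sub
      ((fx (hG.cond i k)).mono (by norm_num))).congr (fun _ _ _ _ => rfl)
      fun x => sub_eq_zero.2 (hB.cond_eq i k x)
  have hterm : ∀ i k, Est K D.z0 4 5 (fun η ε z x =>
      (z.m x * D.adjh η ε z i k x - D.g.cond i k x) * (Dop k z.rho x * Dat.irt z x)
      + D.g.cond i k x * (Dop k D.rho0 x * D.ir0 x
        + (((z.ir x - D.ir0 x) * -(2 * (D.ir0 x * (z.rho x - D.rho0 x))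
          + D.rho0 x * (z.ir x - D.ir0 x) + (z.rho x - D.rho0 x) * (z.ir x - D.ir0 x)))
            * Dop k z.rho x
          - (Dop k z.rho x - Dop k D.rho0 x) * (D.ir0 x * D.ir0 x * (z.rho x - D.rho0 x)))))
      (fun x => D.g.cond i k x * (Dop k D.rho0 x * D.ir0 x)) := fun i k => by
    have hmix : Est K D.z0 4 0 (fun _ _ z x => (Dop k z.rho x - Dop k D.rho0 x)
        * (D.ir0 x * D.ir0 x * (z.rho x - D.rho0 x))) (fun _ => 0) :=
      (hDδ k).mul_small₂ (m := 6) (by norm_num)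
        (((((fx hG.hir).mul (by norm_num) (fx hG.hir)).mono (by norm_num)).mul (by norm_num)
          hδ).congr (fun _ _ _ _ => rfl) fun x => by simp)
    exact ((((hpc i k).mul_small (by norm_num)
      (((est_drho hG k).mono (by norm_num : 6 ≤ 7)).mul (by norm_num) hirt)).mono (by norm_num)).add
      ((((fx (hG.cond i k))).mul (by norm_num)
        (((Est.ofFix (est_drho hG k).1).mul (by norm_num) (fx hG.hir)).add
          ((hE.mul_small (by norm_num) (est_drho hG k)).sub hmix))).mono (by norm_num))).congr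
      (fun _ _ _ _ => rfl) fun x => by simp
  obtain ⟨S0, hsrc⟩ := est_src hG
  have hF5 : ∀ i, ∃ G0, Est K D.z0 4 5 (fun η ε z x => D.bL η ε z i x
      - ∑ k, D.g.cond i k x * (D.ir0 x * (Dop k z.rho x - Dop k D.rho0 x)
        + Dop k D.ir0 x * (z.rho x - D.rho0 x))) G0 := fun i => by
    refine ⟨_, ((((hterm i 0).add (hterm i 1)).add (((est_m hG (by norm_num : 1 < 5))).mul
      (by norm_num) ((est_fq hG).mul (by norm_num) ((est_vv hG i).mono (by norm_num))))).sub
      (hsrc.ginv le_rfl i)).congr (fun η ε z x => ?_) fun _ => rfl⟩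
    simp only [Dat.bL, Dat.vec, Dat.irt, Fin.sum_univ_two, hB.dir0]
    have e1 := hB.ir0_eq x
    linear_combination (D.g.cond i 0 x * Dop 0 z.rho x + D.g.cond i 1 x * Dop 1 z.rho x)
      * (2 * z.ir x - D.ir0 x) * e1
  choose G0 hG0 using hF5
  have hz : ∀ i x, G0 i x = D.bL 0 0 D.z0 i x := fun i x => by
    rw [← Est.base_eq (by norm_num) (hG0 i) hne x]
    simp [Dat.z0]
  have hG0' : G0 = fun i x => D.bL 0 0 D.z0 i x := funext fun i => funext (hz i)
  have hS0 : ∀ x, Spot K.A K.t G0 x = 0 := fun x => by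
    obtain ⟨P, hP⟩ := hne
    obtain ⟨M0, h0⟩ := (hG0 0).1
    obtain ⟨M1, h1⟩ := (hG0 1).1
    refine spot_eq_zero K.F (R2.of (P := P) (M := max M0 M1) fun i => ?_) (hG0' ▸ hB.popL) x
    fin_cases i
    exacts [(h0 P hP).mono (le_max_left _ _), (h1 P hP).mono (le_max_right _ _)]
  have hS := Est.spot hG0
  have hΔN : Est K D.z0 4 3 (fun η ε z x => D.nn η ε z x - D.N0 x) (fun _ => 0) :=
    ((est_nn hG).sub ((Est.ofFix (est_nn hG).1).mono (by norm_num))).congr
      (fun _ _ _ _ => rfl) fun _ => sub_self _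
  have hΔd : Est K D.z0 4 0 (fun η ε z x => D.detH η ε z x - D.g.det x) (fun _ => 0) :=
    ((est_det hG).sub (Est.ofFix (est_det hG).1)).congr (fun _ _ _ _ => rfl) fun _ => sub_self _
  have hΦ : Est K D.z0 4 3 (fun η ε z x => D.rho0 x * D.rho0 x * (D.nn η ε z x - D.N0 x)
      + (D.nn η ε z x - D.N0 x) * (2 * (D.rho0 x * (z.rho x - D.rho0 x)))
      + (z.rho x - D.rho0 x) * (z.rho x - D.rho0 x) * D.nn η ε z x
      - (D.detH η ε z x - D.g.det x)) (fun _ => 0) :=
    ((((((fx hG.hrho).mul (by norm_num) (fx hG.hrho)).mono (by norm_num)).mul (by norm_num)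
      hΔN).add (hΔN.mul_small (by norm_num) ((((fx hG.hrho).mono (by norm_num)).mul (by norm_num)
        hδ).smul 2))).add (((hδ.mul_small₂ (by norm_num) hδ).mul_small (by norm_num)
          (est_nn hG)).mono (by norm_num))).sub (hΔd.mono (by norm_num)) |>.congr
      (fun _ _ _ _ => rfl) fun x => by simp
  have hP5 := (hΦ.at0 (t := 5) (by norm_num) (by norm_num)).smul (1 / D.c0)
  have hr5 : Est K D.z0 5 5 (fun _ _ _ => D.rho0) D.rho0 := (Est.ofFix hG.hrho).mono (by norm_num)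
  refine ((hr5.sub (hr5.mul (by norm_num) ((hS.sub (hS.at0 (t := 5) (by norm_num)
    (by norm_num))).add (hP5.mono (by norm_num))))).congr (fun _ _ _ _ => rfl)
      (G0 := D.rho0) fun x => by simp [hS0]).congrOn fun P hP η ε δ z ha hb hd e x => ?_
  obtain ⟨W, hw⟩ := (((Est.ofFix (K := K) (z0 := D.z0) hG.hir).mono (by norm_num : 0 ≤ 6)).mul
    (by norm_num) hδ5).rb hP ha hb hd e
  obtain ⟨R, hR⟩ := hδ5.rb hP ha hb hd e
  obtain ⟨M, hM⟩ := hG.hir
  obtain ⟨M', hM'⟩ := hG.hrho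
  obtain ⟨B0, h0⟩ := (hG0 0).rb hP ha hb hd e
  obtain ⟨B1, h1⟩ := (hG0 1).rb hP ha hb hd e
  set w : E2 → ℝ := fun x => D.ir0 x * (z.rho x - D.rho0 x) with hwd
  have hρ := (est_rho hG (by norm_num : 5 < 6)).rb hP ha hb hd e
  obtain ⟨Rz, hRz⟩ := hρ
  have hDw : ∀ k x, Dop k w x = D.ir0 x * (Dop k z.rho x - Dop k D.rho0 x)
      + Dop k D.ir0 x * (z.rho x - D.rho0 x) := fun k x => by
    obtain ⟨c1, d1⟩ := K.F.dop_eq_pd (by norm_num : 4 ≤ 5) (hM P hP)
    obtain ⟨c2, d2⟩ := K.F.dop_eq_pd (by norm_num : 4 ≤ 5) hRz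
    obtain ⟨c3, d3⟩ := K.F.dop_eq_pd (by norm_num : 4 ≤ 5) (hM' P hP)
    rw [(K.F.dop_eq_pd (by norm_num : 4 ≤ 5) hw).2, d1, d2, d3]
    have hh := ((c1.differentiable (by norm_num) x).hasFDerivAt.mul
      ((c2.differentiable (by norm_num) x).hasFDerivAt.sub
        (c3.differentiable (by norm_num) x).hasFDerivAt)).fderiv
    show fderiv ℝ (D.ir0 * (z.rho - D.rho0)) x (Vale.Agent.P205.e k) = _
    rw [hh]
    simp [pd]
    ring
  have hb5 : R2 P 4 (fun i x => D.bL η ε z i x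
      - ∑ k, D.g.cond i k x * Dop k w x) (2 * max B0 B1) := R2.of fun i => by
    simp only [hDw]
    fin_cases i
    exacts [h0.mono (le_max_left _ _), h1.mono (le_max_right _ _)]
  obtain ⟨C2, hC2⟩ : ∃ B, R2 P 4 (fun i x => ∑ k, K.A i k x * Dop k w x) B := by
    have hc : ∀ i k, ∃ B, RB P 4 (fun x => K.A i k x * Dop k w x) B := fun i k => by
      obtain ⟨a, ha'⟩ := K.F.alg P.R0 P.one_le_R0 4 (by norm_num)
      obtain ⟨Mc, hMc⟩ := (hG.cond i k).weaken (by norm_num : 4 ≤ 5)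
      refine ⟨a * Mc * (2 * π * P.R0 * W), ?_⟩
      have h2 := ha' P rfl _ _ _ _ (hMc P hP) (K.F.dop (by norm_num : 3 ≤ 4) hw k)
      unfold RB
      rw [hG.hA]
      convert h2 using 1
      funext x; simp [cx]
    obtain ⟨B00, h00⟩ := hc 0 0
    obtain ⟨B01, h01⟩ := hc 0 1
    obtain ⟨B10, h10⟩ := hc 1 0
    obtain ⟨B11, h11⟩ := hc 1 1
    refine ⟨_, R2.of fun i => RB.mono (N := max (B00 + B01) (B10 + B11))
      (M := if i = 0 then B00 + B01 else B10 + B11) ?_ ?_⟩
    · fin_cases i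
      · exact (h00.add h01).congr fun x => by simp [Fin.sum_univ_two]
      · exact (h10.add h11).congr fun x => by simp [Fin.sum_univ_two]
    · split <;> simp
  have hsplit : ∀ y, Spot K.A K.t (fun i => D.bL η ε z i) y
      = Spot K.A K.t (fun i x => D.bL η ε z i x
        - ∑ k, D.g.cond i k x * (D.ir0 x * (Dop k z.rho x - Dop k D.rho0 x)
          + Dop k D.ir0 x * (z.rho x - D.rho0 x))) y + (w y - (fc (cx w) 0).re) := fun y => by
    have hadd := congrFun (K.F.spot_add K.hθ K.hθ1 (K.adm_mul P hP) hb5 hC2) y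
    rw [K.F.spot_exact K.hθ K.hθ1 (K.adm_mul P hP) hw hC2 y] at hadd
    simp only [hDw, ← hG.hA] at hadd ⊢
    rw [← hadd]
    congr 1
    funext i x
    ring
  simp only [Dat.T, Dat.potL, ← hG.hA, hsplit, Dat.pin]
  have hc0 : D.c0 ≠ 0 := by
    have := hB.N0_pos 0; have := hB.rho0_pos 0; simp only [Dat.c0]; positivity
  have e0 := hB.rho0_sq 0
  have e1 := hB.ir0_eq 0
  have hir : ∀ y, D.ir0 y = 1 / D.rho0 y := fun y => by
    rw [eq_div_iff (hB.rho0_pos y).ne', mul_comm]; exact hB.ir0_eq y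
  have r1 := (hB.rho0_pos x).ne'
  have r2 := (hB.rho0_pos 0).ne'
  have r3 := (hB.N0_pos 0).ne'
  simp only [hwd, Dat.c0, hir]
  field_simp
  linear_combination (D.rho0 x) * e0

end contraction

end Vale.Agent.P205
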