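import Vale.Agent.P205.CoreStmts

/-!
# P205, core: the spaces adapted to given data
-/

namespace Vale.Agent.P205

open Real
open scoped ContDiff

lemma SP.pd {f : E2 → ℝ} (h : SP f) (i : Fin 2) : SP (Vale.Agent.P205.pd i f) :=
  ⟨(h.1.fderiv_right (m := ∞) le_rfl).clm_apply contDiff_const,
    Vale.Agent.P205.per_pdR (fun a b => ⟨0, fun y => by rw [add_zero, h.2 y a b]⟩) i⟩

lemma SP.mul {f h : E2 → ℝ} (hf : SP f) (hh : SP h) : SP fun x => f x * h x :=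
  ⟨hf.1.mul hh.1, fun x a b => by simp only [hf.2 x a b, hh.2 x a b]⟩

lemma SP.add {f h : E2 → ℝ} (hf : SP f) (hh : SP h) : SP fun x => f x + h x :=
  ⟨hf.1.add hh.1, fun x a b => by simp only [hf.2 x a b, hh.2 x a b]⟩

lemma SP.sub {f h : E2 → ℝ} (hf : SP f) (hh : SP h) : SP fun x => f x - h x :=
  ⟨hf.1.sub hh.1, fun x a b => by simp only [hf.2 x a b, hh.2 x a b]⟩

lemma SP.neg {f : E2 → ℝ} (hf : SP f) : SP fun x => -f x :=
  ⟨hf.1.neg, fun x a b => by simp only [hf.2 x a b]⟩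

lemma SP.div {f h : E2 → ℝ} (hf : SP f) (hh : SP h) (h0 : ∀ x, h x ≠ 0) :
    SP fun x => f x / h x :=
  ⟨hf.1.div hh.1 h0, fun x a b => by simp only [hf.2 x a b, hh.2 x a b]⟩

lemma SP.sqrt {f : E2 → ℝ} (hf : SP f) (h0 : ∀ x, 0 < f x) : SP fun x => Real.sqrt (f x) :=
  ⟨hf.1.sqrt fun x => (h0 x).ne', fun x a b => by simp only [hf.2 x a b]⟩

lemma sp_const (c : ℝ) : SP fun _ => c := ⟨contDiff_const, fun _ _ _ => rfl⟩

lemma Metric.c_pos (g : Metric) (x : E2) : 0 < g.c x := by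
  nlinarith [g.pos x, g.det_pos x, sq_nonneg (g.b x)]

lemma Metric.det_gt (g : Metric) (x : E2) : 0 < g.det x := sub_pos.2 (g.det_pos x)

lemma Metric.sp_det (g : Metric) : SP g.det :=
  ((SP.mul ⟨g.smooth_a, g.per_a⟩ ⟨g.smooth_c, g.per_c⟩).sub
    ⟨g.smooth_b.pow 2, fun x a b => by simp only [g.per_b x a b]⟩ : SP fun x => g.a x * g.c x - g.b x ^ 2)

lemma Metric.sp_comp (g : Metric) (i k : Fin 2) : SP (g.comp i k) := by
  unfold Metric.comp
  split_ifs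
  exacts [⟨g.smooth_a, g.per_a⟩, ⟨g.smooth_b, g.per_b⟩, ⟨g.smooth_b, g.per_b⟩,
    ⟨g.smooth_c, g.per_c⟩]

lemma Metric.sp_cond (g : Metric) (i k : Fin 2) : SP (g.cond i k) := by
  have hs := SP.sqrt g.sp_det g.det_gt
  have h0 : ∀ x, Real.sqrt (g.det x) ≠ 0 := fun x => (Real.sqrt_pos.2 (g.det_gt x)).ne'
  by_cases h : i = k
  · have e : g.cond i k = fun x => g.comp (1 - i) (1 - k) x / Real.sqrt (g.det x) := by
      funext x; rw [Metric.cond, if_pos h]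
    exact e ▸ (g.sp_comp _ _).div hs h0
  · have e : g.cond i k = fun x => -g.b x / Real.sqrt (g.det x) := by
      funext x; rw [Metric.cond, if_neg h]
    exact e ▸ (SP.neg ⟨g.smooth_b, g.per_b⟩).div hs h0

namespace Dat

variable (D : Dat)

lemma sp_du (i : Fin 2) : SP (D.du i) :=
  ⟨(D.I.smooth_u.fderiv_right (m := ∞) le_rfl).clm_apply contDiff_const,
    Vale.Agent.P205.per_pdR (fun a b => ⟨a, fun y => D.I.per_u y a b⟩) i⟩

lemma N0_pos (x : E2) : 0 < D.N0 x := by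
  have ha := D.g.pos x
  have hd := D.g.det_pos x
  have key : D.g.a x * D.N0 x = (D.g.a x * D.du 1 x - D.g.b x * D.du 0 x) ^ 2
      + (D.g.a x * D.g.c x - D.g.b x ^ 2) * D.du 0 x ^ 2 := by
    simp only [N0, v0, ↓reduceIte, one_ne_zero]; ring
  refine pos_of_mul_pos_right (key ▸ ?_) ha.le
  rcases eq_or_ne (D.du 0 x) 0 with h0 | h0
  · have h1 : D.du 1 x ≠ 0 := (D.I.regular x).resolve_left (fun h => h h0)
    rw [h0]
    have : 0 < (D.g.a x * D.du 1 x) ^ 2 := pow_two_pos_of_ne_zero (mul_ne_zero ha.ne' h1)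
    simpa using this
  · exact add_pos_of_nonneg_of_pos (sq_nonneg _)
      (mul_pos (sub_pos.2 hd) (pow_two_pos_of_ne_zero h0))

lemma sp_v0 (i : Fin 2) : SP (D.v0 i) := by
  have ha : SP D.g.a := ⟨D.g.smooth_a, D.g.per_a⟩
  have hb : SP D.g.b := ⟨D.g.smooth_b, D.g.per_b⟩
  have hc : SP D.g.c := ⟨D.g.smooth_c, D.g.per_c⟩
  by_cases h : i = 0
  · have e : D.v0 i = fun x => D.g.c x * D.du 0 x + -D.g.b x * D.du 1 x := by
      funext x; simp only [v0, if_pos h]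
    exact e ▸ (hc.mul (D.sp_du 0)).add (hb.neg.mul (D.sp_du 1))
  · have e : D.v0 i = fun x => -D.g.b x * D.du 0 x + D.g.a x * D.du 1 x := by
      funext x; simp only [v0, if_neg h]
    exact e ▸ (hb.neg.mul (D.sp_du 0)).add (ha.mul (D.sp_du 1))

lemma sp_N0 : SP D.N0 :=
  (((D.sp_du 0).mul (D.sp_v0 0)).add ((D.sp_du 1).mul (D.sp_v0 1)) :
    SP fun x => D.du 0 x * D.v0 0 x + D.du 1 x * D.v0 1 x)

lemma sp_m0 : SP D.m0 :=
  ((sp_const 1).div (D.g.sp_det.sqrt D.g.det_gt)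
    fun x => (Real.sqrt_pos.2 (D.g.det_gt x)).ne' : SP fun x => 1 / Real.sqrt (D.g.det x))

lemma sp_iq0 : SP D.iq0 :=
  ((sp_const 1).div D.sp_N0 fun x => (D.N0_pos x).ne' : SP fun x => 1 / D.N0 x)

lemma rho0_gt (x : E2) : 0 < D.rho0 x :=
  Real.sqrt_pos.2 (div_pos (D.g.det_gt x) (D.N0_pos x))

lemma sp_rho0 : SP D.rho0 :=
  SP.sqrt (D.g.sp_det.div D.sp_N0 fun x => (D.N0_pos x).ne')
    fun x => div_pos (D.g.det_gt x) (D.N0_pos x)

lemma sp_ir0 : SP D.ir0 :=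
  ((sp_const 1).div D.sp_rho0 fun x => (D.rho0_gt x).ne' : SP fun x => 1 / D.rho0 x)

/-- The fixed functions. -/
noncomputable def fixed : List (E2 → ℝ) :=
  [D.g.comp 0 0, D.g.comp 0 1, D.g.comp 1 0, D.g.comp 1 1,
    Vale.Agent.P205.pd 0 (D.g.comp 0 0), Vale.Agent.P205.pd 0 (D.g.comp 0 1),
    Vale.Agent.P205.pd 0 (D.g.comp 1 0), Vale.Agent.P205.pd 0 (D.g.comp 1 1),
    Vale.Agent.P205.pd 1 (D.g.comp 0 0), Vale.Agent.P205.pd 1 (D.g.comp 0 1),
    Vale.Agent.P205.pd 1 (D.g.comp 1 0), Vale.Agent.P205.pd 1 (D.g.comp 1 1),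
    D.g.cond 0 0, D.g.cond 0 1, D.g.cond 1 0, D.g.cond 1 1, D.du 0, D.du 1,
    Vale.Agent.P205.pd 0 (D.du 0), Vale.Agent.P205.pd 0 (D.du 1), Vale.Agent.P205.pd 1 (D.du 0),
    Vale.Agent.P205.pd 1 (D.du 1), D.C, Vale.Agent.P205.pd 0 D.C, Vale.Agent.P205.pd 1 D.C,
    Vale.Agent.P205.pd 0 (Vale.Agent.P205.pd 0 D.C), Vale.Agent.P205.pd 0 (Vale.Agent.P205.pd 1 D.C),
    Vale.Agent.P205.pd 1 (Vale.Agent.P205.pd 0 D.C), Vale.Agent.P205.pd 1 (Vale.Agent.P205.pd 1 D.C),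
    D.m0, D.iq0, D.rho0, D.ir0]

lemma sp_fixed : ∀ f ∈ D.fixed, SP f := by
  have hC : SP D.C := ⟨D.smooth_C, D.per_C⟩
  intro f hf
  simp only [fixed, List.mem_cons, List.not_mem_nil, or_false] at hf
  rcases hf with rfl | rfl | rfl | rfl | rfl | rfl | rfl | rfl | rfl | rfl | rfl | rfl | rfl |
    rfl | rfl | rfl | rfl | rfl | rfl | rfl | rfl | rfl | rfl | rfl | rfl | rfl | rfl | rfl | rfl |
    rfl | rfl | rfl | rfl
  all_goals first
    | exact D.g.sp_comp _ _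
    | exact (D.g.sp_comp _ _).pd _
    | exact D.g.sp_cond _ _
    | exact D.sp_du _
    | exact (D.sp_du _).pd _
    | exact hC
    | exact hC.pd _
    | exact (hC.pd _).pd _
    | exact D.sp_m0
    | exact D.sp_iq0
    | exact D.sp_rho0
    | exact D.sp_ir0

end Dat

/-- Simultaneous membership thresholds for finitely many smooth functions. -/
lemma Facts.thresholds (F : Facts) {R0 : ℝ} (hR0 : 1 ≤ R0) (s : ℕ) :
    ∀ l : List (E2 → ℝ), (∀ f ∈ l, SP f) → ∃ Rb : ℕ → ℝ, ∀ f ∈ l, ∃ M, ∀ P : Par,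
      P.R0 = R0 → (P.j = 0 ∨ Rb P.j ≤ P.R) → RB P s f M
  | [], _ => ⟨fun _ => 0, fun f hf => absurd hf List.not_mem_nil⟩
  | f :: l, h => by
    obtain ⟨Rb, hRb⟩ := F.thresholds hR0 s l fun h' hh => h h' (List.mem_cons_of_mem _ hh)
    obtain ⟨hfs, hfp⟩ := h f (List.mem_cons_self ..)
    obtain ⟨M, hM⟩ := F.smoothMem (cx f) (Complex.ofRealCLM.contDiff.comp hfs)
      (fun x a b => by simp [cx, hfp x a b]) R0 hR0 s
    choose R1 hR1 using hM
    refine ⟨fun j => max (Rb j) (R1 j), fun h' hh => ?_⟩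
    rcases List.mem_cons.1 hh with rfl | hh'
    · exact ⟨M, fun P hP hj => hR1 P.j P hP rfl (hj.imp_right (le_max_right _ _).trans)⟩
    · obtain ⟨M', hM'⟩ := hRb h' hh'
      exact ⟨M', fun P hP hj => hM' P hP (hj.imp_right (le_max_left _ _).trans)⟩

/-- A uniform bound for the trace of the conductivity. -/
lemma Metric.trace_bound (g : Metric) :
    ∃ K : ℝ, 1 ≤ K ∧ ∀ x, g.cond 0 0 x + g.cond 1 1 x ≤ K := by
  obtain ⟨h, hp⟩ := (g.sp_cond 0 0).add (g.sp_cond 1 1)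
  obtain ⟨K, hK⟩ := ((isCompact_Icc (a := (0 : ℝ)) (b := 1)).prod
    (isCompact_Icc (a := (0 : ℝ)) (b := 1))).exists_bound_of_continuousOn h.continuous.continuousOn
  refine ⟨max K 1, le_max_right _ _, fun x => ?_⟩
  have hx := hp (Int.fract x.1, Int.fract x.2) ⌊x.1⌋ ⌊x.2⌋
  rw [Prod.mk_add_mk, Int.fract_add_floor, Int.fract_add_floor] at hx
  simp only [Prod.mk.eta] at hx
  rw [hx]
  exact ((le_abs_self _).trans (hK _ ⟨⟨Int.fract_nonneg _, (Int.fract_lt_one _).le⟩,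
    Int.fract_nonneg _, (Int.fract_lt_one _).le⟩)).trans (le_max_left _ _)

/-- The contraction constant on real vectors. -/
lemma Metric.res_le (g : Metric) {t : ℝ} (ht : 0 ≤ t) (x : E2)
    (htT : t * (g.cond 0 0 x + g.cond 1 1 x) ≤ 1) (u w : ℝ) :
    (u - t * (g.cond 0 0 x * u + g.cond 0 1 x * w)) ^ 2
      + (w - t * (g.cond 1 0 x * u + g.cond 1 1 x * w)) ^ 2 ≤ (1 - t ^ 2) * (u ^ 2 + w ^ 2) := by
  have hd := g.det_gt x
  have hs : 0 < Real.sqrt (g.det x) := Real.sqrt_pos.2 hd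
  have e00 : g.cond 0 0 x = g.c x / Real.sqrt (g.det x) := by simp [Metric.cond, Metric.comp]
  have e11 : g.cond 1 1 x = g.a x / Real.sqrt (g.det x) := by simp [Metric.cond, Metric.comp]
  have e01 : g.cond 0 1 x = -g.b x / Real.sqrt (g.det x) := by simp [Metric.cond]
  have e10 : g.cond 1 0 x = g.cond 0 1 x := by simp [Metric.cond]
  have hdet : g.cond 0 0 x * g.cond 1 1 x - g.cond 0 1 x ^ 2 = 1 := by
    rw [e00, e11, e01, div_mul_div_comm, div_pow, Real.sq_sqrt hd.le,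
      Real.mul_self_sqrt hd.le, ← sub_div, neg_sq, mul_comm, div_eq_one_iff_eq hd.ne']
    rfl
  have hpos : 0 < g.cond 0 0 x := by rw [e00]; exact div_pos (g.c_pos x) hs
  rw [e10]
  set p := g.cond 0 0 x
  set q := g.cond 0 1 x
  set r := g.cond 1 1 x
  have hQ : 0 ≤ p * u ^ 2 + 2 * q * u * w + r * w ^ 2 := by
    refine nonneg_of_mul_nonneg_right (a := p) ?_ hpos
    calc (0 : ℝ) ≤ (p * u + q * w) ^ 2 + (p * r - q ^ 2) * w ^ 2 := by
          rw [hdet]; positivity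
      _ = _ := by ring
  have key : (u - t * (p * u + q * w)) ^ 2 + (w - t * (q * u + r * w)) ^ 2
      = (1 - t ^ 2) * (u ^ 2 + w ^ 2) - t * (2 - t * (p + r)) * (p * u ^ 2 + 2 * q * u * w + r * w ^ 2)
        + t ^ 2 * (1 - (p * r - q ^ 2)) * (u ^ 2 + w ^ 2) := by ring
  rw [key, hdet]
  nlinarith [mul_nonneg (mul_nonneg ht (by linarith : (0 : ℝ) ≤ 2 - t * (p + r))) hQ]

/-- Spaces for the given data. -/
theorem ctx : CtxStmt := by
  intro F D
  obtain ⟨K, hK1, hK⟩ := D.g.trace_bound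
  have hK0 : 0 < K := lt_of_lt_of_le one_pos hK1
  set t : ℝ := 1 / K with htdef
  have ht : 0 < t := one_div_pos.2 hK0
  have ht1 : t ≤ 1 := by rw [htdef, div_le_one hK0]; exact hK1
  set θ0 : ℝ := Real.sqrt (1 - t ^ 2) with hθdef
  have hθ0 : 0 ≤ θ0 := Real.sqrt_nonneg _
  have h1t : 0 ≤ 1 - t ^ 2 := sub_nonneg.2 (pow_le_one₀ ht.le ht1)
  have hθ0' : θ0 < 1 := by
    rw [hθdef, Real.sqrt_lt' one_pos]; nlinarith
  set a : Fin 2 → Fin 2 → E2 → ℂ :=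
    fun i k x => (((if i = k then 1 else 0) - t * D.g.cond i k x : ℝ) : ℂ) with hadef
  have hasp : ∀ i k, ContDiff ℝ ∞ (a i k) ∧ Per (a i k) := fun i k =>
    ⟨Complex.ofRealCLM.contDiff.comp (contDiff_const.sub (contDiff_const.mul (D.g.sp_cond i k).1)),
      fun x p q => by simp only [hadef, (D.g.sp_cond i k).2 x p q]⟩
  have hbound : ∀ x (v : Fin 2 → ℂ),
      ∑ i, ‖∑ k, a i k x * v k‖ ^ 2 ≤ θ0 ^ 2 * ∑ k, ‖v k‖ ^ 2 := by
    intro x v
    have htT : t * (D.g.cond 0 0 x + D.g.cond 1 1 x) ≤ 1 := by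
      rw [htdef, one_div, inv_mul_le_one₀ hK0]; exact hK x
    have h1 := D.g.res_le ht.le x htT (v 0).re (v 1).re
    have h2 := D.g.res_le ht.le x htT (v 0).im (v 1).im
    rw [Real.sq_sqrt h1t]
    simp only [Fin.sum_univ_two, hadef, Complex.sq_norm, Complex.normSq_apply, Complex.add_re,
      Complex.add_im, Complex.re_ofReal_mul, Complex.im_ofReal_mul, ↓reduceIte, zero_ne_one,
      one_ne_zero]
    nlinarith [h1, h2]
  obtain ⟨R00, hR00⟩ := F.mulOp a hasp θ0 ((θ0 + 1) / 2) hθ0 (by linarith) hbound 4 (by norm_num)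
  set R0 := max 1 R00 with hR0def
  have hR0 : 1 ≤ R0 := le_max_left _ _
  choose R1 hR1 using hR00 R0 (le_max_right _ _)
  obtain ⟨Rb, hRb⟩ := F.thresholds hR0 5 D.fixed D.sp_fixed
  refine ⟨{
    F := F, R0 := R0, hR0 := hR0, t := t, ht := ht, θ := (θ0 + 1) / 2, hθ := by linarith,
    hθ1 := by linarith, A := D.g.cond,
    Adm := fun P => P.R0 = R0 ∧ (P.j = 0 ∨ max (Rb P.j) (R1 P.j) ≤ P.R),
    adm_R0 := fun P h => h.1,
    adm_mul := fun P h v M hv => ?_ }, ?_, fun j => ?_⟩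
  · have hm := hR1 P.j P h.1 rfl (h.2.imp_right (le_max_right _ _).trans) (fun i => cx (v i)) M hv
    have e : (fun i => cx (Res D.g.cond t v i))
        = fun i x => ∑ k, a i k x * cx (v k) x := by
      funext i x
      fin_cases i <;>
        · simp [cx, Res, hadef, Fin.sum_univ_two]
          ring
    show Nb2 P 4 (fun i => cx (Res D.g.cond t v i)) _
    rw [e]
    exact hm
  · have hf : ∀ f ∈ D.fixed, ∃ M, ∀ P : Par,
        (P.R0 = R0 ∧ (P.j = 0 ∨ max (Rb P.j) (R1 P.j) ≤ P.R)) → RB P 5 f M := fun f hf => by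
      obtain ⟨M, hM⟩ := hRb f hf
      exact ⟨M, fun P hP => hM P hP.1 (hP.2.imp_right (le_max_left _ _).trans)⟩
    have hd : ∀ i k : Fin 2, D.g.comp i k ∈ D.fixed ∧ D.g.cond i k ∈ D.fixed ∧
        D.du i ∈ D.fixed ∧ Vale.Agent.P205.pd i (D.du k) ∈ D.fixed ∧
        Vale.Agent.P205.pd i D.C ∈ D.fixed ∧
        Vale.Agent.P205.pd i (Vale.Agent.P205.pd k D.C) ∈ D.fixed ∧
        ∀ l, Vale.Agent.P205.pd l (D.g.comp i k) ∈ D.fixed := by
      intro i k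
      fin_cases i <;> fin_cases k <;> simp [Dat.fixed, Fin.forall_fin_two]
    exact ⟨rfl, fun i k => hf _ (hd i k).1, fun l i k => hf _ ((hd i k).2.2.2.2.2.2 l),
      fun i k => hf _ (hd i k).2.1, fun i => hf _ (hd i i).2.2.1,
      fun i k => hf _ (hd i k).2.2.2.1, hf _ (by simp [Dat.fixed]),
      fun i => hf _ (hd i i).2.2.2.2.1, fun i k => hf _ (hd i k).2.2.2.2.2.1,
      hf _ (by simp [Dat.fixed]), hf _ (by simp [Dat.fixed]), hf _ (by simp [Dat.fixed]),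
      hf _ (by simp [Dat.fixed])⟩
  · exact ⟨⟨R0, max R0 (max (Rb j) (R1 j)), j, hR0, le_max_left _ _⟩,
      ⟨rfl, Or.inr (le_max_right _ _)⟩, rfl⟩

end Vale.Agent.P205
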