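import Vale.Agent.P205.CoreContract

/-!
# P205, core: the fixed point of the Newton map, continuous in the parameter
-/

namespace Vale.Agent.P205

open Real Filter
open scoped ContDiff Topology

lemma St.eq_of {z z' : St} (h0 : z.iv = z'.iv) (h1 : z.m = z'.m) (h2 : z.bet = z'.bet)
    (h3 : z.kap = z'.kap) (h4 : z.iq = z'.iq) (h5 : z.rho = z'.rho) (h6 : z.ir = z'.ir) :
    z = z' := by
  cases z; cases z'
  simp_all

section fixedpoint
variable {K : Ctx} {D : Dat}

lemma mean_const (c : ℝ) : (fc (cx fun _ : E2 => c) 0).re = c := by simp [fc, cx, chr]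

lemma abs_const_le {P : Par} {s : ℕ} {c M : ℝ} (h : RB P s (fun _ => c) M) : |c| ≤ M := by
  have := h.abs_mean_le
  rwa [mean_const] at this

/-- One step of the map in all components. -/
lemma step_bound (hG : Good K D) (hB : BaseRel D) (hne : ∃ P, K.Adm P) :
    ∃ C : ℝ, 1 ≤ C ∧ ∀ P, K.Adm P → ∀ (η ε δ : ℝ) (z : St), |η| ≤ δ → |ε| ≤ δ → δ ≤ 1 →
      Close P z D.z0 (fun _ => δ) → Close P (D.T K.t η ε z) D.z0 (fun _ => C * δ) ∧
      ∀ (z' : St) (η' ε' : ℝ) (d : Fin 7 → ℝ), |η'| ≤ δ → |ε'| ≤ δ → Close P z' D.z0 (fun _ => δ) →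
        (∀ i, 0 ≤ d i) → Close P z z' d →
        Close P (D.T K.t η ε z) (D.T K.t η' ε' z')
          (fun i => C * (low i d + δ * tot d + (|η - η'| + |ε - ε'|))) := by
  obtain ⟨-, C0, p0, h0⟩ := est_Tiv (D := D) hG
  obtain ⟨-, C1, p1, h1⟩ := est_Tm hG hB
  obtain ⟨-, C2, p2, h2⟩ := est_Tbet hG hB hne
  obtain ⟨-, C3, p3, h3⟩ := est_Tkap (D := D) hG
  obtain ⟨-, C4, p4, h4⟩ := est_Tiq hG hB
  obtain ⟨-, C5, p5, h5⟩ := est_Trho hG hB hne
  obtain ⟨-, C6, p6, h6⟩ := est_Tir hG hB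
  obtain ⟨C, hC⟩ : ∃ C, C = 1 + C0 + C1 + C2 + C3 + C4 + C5 + C6 := ⟨_, rfl⟩
  refine ⟨C, by linarith, fun P hP η ε δ z a b c e => ?_⟩
  have hδ : 0 ≤ δ := (abs_nonneg η).trans a
  have g0 := h0 P hP η ε δ z a b c e
  have g1 := h1 P hP η ε δ z a b c e
  have g2 := h2 P hP η ε δ z a b c e
  have g3 := h3 P hP η ε δ z a b c e
  have g4 := h4 P hP η ε δ z a b c e
  have g5 := h5 P hP η ε δ z a b c e
  have g6 := h6 P hP η ε δ z a b c e
  have m : ∀ {c' : ℝ}, c' ≤ C → c' * δ ≤ C * δ := fun h => mul_le_mul_of_nonneg_right h hδ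
  refine ⟨⟨g0.1.mono (m (by linarith)), g1.1.mono (m (by linarith)), g2.1.mono (m (by linarith)),
    ?_, g4.1.mono (m (by linarith)), g5.1.mono (m (by linarith)), g6.1.mono (m (by linarith))⟩,
    fun z' η' ε' d a' bε e' hd hc => ?_⟩
  · refine (abs_const_le (P := P) (s := 4) ?_).trans (m (c' := C3) (by linarith))
    exact g3.1.congr fun x => by rw [hB.mean0]; rfl
  · have hl : ∀ k, 0 ≤ low k d + δ * tot d + (|η - η'| + |ε - ε'|) := fun k =>
      add_nonneg (add_nonneg (low_nonneg hd) (mul_nonneg hδ (tot_nonneg hd))) (add_nonneg (abs_nonneg _) (abs_nonneg _))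
    exact ⟨(g0.2 z' η' ε' d a' bε e' hd hc).mono (mul_le_mul_of_nonneg_right (by linarith) (hl 0)),
      (g1.2 z' η' ε' d a' bε e' hd hc).mono (mul_le_mul_of_nonneg_right (by linarith) (hl 1)),
      (g2.2 z' η' ε' d a' bε e' hd hc).mono (mul_le_mul_of_nonneg_right (by linarith) (hl 2)),
      (abs_const_le (g3.2 z' η' ε' d a' bε e' hd hc)).trans
        (mul_le_mul_of_nonneg_right (by linarith) (hl 3)),
      (g4.2 z' η' ε' d a' bε e' hd hc).mono (mul_le_mul_of_nonneg_right (by linarith) (hl 4)),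
      (g5.2 z' η' ε' d a' bε e' hd hc).mono (mul_le_mul_of_nonneg_right (by linarith) (hl 5)),
      (g6.2 z' η' ε' d a' bε e' hd hc).mono (mul_le_mul_of_nonneg_right (by linarith) (hl 6))⟩

lemma Close.mono {P : Par} {z z' : St} {d d' : Fin 7 → ℝ} (h : Close P z z' d)
    (hd : ∀ i, d i ≤ d' i) : Close P z z' d' :=
  ⟨h.1.mono (hd 0), h.2.1.mono (hd 1), h.2.2.1.mono (hd 2), h.2.2.2.1.trans (hd 3),
    h.2.2.2.2.1.mono (hd 4), h.2.2.2.2.2.1.mono (hd 5), h.2.2.2.2.2.2.mono (hd 6)⟩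

lemma Close.trans {P : Par} {x y z : St} {d d' : Fin 7 → ℝ} (h : Close P x y d)
    (h' : Close P y z d') : Close P x z (fun i => d i + d' i) := by
  have e : ∀ {s : ℕ} {f g k : E2 → ℝ} {a b : ℝ}, RB P s (fun x => f x - g x) a →
      RB P s (fun x => g x - k x) b → RB P s (fun x => f x - k x) (a + b) := fun u v =>
    (u.add v).congr fun x => by ring
  obtain ⟨a0, a1, a2, a3, a4, a5, a6⟩ := h
  obtain ⟨b0, b1, b2, b3, b4, b5, b6⟩ := h'
  exact ⟨e a0 b0, e a1 b1, e a2 b2, (abs_sub_le _ _ _).trans (add_le_add a3 b3), e a4 b4, e a5 b5,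
    e a6 b6⟩

lemma Close.symm {P : Par} {x y : St} {d : Fin 7 → ℝ} (h : Close P x y d) : Close P y x d := by
  have e : ∀ {s : ℕ} {f g : E2 → ℝ} {a : ℝ}, RB P s (fun x => f x - g x) a →
      RB P s (fun x => g x - f x) a := fun u => u.neg.congr fun x => by ring
  obtain ⟨a0, a1, a2, a3, a4, a5, a6⟩ := h
  exact ⟨e a0, e a1, e a2, abs_sub_comm x.kap y.kap ▸ a3, e a4, e a5, e a6⟩

lemma Facts.eq_of_small (F : Facts) {P : Par} {s : ℕ} (hs : 3 ≤ s) {f g : E2 → ℝ} {e : ℕ → ℝ}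
    (he : Tendsto e atTop (𝓝 0)) (h : ∀ k, RB P s (fun x => f x - g x) (e k)) : f = g := by
  obtain ⟨C, hC⟩ := F.eval P.R0 P.one_le_R0 s hs
  funext x
  have hx : |f x - g x| ≤ 0 := ge_of_tendsto' (by simpa using he.const_mul C) fun k => by
    have := ((hC P rfl).2 _ _ (h k)).2 x
    simpa only [cx, Complex.norm_real, Real.norm_eq_abs] using this
  linarith [abs_nonpos_iff.1 hx]

lemma Facts.seq_limit (F : Facts) {P : Par} {s : ℕ} (hs : 3 ≤ s) {f : ℕ → E2 → ℝ} {E : ℝ}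
    (h0 : ∃ M, RB P s (f 0) M)
    (h : ∀ k, RB P s (fun x => f (k + 1) x - f k x) (E * (1 / 2) ^ k)) :
    ∀ k, RB P s (fun x => limUnder atTop (fun j => f j x) - f k x) (2 * E * (1 / 2) ^ k) := by
  obtain ⟨M, hM⟩ := h0
  obtain ⟨l, hl⟩ := F.compl P s hs (fun k => cx (f k)) E (1 / 2) (by norm_num) (by norm_num)
    ⟨M, hM⟩ fun k => by
      have e : (fun x => cx (f (k + 1)) x - cx (f k) x) = cx fun x => f (k + 1) x - f k x := by
        funext x; simp [cx]
      rw [e]; exact h k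
  obtain ⟨C, hC⟩ := F.eval P.R0 P.one_le_R0 s hs
  have ht : ∀ x, Tendsto (fun j => cx (f j) x) atTop (𝓝 (l x)) := fun x => by
    rw [tendsto_iff_norm_sub_tendsto_zero]
    refine squeeze_zero (fun N => norm_nonneg _) (fun N => ?_)
      (g := fun N => C * (E * (1 / 2) ^ N / (1 - 1 / 2))) ?_
    · rw [norm_sub_rev]; exact ((hC P rfl).2 _ _ (hl N)).2 x
    · have := ((tendsto_pow_atTop_nhds_zero_of_lt_one (by norm_num : (0:ℝ) ≤ 1/2)
        (by norm_num : (1:ℝ)/2 < 1)).const_mul E).div_const (1 - 1 / 2)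
      simpa using this.const_mul C
  have hre : ∀ x, Tendsto (fun j => f j x) atTop (𝓝 (l x).re) := fun x => by
    have := (Complex.continuous_re.tendsto _).comp (ht x)
    simpa [cx, Function.comp_def] using this
  intro k
  refine ((RB.of_re (hl k)).mono (le_of_eq (by ring))).congr fun x => ?_
  rw [(hre x).limUnder_eq]
  simp [cx]

/-- The iterates. -/
noncomputable def iter (K : Ctx) (D : Dat) (η ε : ℝ) : ℕ → St
  | 0 => D.z0
  | k + 1 => D.T K.t η ε (iter K D η ε k)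

/-- The limit of the iterates. -/
noncomputable def fixedSt (K : Ctx) (D : Dat) (η ε : ℝ) : St where
  iv x := limUnder atTop fun k => (iter K D η ε k).iv x
  m x := limUnder atTop fun k => (iter K D η ε k).m x
  bet x := limUnder atTop fun k => (iter K D η ε k).bet x
  kap := limUnder atTop fun k => (iter K D η ε k).kap
  iq x := limUnder atTop fun k => (iter K D η ε k).iq x
  rho x := limUnder atTop fun k => (iter K D η ε k).rho x
  ir x := limUnder atTop fun k => (iter K D η ε k).ir x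

/-- The fixed point. -/
theorem exists_fixed (hG : Good K D) (hB : BaseRel D) (hne : ∃ P, K.Adm P) {δ1 : ℝ} (hδ1 : 0 < δ1) :
    ∃ δ σ L : ℝ, 0 < σ ∧ σ ≤ δ ∧ δ ≤ δ1 ∧ δ ≤ 1 ∧ 0 ≤ L ∧
      ∀ η ε : ℝ, |η| ≤ σ → |ε| ≤ σ →
        D.T K.t η ε (fixedSt K D η ε) = fixedSt K D η ε ∧
        ∀ P, K.Adm P → Close P (fixedSt K D η ε) D.z0 (fun _ => δ) ∧
          ∀ η' ε', |η'| ≤ σ → |ε'| ≤ σ → Close P (fixedSt K D η ε) (fixedSt K D η' ε')
            (fun _ => L * (|η - η'| + |ε - ε'|)) := by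
  obtain ⟨C, hC1, hstep⟩ := step_bound hG hB hne
  set W : ℝ := 28 * C + 1 with hW
  have hW1 : 1 ≤ W := by linarith
  have hW0 : 0 < W := by linarith
  set δ := min (min δ1 1) (1 / (28 * C * W ^ 6)) with hδdef
  have hδ0 : 0 < δ := lt_min (lt_min hδ1 one_pos) (by positivity)
  have hδ1' : δ ≤ 1 := (min_le_left _ _).trans (min_le_right _ _)
  have hδb : 28 * C * W ^ 6 * δ ≤ 1 := by
    have := mul_le_mul_of_nonneg_left (min_le_right (min δ1 1) (1 / (28 * C * W ^ 6)))
      (by positivity : (0:ℝ) ≤ 28 * C * W ^ 6)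
    rwa [mul_one_div_cancel (by positivity)] at this
  set σ := δ / (4 * C * W ^ 6) with hσdef
  have hσ0 : 0 < σ := by positivity
  have hσδ : σ ≤ δ := div_le_self hδ0.le (by nlinarith [one_le_pow₀ hW1 (n := 6)])
  refine ⟨δ, σ, 4 * C * W ^ 6, hσ0, hσδ, (min_le_left _ _).trans (min_le_left _ _), hδ1',
    by positivity, ?_⟩
  -- the weights
  set w : Fin 7 → ℝ := fun i => W ^ (i : ℕ) with hw
  have hw1 : ∀ i, 1 ≤ w i := fun i => one_le_pow₀ hW1
  have hw6 : ∀ i, w i ≤ W ^ 6 := fun i => pow_le_pow_right₀ hW1 (by have := i.isLt; omega)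
  have hlow : ∀ (i : Fin 7) (Δ : ℝ), 0 ≤ Δ →
      C * (low i (fun j => w j * Δ) + δ * tot (fun j => w j * Δ)) ≤ w i * (Δ / 2) := by
    intro i Δ hΔ
    have h1 : low i (fun j => w j * Δ) * W ≤ 7 * (w i * Δ) := by
      unfold low
      rw [Finset.sum_mul]
      refine le_trans (Finset.sum_le_card_nsmul _ _ (w i * Δ) fun j _ => ?_) (by simp)
      split
      · next hj =>
          rw [show w j * Δ * W = (w j * W) * Δ by ring]
          refine mul_le_mul_of_nonneg_right ?_ hΔ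
          simp only [w]
          rw [← pow_succ]
          exact pow_le_pow_right₀ hW1 hj
      · rw [zero_mul]; exact mul_nonneg (le_trans zero_le_one (hw1 i)) hΔ
    have h2 : tot (fun j => w j * Δ) ≤ 7 * (W ^ 6 * Δ) := by
      unfold tot
      exact le_trans (Finset.sum_le_card_nsmul _ _ (W ^ 6 * Δ) fun j _ =>
        mul_le_mul_of_nonneg_right (hw6 j) hΔ) (by simp)
    have hl0 : 0 ≤ low i (fun j => w j * Δ) :=
      low_nonneg fun j => mul_nonneg (le_trans zero_le_one (hw1 j)) hΔ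
    have h3 : C * low i (fun j => w j * Δ) ≤ w i * Δ / 4 := by nlinarith
    have h4 : C * (δ * tot (fun j => w j * Δ)) ≤ w i * Δ / 4 := by
      calc C * (δ * tot (fun j => w j * Δ)) ≤ C * (δ * (7 * (W ^ 6 * Δ))) := by gcongr
        _ = (28 * C * W ^ 6 * δ) * Δ / 4 := by ring
        _ ≤ w i * Δ / 4 := by
            have := mul_le_mul_of_nonneg_right (hδb.trans (hw1 i)) hΔ
            linarith
    linarith
  have contr : ∀ P, K.Adm P → ∀ η η' ε ε', |η| ≤ δ → |η'| ≤ δ → |ε| ≤ δ → |ε'| ≤ δ → ∀ z z' (Δ : ℝ), 0 ≤ Δ →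
      Close P z D.z0 (fun _ => δ) → Close P z' D.z0 (fun _ => δ) →
      Close P z z' (fun i => w i * Δ) → Close P (D.T K.t η ε z) (D.T K.t η' ε' z')
        (fun i => w i * (Δ / 2 + C * (|η - η'| + |ε - ε'|))) := by
    intro P hP η η' ε ε' a a' b bε z z' Δ hΔ e e' hc
    refine ((hstep P hP η ε δ z a b hδ1' e).2 z' η' ε' _ a' bε e'
      (fun i => mul_nonneg (le_trans zero_le_one (hw1 i)) hΔ) hc).mono fun i => ?_
    have := hlow i Δ hΔ
    have : C * (|η - η'| + |ε - ε'|) ≤ w i * (C * (|η - η'| + |ε - ε'|)) :=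
      le_mul_of_one_le_left (by positivity) (hw1 i)
    linarith
  set E0 := C * σ with hE0
  have hE0' : 0 ≤ E0 := by positivity
  have hE2 : 2 * E0 * W ^ 6 ≤ δ := by
    rw [hE0, hσdef]; field_simp; linarith
  have hiter : ∀ P, K.Adm P → ∀ η ε, |η| ≤ σ → |ε| ≤ σ → ∀ k,
      Close P (iter K D η ε k) D.z0 (fun _ => δ) ∧
      Close P (iter K D η ε k) D.z0 (fun i => w i * (2 * E0 * (1 - (1 / 2) ^ k))) ∧
      Close P (iter K D η ε (k + 1)) (iter K D η ε k) (fun i => w i * (E0 * (1 / 2) ^ k)) := by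
    intro P hP η ε a b k
    have hball : ∀ k, Close P (iter K D η ε k) D.z0
        (fun i => w i * (2 * E0 * (1 - (1 / 2) ^ k))) →
        Close P (iter K D η ε k) D.z0 (fun _ => δ) := fun k h => h.mono fun i => by
      have h1 : (0:ℝ) ≤ 1 - (1 / 2) ^ k := sub_nonneg.2 (pow_le_one₀ (by norm_num) (by norm_num))
      calc w i * (2 * E0 * (1 - (1 / 2) ^ k)) ≤ W ^ 6 * (2 * E0 * 1) := by
            refine mul_le_mul (hw6 i) (mul_le_mul_of_nonneg_left ?_ (by positivity))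
              (mul_nonneg (by positivity) h1) (by positivity)
            linarith [pow_nonneg (by norm_num : (0:ℝ) ≤ 1 / 2) k]
        _ ≤ δ := by linarith
    induction k with
    | zero =>
      refine ⟨Close.base P hδ0.le _, by simpa [iter] using Close.base P le_rfl D.z0, ?_⟩
      have := (hstep P hP η ε σ D.z0 a b (hσδ.trans hδ1') (Close.base P hσ0.le _)).1
      exact this.mono fun i => by simpa [E0] using le_mul_of_one_le_left hE0' (hw1 i)
    | succ k ih =>
      have hk : Close P (iter K D η ε (k + 1)) D.z0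
          (fun i => w i * (2 * E0 * (1 - (1 / 2) ^ (k + 1)))) :=
        (ih.2.2.trans ih.2.1).mono fun i => le_of_eq (by ring)
      refine ⟨hball _ hk, hk, ?_⟩
      have := contr P hP η η ε ε (a.trans hσδ) (a.trans hσδ) (b.trans hσδ) (b.trans hσδ) _ _ _ (by positivity)
        (hball _ hk) ih.1 ih.2.2
      exact this.mono fun i => le_of_eq (by rw [sub_self, sub_self, abs_zero]; ring)
  intro η ε a b
  have hlim : ∀ P, K.Adm P → ∀ η ε, |η| ≤ σ → |ε| ≤ σ → ∀ k,
      Close P (fixedSt K D η ε) (iter K D η ε k) (fun i => w i * (2 * E0 * (1 / 2) ^ k)) := by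
    intro P hP η ε a b k
    have hs := fun k => (hiter P hP η ε a b k).2.2
    have h0 := hG
    obtain ⟨M1, hM1⟩ := hG.hm.weaken (by norm_num : 4 ≤ 5)
    obtain ⟨M4, hM4⟩ := hG.hiq.weaken (by norm_num : 4 ≤ 5)
    obtain ⟨M5, hM5⟩ := hG.hrho
    obtain ⟨M6, hM6⟩ := hG.hir.weaken (by norm_num : 4 ≤ 5)
    have q : ∀ (i : Fin 7) (j : ℕ), w i * (E0 * (1 / 2) ^ j) = w i * E0 * (1 / 2) ^ j :=
      fun i j => by ring
    have r : ∀ (i : Fin 7), 2 * (w i * E0) * (1 / 2) ^ k = w i * (2 * E0 * (1 / 2) ^ k) :=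
      fun i => by ring
    refine ⟨?_, ?_, ?_, ?_, ?_, ?_, ?_⟩
    · exact ((K.F.seq_limit (E := w 0 * E0) (by norm_num) (f := fun j => (iter K D η ε j).iv)
        ⟨1, (K.F.rb_const P (by norm_num) 1).mono (by norm_num)⟩
        fun j => q 0 j ▸ (hs j).1) k).mono (r 0).le
    · exact ((K.F.seq_limit (E := w 1 * E0) (by norm_num) (f := fun j => (iter K D η ε j).m)
        ⟨M1, hM1 P hP⟩ fun j => q 1 j ▸ (hs j).2.1) k).mono (r 1).le
    · exact ((K.F.seq_limit (E := w 2 * E0) (by norm_num) (f := fun j => (iter K D η ε j).bet)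
        ⟨0, RB.zero P 5⟩ fun j => q 2 j ▸ (hs j).2.2.1) k).mono (r 2).le
    · have := K.F.seq_limit (P := P) (E := w 3 * E0) (s := 4) (by norm_num)
        (f := fun j _ => (iter K D η ε j).kap) ⟨_, K.F.rb_const P (by norm_num) _⟩
        (fun j => (K.F.rb_const P (by norm_num) _).mono (q 3 j ▸ (hs j).2.2.2.1)) k
      exact (abs_const_le this).trans (r 3).le
    · exact ((K.F.seq_limit (E := w 4 * E0) (by norm_num) (f := fun j => (iter K D η ε j).iq)
        ⟨M4, hM4 P hP⟩ fun j => q 4 j ▸ (hs j).2.2.2.2.1) k).mono (r 4).le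
    · exact ((K.F.seq_limit (E := w 5 * E0) (by norm_num) (f := fun j => (iter K D η ε j).rho)
        ⟨M5, hM5 P hP⟩ fun j => q 5 j ▸ (hs j).2.2.2.2.2.1) k).mono (r 5).le
    · exact ((K.F.seq_limit (E := w 6 * E0) (by norm_num) (f := fun j => (iter K D η ε j).ir)
        ⟨M6, hM6 P hP⟩ fun j => q 6 j ▸ (hs j).2.2.2.2.2.2) k).mono (r 6).le
  have hgeo : ∀ c : ℝ, Tendsto (fun k : ℕ => c * (1 / 2 : ℝ) ^ k) atTop (𝓝 0) := fun c => by
    simpa using (tendsto_pow_atTop_nhds_zero_of_lt_one (by norm_num : (0:ℝ) ≤ 1/2)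
      (by norm_num : (1:ℝ)/2 < 1)).const_mul c
  have hball : ∀ P, K.Adm P → ∀ η ε, |η| ≤ σ → |ε| ≤ σ →
      Close P (fixedSt K D η ε) D.z0 (fun _ => δ) := fun P hP η ε a b =>
    (hlim P hP η ε a b 0).mono fun i => by
      have := mul_le_mul_of_nonneg_right (hw6 i) (mul_nonneg zero_le_two hE0')
      simp only [pow_zero, mul_one]
      linarith
  refine ⟨?_, fun P hP => ⟨hball P hP η ε a b, fun η' ε' a' b' => ?_⟩⟩
  · obtain ⟨P, hP⟩ := hne
    have h : ∀ k, Close P (D.T K.t η ε (fixedSt K D η ε)) (fixedSt K D η ε)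
        (fun i => w i * (2 * E0) * (1 / 2) ^ k) := fun k => by
      have h1 := contr P hP η η ε ε (a.trans hσδ) (a.trans hσδ) (b.trans hσδ) (b.trans hσδ) _ _ _ (by positivity)
        (hball P hP η ε a b) (hiter P hP η ε a b k).1 (hlim P hP η ε a b k)
      exact (h1.trans (hlim P hP η ε a b (k + 1)).symm).mono fun i => le_of_eq (by rw [sub_self, sub_self, abs_zero]; ring)
    have e : ∀ i : Fin 7, Tendsto (fun k => w i * (2 * E0) * (1 / 2 : ℝ) ^ k) atTop (𝓝 0) :=
      fun i => hgeo _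
    have h3 : (D.T K.t η ε (fixedSt K D η ε)).kap = (fixedSt K D η ε).kap :=
      sub_eq_zero.1 (abs_nonpos_iff.1 (ge_of_tendsto' (e 3) fun k => (h k).2.2.2.1))
    have q0 := K.F.eq_of_small (by norm_num) (e 0) fun k => (h k).1
    have q1 := K.F.eq_of_small (by norm_num) (e 1) fun k => (h k).2.1
    have q2 := K.F.eq_of_small (by norm_num) (e 2) fun k => (h k).2.2.1
    have q4 := K.F.eq_of_small (by norm_num) (e 4) fun k => (h k).2.2.2.2.1
    have q5 := K.F.eq_of_small (by norm_num) (e 5) fun k => (h k).2.2.2.2.2.1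
    have q6 := K.F.eq_of_small (by norm_num) (e 6) fun k => (h k).2.2.2.2.2.2
    exact St.eq_of q0 q1 q2 h3 q4 q5 q6
  · have hpair : ∀ k, Close P (iter K D η ε k) (iter K D η' ε' k)
        (fun i => w i * (2 * C * (|η - η'| + |ε - ε'|))) := by
      intro k
      induction k with
      | zero => exact (Close.base P le_rfl D.z0).mono fun i => by positivity
      | succ k ih =>
        refine (contr P hP η η' ε ε' (a.trans hσδ) (a'.trans hσδ) (b.trans hσδ) (b'.trans hσδ) _ _ _ (by positivity)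
          (hiter P hP η ε a b k).1 (hiter P hP η' ε' a' b' k).1 ih).mono fun i => le_of_eq (by ring)
    obtain ⟨k, hk⟩ : ∃ k : ℕ, (|η - η'| + |ε - ε'|) = 0 ∨ 4 * E0 * (1 / 2 : ℝ) ^ k ≤ 2 * C * (|η - η'| + |ε - ε'|) := by
      rcases eq_or_ne ((|η - η'| + |ε - ε'|)) 0 with h | h
      · exact ⟨0, Or.inl h⟩
      · have hp : 0 < 2 * C * (|η - η'| + |ε - ε'|) := by positivity
        exact ((hgeo (4 * E0)).eventually_lt_const hp).exists.imp fun k hk => Or.inr hk.le
    rcases hk with h | h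
    · have h1 : η = η' := by
        linarith [abs_nonpos_iff.1 (le_of_le_of_eq (le_add_of_nonneg_right (abs_nonneg (ε - ε'))) h)]
      have h2 : ε = ε' := by
        linarith [abs_nonpos_iff.1 (le_of_le_of_eq (le_add_of_nonneg_left (abs_nonneg (η - η'))) h)]
      subst h1 h2
      exact Close.base P (by positivity) _
    · refine (((hlim P hP η ε a b k).trans (hpair k)).trans (hlim P hP η' ε' a' b' k).symm).mono fun i => ?_
      have h1 := mul_le_mul_of_nonneg_left h (le_trans zero_le_one (hw1 i))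
      have h2 := mul_le_mul_of_nonneg_right (hw6 i)
        (by positivity : (0:ℝ) ≤ 4 * C * (|η - η'| + |ε - ε'|))
      linarith

end fixedpoint

end Vale.Agent.P205
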