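import Vale.Agent.P205.CoreSol

/-!
# P205, core: from a solution with commensurable periods to the immersion
-/

namespace Vale.Agent.P205

open Real
open scoped ContDiff

/-- The two derivatives of a scaled circle. -/
lemma pd_circle {r φ : E2 → ℝ} (hr : ContDiff ℝ ∞ r) (hφ : ContDiff ℝ ∞ φ) (A : ℝ) (i : Fin 2)
    (x : E2) :
    pd i (fun y => r y * cos (A * φ y) / A) x
        = (pd i r x * cos (A * φ x) - r x * A * pd i φ x * sin (A * φ x)) / A ∧
      pd i (fun y => r y * sin (A * φ y) / A) x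
        = (pd i r x * sin (A * φ x) + r x * A * pd i φ x * cos (A * φ x)) / A := by
  have h1 := (hr.differentiable (by simp) x).hasFDerivAt
  have h2 := (hφ.differentiable (by simp) x).hasFDerivAt.const_mul A
  constructor
  · have := ((h1.mul h2.cos).mul_const A⁻¹).fderiv
    simp only [div_eq_mul_inv, pd]
    simp only [Pi.mul_apply] at this
    rw [this]
    simp
    ring
  · have := ((h1.mul h2.sin).mul_const A⁻¹).fderiv
    simp only [div_eq_mul_inv, pd]
    simp only [Pi.mul_apply] at this
    rw [this]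
    simp
    ring

/-- A rotated pair of vectors has the same products. -/
lemma rot_pair (a b a' b' θ A : ℝ) :
    (a * cos θ - b * sin θ) / A * ((a' * cos θ - b' * sin θ) / A)
      + (a * sin θ + b * cos θ) / A * ((a' * sin θ + b' * cos θ) / A) = (a * a' + b * b') / A ^ 2 := by
  have h := sin_sq_add_cos_sq θ
  linear_combination ((a * a' + b * b') / A ^ 2) * h

/-- The immersion of a solution. -/
theorem immerses_of_sol (F : Facts) {D : Dat} {η ε : ℝ} {z : St} (hS : Sol D η ε z) (p q : ℤ)
    (hq : 0 < q) (n : ℕ) (hn : 0 < n) (hε : ε = 1 / (2 * π * (q * n)) ^ 2)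
    (hper : (q : ℝ) * -avg2 (D.flux η ε z 1) = p * z.kap) :
    ∃ f : E2 → Fin 4 → ℝ, Immerses D.g f := by
  set A : ℝ := 2 * π * (q * n) with hA
  have hq' : (0 : ℝ) < q := by exact_mod_cast hq
  have hA0 : A ≠ 0 := by
    have : (0 : ℝ) < n := by exact_mod_cast hn
    positivity
  have hk := hS.kap_pos.ne'
  set w : Fin 2 → E2 → ℝ := fun i x =>
    if i = 0 then -D.flux η ε z 1 x / z.kap else D.flux η ε z 0 x / z.kap with hw
  have hws : ∀ i, SP (w i) := by
    intro i
    fin_cases i
    · simpa [hw] using (hS.sp_flux 1).neg.div (sp_const z.kap) fun _ => hk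
    · simpa [hw] using (hS.sp_flux 0).div (sp_const z.kap) fun _ => hk
  have hpd : ∀ (G : E2 → ℝ) (i : Fin 2) (x : E2), Differentiable ℝ G → ∀ c : ℝ,
      pd i (fun y => G y * c) x = pd i G x * c := fun G i x hG c => by
    simp only [pd, ((hG x).hasFDerivAt.mul_const c).fderiv]
    simp [mul_comm]
  have hd := fun i => (hS.sp_flux i).1.differentiable (by simp)
  obtain ⟨R, hR, hdR⟩ := F.primitive hws fun x => by
    have e0 : w 0 = fun y => D.flux η ε z 1 y * (-1 / z.kap) := by funext y; simp [hw]; ring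
    have e1 : w 1 = fun y => D.flux η ε z 0 y * (1 / z.kap) := by funext y; simp [hw]; ring
    rw [e0, e1, hpd _ _ _ (hd 1), hpd _ _ _ (hd 0)]
    have := hS.div x
    linear_combination (-1 / z.kap) * this
  have a0 : avg2 (w 0) = (p : ℝ) / q := by
    have e : w 0 = fun y => (-1 / z.kap) * D.flux η ε z 1 y := by funext y; simp [hw]; ring
    rw [e]
    simp only [avg2, intervalIntegral.integral_const_mul]
    simp only [avg2] at hper
    field_simp
    linear_combination hper
  have a1 : avg2 (w 1) = 1 := by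
    have e : w 1 = fun y => (1 / z.kap) * D.flux η ε z 0 y := by funext y; simp [hw]; ring
    rw [e]
    simp only [avg2, intervalIntegral.integral_const_mul]
    have := hS.kap_eq
    simp only [avg2] at this
    rw [this]
    field_simp
  set φ : E2 → ℝ := fun x => D.I.u x + z.bet x with hφ
  set ψ : E2 → ℝ := fun x => (p : ℝ) / q * x.1 + x.2 + R x with hψ
  have sφ : ContDiff ℝ ∞ φ := D.I.smooth_u.add hS.sp_bet.1
  have slin : ContDiff ℝ ∞ fun x : E2 => (p : ℝ) / q * x.1 + x.2 :=
    (contDiff_const.mul contDiff_fst).add contDiff_snd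
  have sψ : ContDiff ℝ ∞ ψ := slin.add hR.1
  have pφ : ∀ i x, pd i φ x = D.al z i x := fun i x => by
    rw [hφ, pd_add D.I.smooth_u hS.sp_bet.1, Dat.al, F.dop_smooth hS.sp_bet.1 hS.sp_bet.2]
    rfl
  have pψ : ∀ i x, pd i ψ x = w i x := fun i x => by
    rw [hψ, pd_add slin hR.1, hdR]
    have : pd i (fun x : E2 => (p : ℝ) / q * x.1 + x.2) x = avg2 (w i) := by
      simp only [pd, ((((hasFDerivAt_fst (𝕜 := ℝ) (E := ℝ) (F := ℝ) (p := x)).const_mul
        ((p : ℝ) / q)).fun_add (hasFDerivAt_snd (𝕜 := ℝ) (E := ℝ) (F := ℝ) (p := x))).fderiv)]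
      fin_cases i <;> simp [e, a0, a1]
    rw [this]; ring
  set ρ' : E2 → ℝ := fun x => z.kap * (D.nu η x * z.rho x) with hρ'
  have sν : SP (D.nu η) := sp_nu
  have sρ' : SP ρ' := (sp_const z.kap).mul (sν.mul hS.sp_rho)
  have pρ' : ∀ i x, pd i ρ' x = z.kap * D.sig η z i x := fun i x => by
    have eν : pd i (D.nu η) x = D.dnu η i x := by
      have hn' : D.nu η = fun y => 1 + η * D.C y := rfl
      simp only [pd, hn', ((((D.smooth_C.differentiable (by simp) x).hasFDerivAt.const_mul η)
        ).const_add 1).fderiv]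
      rfl
    rw [hρ', pd_mul contDiff_const (sν.mul hS.sp_rho).1, pd_mul sν.1 hS.sp_rho.1, eν,
      Dat.sig, F.dop_smooth hS.sp_rho.1 hS.sp_rho.2]
    simp [pd]
  set G : Fin 4 → E2 → ℝ := ![fun y => z.rho y * cos (A * φ y) / A,
    fun y => z.rho y * sin (A * φ y) / A, fun y => ρ' y * cos (A * ψ y) / A,
    fun y => ρ' y * sin (A * ψ y) / A] with hG
  have sG : ∀ l, ContDiff ℝ ∞ (G l) := by
    have := hS.sp_rho.1
    have := sρ'.1
    intro l
    fin_cases l <;> simp [hG] <;> fun_prop
  refine ⟨fun x l => G l x, contDiff_pi.2 sG, fun x a b => ?_, fun x i k => ?_⟩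
  · have tφ : A * φ (x + ((a : ℝ), (b : ℝ))) = A * φ x + ((q * n * a : ℤ) : ℝ) * (2 * π) := by
      simp only [hφ, D.I.per_u, hS.sp_bet.2 x a b, hA]; push_cast; ring
    have tψ : A * ψ (x + ((a : ℝ), (b : ℝ)))
        = A * ψ x + ((n * p * a + q * n * b : ℤ) : ℝ) * (2 * π) := by
      simp only [hψ, hR.2 x a b, hA, Prod.fst_add, Prod.snd_add]
      push_cast
      field_simp
      ring
    funext l
    fin_cases l <;>
      simp only [hG, Matrix.cons_val_zero, Matrix.cons_val_one, Matrix.cons_val, Fin.isValue,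
        Fin.zero_eta, Fin.mk_one, Fin.reduceFinMk, hS.sp_rho.2 x a b, sρ'.2 x a b, tφ, tψ,
        cos_add_int_mul_two_pi, sin_add_int_mul_two_pi]
  · have hf : ∀ j, pd j (fun y (l : Fin 4) => G l y) x = fun l => pd j (G l) x := fun j => by
      simp only [pd, fderiv_pi fun l => (sG l).differentiable (by simp) x]
      rfl
    simp only [hf]
    simp only [Fin.sum_univ_four, hG, Matrix.cons_val_zero, Matrix.cons_val_one,
      Matrix.cons_val, (pd_circle hS.sp_rho.1 sφ A _ x).1, (pd_circle hS.sp_rho.1 sφ A _ x).2,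
      (pd_circle sρ'.1 sψ A _ x).1, (pd_circle sρ'.1 sψ A _ x).2]
    rw [rot_pair, add_assoc, rot_pair, pρ', pρ', pφ, pφ, pψ, pψ]
    set vp : Fin 2 → ℝ := fun j => if j = 0 then -D.vv η ε z 1 x else D.vv η ε z 0 x with hvp
    have key : D.h η ε z i k x * D.nn η ε z x
        = D.detH η ε z x * (D.al z i x * D.al z k x) + vp i * vp k := by
      fin_cases i <;> fin_cases k <;>
        simp [hvp, Dat.nn, Dat.vv, Dat.adjh, Dat.detH, h_symm 1 0] <;> ring
    have hwv : ∀ j, z.kap * (D.nu η x * w j x) = z.m x * vp j := fun j => by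
      have := hS.iv_nu x
      fin_cases j <;> simp [hw, hvp, Dat.flux] <;> field_simp <;>
        first
          | linear_combination (z.m x * D.vv η ε z 1 x) * this
          | linear_combination -(z.m x * D.vv η ε z 1 x) * this
          | linear_combination (z.m x * D.vv η ε z 0 x) * this
    have hh : D.h η ε z i k x
        = z.rho x * z.rho x * (D.al z i x * D.al z k x + z.m x * vp i * (z.m x * vp k)) := by
      refine mul_right_cancel₀ (hS.nn_pos x).ne' ?_
      rw [key]
      linear_combination -(D.al z i x * D.al z k x + z.m x * vp i * (z.m x * vp k)) * hS.rel x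
        - (vp i * vp k) * hS.m_sq x
    rw [← hwv i, ← hwv k] at hh
    have hdef : D.h η ε z i k x = D.g.comp i k x
        - ε * (Dop i z.rho x * Dop k z.rho x + z.kap ^ 2 * (D.sig η z i x * D.sig η z k x)) := rfl
    rw [hdef, F.dop_smooth hS.sp_rho.1 hS.sp_rho.2, F.dop_smooth hS.sp_rho.1 hS.sp_rho.2, hε] at hh
    simp only [hρ']
    field_simp at hh ⊢
    linear_combination -hh

end Vale.Agent.P205
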