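import Vale.Agent.P205.CoreSolve

/-!
# P205, core: a calculus of Lipschitz bounds around the base point

`Est K z0 s n F F0`: near the base state `z0` the expression `F` is close to `F0` in the space of
level `s`, and it depends at first order only on the components of index less than `n`.
-/

namespace Vale.Agent.P205

open Real
open scoped ContDiff

/-- The unknowns. -/
structure St where
  iv : E2 → ℝ
  m : E2 → ℝ
  bet : E2 → ℝ
  kap : ℝ
  iq : E2 → ℝ
  rho : E2 → ℝ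
  ir : E2 → ℝ

/-- Componentwise distance of two states. -/
def Close (P : Par) (z z' : St) (d : Fin 7 → ℝ) : Prop :=
  RB P 4 (fun x => z.iv x - z'.iv x) (d 0) ∧ RB P 4 (fun x => z.m x - z'.m x) (d 1) ∧
  RB P 5 (fun x => z.bet x - z'.bet x) (d 2) ∧ |z.kap - z'.kap| ≤ d 3 ∧
  RB P 4 (fun x => z.iq x - z'.iq x) (d 4) ∧ RB P 5 (fun x => z.rho x - z'.rho x) (d 5) ∧
  RB P 4 (fun x => z.ir x - z'.ir x) (d 6)

/-- The fixed data of the weighted spaces. -/
structure Ctx where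
  F : Facts
  R0 : ℝ
  hR0 : 1 ≤ R0
  t : ℝ
  ht : 0 < t
  θ : ℝ
  hθ : 0 ≤ θ
  hθ1 : θ < 1
  A : Fin 2 → Fin 2 → E2 → ℝ
  Adm : Par → Prop
  adm_R0 : ∀ P, Adm P → P.R0 = R0
  adm_mul : ∀ P, Adm P → MulBd P A t θ

/-- Sum of the first `n` components. -/
def low (n : ℕ) (d : Fin 7 → ℝ) : ℝ := ∑ i : Fin 7, if (i : ℕ) < n then d i else 0

/-- Sum of all components. -/
def tot (d : Fin 7 → ℝ) : ℝ := ∑ i : Fin 7, d i

/-- A fixed function, uniformly bounded in the admissible spaces. -/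
def Fix (K : Ctx) (s : ℕ) (f : E2 → ℝ) : Prop := ∃ M, ∀ P, K.Adm P → RB P s f M

/-- The Lipschitz bound. -/
def Est (K : Ctx) (z0 : St) (s n : ℕ) (F : ℝ → ℝ → St → E2 → ℝ) (F0 : E2 → ℝ) : Prop :=
  Fix K s F0 ∧ ∃ C, 0 ≤ C ∧ ∀ P, K.Adm P → ∀ (η ε δ : ℝ) (z : St), |η| ≤ δ → |ε| ≤ δ → δ ≤ 1 →
    Close P z z0 (fun _ => δ) → RB P s (fun x => F η ε z x - F0 x) (C * δ) ∧
    ∀ (z' : St) (η' ε' : ℝ) (d : Fin 7 → ℝ), |η'| ≤ δ → |ε'| ≤ δ → Close P z' z0 (fun _ => δ) → (∀ i, 0 ≤ d i) → Close P z z' d →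
      RB P s (fun x => F η ε z x - F η' ε' z' x) (C * (low n d + δ * tot d + (|η - η'| + |ε - ε'|)))

lemma low_nonneg {n : ℕ} {d : Fin 7 → ℝ} (hd : ∀ i, 0 ≤ d i) : 0 ≤ low n d :=
  Finset.sum_nonneg fun i _ => by split <;> simp [hd i]

lemma tot_nonneg {d : Fin 7 → ℝ} (hd : ∀ i, 0 ≤ d i) : 0 ≤ tot d :=
  Finset.sum_nonneg fun i _ => hd i

lemma low_mono {m n : ℕ} (h : m ≤ n) {d : Fin 7 → ℝ} (hd : ∀ i, 0 ≤ d i) : low m d ≤ low n d := by
  refine Finset.sum_le_sum fun i _ => ?_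
  by_cases h1 : (i : ℕ) < m
  · simp [h1, lt_of_lt_of_le h1 h]
  · simp only [h1, ↓reduceIte]; split <;> simp [hd i]

lemma low_le_tot (n : ℕ) {d : Fin 7 → ℝ} (hd : ∀ i, 0 ≤ d i) : low n d ≤ tot d :=
  Finset.sum_le_sum fun i _ => by split <;> simp [hd i]

lemma le_low {n : ℕ} {d : Fin 7 → ℝ} (hd : ∀ i, 0 ≤ d i) (i : Fin 7) (hi : (i : ℕ) < n) :
    d i ≤ low n d := by
  refine le_trans (le_of_eq (by simp [hi]))
    (Finset.single_le_sum (f := fun j : Fin 7 => if (j : ℕ) < n then d j else 0)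
      (fun j _ => by split <;> simp [hd j]) (Finset.mem_univ i))

lemma RB.congr {P : Par} {s : ℕ} {f h : E2 → ℝ} {M : ℝ} (hf : RB P s f M) (e : ∀ x, f x = h x) :
    RB P s h M := by rwa [← funext e]

lemma len_zero_wt (P : Par) (s : ℕ) : wt P s 0 = 1 := by simp [wt, len]

lemma Facts.rb_const (F : Facts) (P : Par) {s : ℕ} (hs : 3 ≤ s) (c : ℝ) :
    RB P s (fun _ => c) |c| := by
  classical
  set a : Co := fun n => if n = 0 then (c : ℂ) else 0 with ha
  obtain ⟨C, hC⟩ := F.eval P.R0 P.one_le_R0 s hs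
  have hb : Bd P s a |c| := by
    refine ⟨abs_nonneg _, fun S => ?_⟩
    refine le_trans (Finset.sum_le_sum fun n _ => le_of_eq (?_ :
      _ = if n = 0 then |c| ^ 2 else 0)) ?_
    · by_cases hn : n = 0
      · subst hn; simp [a, len_zero_wt]
      · simp [a, hn]
    · rw [Finset.sum_ite_eq' S (0 : ℤ × ℤ) fun _ => |c| ^ 2]
      split <;> simp [sq_nonneg]
  obtain ⟨-, -, hc, hp, hfc⟩ := (hC P rfl).1 a _ hb
  have e : ev a = cx fun _ => c := by
    funext x
    rw [ev, tsum_eq_single 0 fun n hn => by simp [a, hn]]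
    simp [a, cx, chr]
  rw [e] at hc hp hfc
  exact ⟨hc, hp, hfc ▸ hb⟩

lemma RB.abs_mean_le {P : Par} {s : ℕ} {f : E2 → ℝ} {M : ℝ} (hf : RB P s f M) :
    |(fc (cx f) 0).re| ≤ M := by
  have h := hf.2.2.2 {0}
  simp only [Finset.sum_singleton, len_zero_wt, one_mul] at h
  exact (Complex.abs_re_le_norm _).trans
    ((abs_le_of_sq_le_sq' h hf.nonneg).2)

namespace Est

variable {K : Ctx} {z0 : St} {s n m : ℕ} {F G : ℝ → ℝ → St → E2 → ℝ} {F0 G0 : E2 → ℝ}

lemma mono (h : Est K z0 s n F F0) (hnm : n ≤ m) : Est K z0 s m F F0 := by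
  obtain ⟨h0, C, hC, h⟩ := h
  refine ⟨h0, C, hC, fun P hP η ε δ z a b c e => ⟨(h P hP η ε δ z a b c e).1,
    fun z' η' ε' d a' bε e' hd hc' => ((h P hP η ε δ z a b c e).2 z' η' ε' d a' bε e' hd hc').mono ?_⟩⟩
  exact mul_le_mul_of_nonneg_left (add_le_add (add_le_add (low_mono hnm hd) le_rfl) le_rfl) hC

lemma weaken {t : ℕ} (h : Est K z0 s n F F0) (hts : t ≤ s) : Est K z0 t n F F0 := by
  obtain ⟨⟨M, hM⟩, C, hC, h⟩ := h
  exact ⟨⟨M, fun P hP => (hM P hP).weaken hts⟩, C, hC, fun P hP η ε δ z a b c e =>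
    ⟨(h P hP η ε δ z a b c e).1.weaken hts,
      fun z' η' ε' d a' bε e' hd hc' => ((h P hP η ε δ z a b c e).2 z' η' ε' d a' bε e' hd hc').weaken hts⟩⟩

lemma congr (h : Est K z0 s n F F0) (e : ∀ η ε z x, F η ε z x = G η ε z x)
    (e0 : ∀ x, F0 x = G0 x) : Est K z0 s n G G0 := by
  have h1 : F = G := by funext η ε z x; exact e η ε z x
  have h2 : F0 = G0 := funext e0
  rwa [← h1, ← h2]

lemma ofFix {f : E2 → ℝ} (hf : Fix K s f) : Est K z0 s 0 (fun _ _ _ => f) f := by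
  refine ⟨hf, 0, le_rfl, fun P _ η ε δ z _ _ _ _ => ⟨?_, fun z' η' ε' d a' bε _ _ _ => ?_⟩⟩ <;>
    simpa using RB.zero P s

lemma add (hF : Est K z0 s n F F0) (hG : Est K z0 s n G G0) :
    Est K z0 s n (fun η ε z x => F η ε z x + G η ε z x) (fun x => F0 x + G0 x) := by
  obtain ⟨⟨M, hM⟩, C, hC, hF⟩ := hF
  obtain ⟨⟨N, hN⟩, D, hD, hG⟩ := hG
  refine ⟨⟨M + N, fun P hP => (hM P hP).add (hN P hP)⟩, C + D, add_nonneg hC hD,
    fun P hP η ε δ z a b c e => ⟨?_, fun z' η' ε' d a' bε e' hd hc => ?_⟩⟩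
  · refine (((hF P hP η ε δ z a b c e).1.add (hG P hP η ε δ z a b c e).1).mono
      (le_of_eq (by ring))).congr fun x => by ring
  · refine ((((hF P hP η ε δ z a b c e).2 z' η' ε' d a' bε e' hd hc).add
      ((hG P hP η ε δ z a b c e).2 z' η' ε' d a' bε e' hd hc)).mono (le_of_eq (by ring))).congr fun x => by ring

lemma smul (hF : Est K z0 s n F F0) (a : ℝ) :
    Est K z0 s n (fun η ε z x => a * F η ε z x) (fun x => a * F0 x) := by
  obtain ⟨⟨M, hM⟩, C, hC, hF⟩ := hF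
  refine ⟨⟨|a| * M, fun P hP => (hM P hP).const_mul a⟩, |a| * C, by positivity,
    fun P hP η ε δ z h1 h2 c e => ⟨?_, fun z' η' ε' d a' bε e' hd hc => ?_⟩⟩
  · exact (((hF P hP η ε δ z h1 h2 c e).1.const_mul a).mono (le_of_eq (by ring))).congr
      fun x => by ring
  · exact ((((hF P hP η ε δ z h1 h2 c e).2 z' η' ε' d a' bε e' hd hc).const_mul a).mono
      (le_of_eq (by ring))).congr fun x => by ring

lemma neg (hF : Est K z0 s n F F0) :
    Est K z0 s n (fun η ε z x => -F η ε z x) (fun x => -F0 x) :=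
  (hF.smul (-1)).congr (fun _ _ _ _ => by ring) fun _ => by ring

lemma sub (hF : Est K z0 s n F F0) (hG : Est K z0 s n G G0) :
    Est K z0 s n (fun η ε z x => F η ε z x - G η ε z x) (fun x => F0 x - G0 x) :=
  (hF.add hG.neg).congr (fun _ _ _ _ => by ring) fun _ => by ring

/-- A small parameter removes the first order dependence. -/
lemma small {p : ℝ → ℝ → ℝ} (hp : ∀ η ε δ : ℝ, |η| ≤ δ → |ε| ≤ δ → |p η ε| ≤ δ)
    (hp' : ∀ η η' ε ε' : ℝ, |p η ε - p η' ε'| ≤ (|η - η'| + |ε - ε'|))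
    (hs : 3 ≤ s) (hF : Est K z0 s n F F0) :
    Est K z0 s 0 (fun η ε z x => p η ε * F η ε z x) (fun _ => 0) := by
  obtain ⟨⟨M, hM⟩, C, hC, hF⟩ := hF
  refine ⟨⟨0, fun P _ => RB.zero P s⟩, |M| + 2 * C, by positivity,
    fun P hP η ε δ z h1 h2 hδ e => ?_⟩
  have hδ0 : 0 ≤ δ := (abs_nonneg η).trans h1
  have hpb := hp η ε δ h1 h2
  obtain ⟨q1, q2⟩ := hF P hP η ε δ z h1 h2 hδ e
  have hFz := (q1.add (hM P hP)).congr (h := F η ε z) fun x => sub_add_cancel _ _
  have bF : C * δ + M ≤ |M| + C := by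
    nlinarith [le_abs_self M, mul_le_mul_of_nonneg_left hδ hC]
  refine ⟨?_, fun z' η' ε' d a' bε e' hd hc => ?_⟩
  · refine ((hFz.const_mul (p η ε)).mono ?_).congr fun x => (sub_zero _).symm
    calc |p η ε| * (C * δ + M) ≤ δ * (|M| + C) :=
          mul_le_mul hpb bF (add_nonneg (mul_nonneg hC hδ0) (hM P hP).nonneg) hδ0
      _ ≤ _ := by nlinarith
  · refine (((hFz.const_mul (p η ε - p η' ε')).add
      ((q2 z' η' ε' d a' bε e' hd hc).const_mul (p η' ε'))).mono ?_).congr fun x => by ring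
    have ht := tot_nonneg hd
    have hl := low_nonneg (n := n) hd
    have he := add_nonneg (abs_nonneg (η - η')) (abs_nonneg (ε - ε'))
    have h0 : 0 ≤ low 0 d := low_nonneg hd
    calc |p η ε - p η' ε'| * (C * δ + M) + |p η' ε'| * (C * (low n d + δ * tot d + (|η - η'| + |ε - ε'|)))
        ≤ (|η - η'| + |ε - ε'|) * (|M| + C) + δ * (C * (tot d + 1 * tot d + (|η - η'| + |ε - ε'|))) := by
          refine add_le_add (mul_le_mul (hp' η η' ε ε') bF
            (add_nonneg (mul_nonneg hC hδ0) (hM P hP).nonneg) he) ?_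
          refine mul_le_mul (hp η' ε' δ a' bε) (mul_le_mul_of_nonneg_left (add_le_add (add_le_add
            (low_le_tot n hd) (mul_le_mul_of_nonneg_right hδ ht)) le_rfl) hC) ?_ hδ0
          exact mul_nonneg hC (add_nonneg (add_nonneg hl (mul_nonneg hδ0 ht)) he)
      _ ≤ _ := by
          nlinarith [mul_nonneg (abs_nonneg M) (mul_nonneg hδ0 ht),
            mul_nonneg (abs_nonneg M) h0, mul_nonneg hC h0,
            mul_nonneg (mul_nonneg hC he) (sub_nonneg.2 hδ)]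

lemma eta (hs : 3 ≤ s) (hF : Est K z0 s n F F0) :
    Est K z0 s 0 (fun η ε z x => η * F η ε z x) (fun _ => 0) :=
  hF.small (p := fun η _ => η) (fun _ _ _ h _ => h) (fun _ _ ε ε' => le_add_of_nonneg_right (abs_nonneg _)) hs

lemma eps (hs : 3 ≤ s) (hF : Est K z0 s n F F0) :
    Est K z0 s 0 (fun η ε z x => ε * F η ε z x) (fun _ => 0) :=
  hF.small (p := fun _ ε => ε) (fun _ _ _ _ h => h) (fun η η' _ _ => le_add_of_nonneg_left (abs_nonneg _)) hs

lemma mul (hs : 3 ≤ s) (hF : Est K z0 s n F F0) (hG : Est K z0 s n G G0) :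
    Est K z0 s n (fun η ε z x => F η ε z x * G η ε z x) (fun x => F0 x * G0 x) := by
  obtain ⟨⟨M, hM⟩, C, hC, hF⟩ := hF
  obtain ⟨⟨N, hN⟩, D, hD, hG⟩ := hG
  obtain ⟨a, ha⟩ := K.F.alg K.R0 K.hR0 s hs
  have prod : ∀ P, K.Adm P → ∀ f h M N, RB P s f M → RB P s h N →
      RB P s (fun x => f x * h x) (|a| * M * N) := fun P hP f h M N hf hh => by
    have := ha P (K.adm_R0 P hP) _ _ M N hf hh
    have e : cx (fun x => f x * h x) = fun x => cx f x * cx h x := by funext x; simp [cx]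
    have h2 : RB P s (fun x => f x * h x) (a * M * N) := by unfold RB; rwa [e]
    exact h2.mono (mul_le_mul_of_nonneg_right (mul_le_mul_of_nonneg_right (le_abs_self a) hf.nonneg)
      hh.nonneg)
  refine ⟨⟨|a| * M * N, fun P hP => prod P hP _ _ _ _ (hM P hP) (hN P hP)⟩,
    |a| * (C * (|N| + D) + (|M| + C) * D), by positivity,
    fun P hP η ε δ z h1 h2 hδ e => ?_⟩
  have hδ0 : 0 ≤ δ := (abs_nonneg η).trans h1
  obtain ⟨f1, f2⟩ := hF P hP η ε δ z h1 h2 hδ e
  obtain ⟨g1, g2⟩ := hG P hP η ε δ z h1 h2 hδ e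
  have hG' := (g1.add (hN P hP)).congr (h := G η ε z) fun x => sub_add_cancel _ _
  have hN0 := (hN P hP).nonneg
  have hM0 := (hM P hP).nonneg
  have bG : D * δ + N ≤ |N| + D := by nlinarith [le_abs_self N, mul_le_mul_of_nonneg_left hδ hD]
  refine ⟨?_, fun z' η' ε' d a' bε e' hd hc => ?_⟩
  · refine (((prod P hP _ _ _ _ f1 hG').add (prod P hP _ _ _ _ (hM P hP) g1)).mono ?_).congr
      fun x => by ring
    calc |a| * (C * δ) * (D * δ + N) + |a| * M * (D * δ)
        ≤ |a| * (C * δ) * (|N| + D) + |a| * (|M| + C) * (D * δ) := by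
          gcongr
          linarith [le_abs_self M]
      _ = _ := by ring
  · have f1' := (hF P hP η' ε' δ z' a' bε hδ e').1
    have hF' := (f1'.add (hM P hP)).congr (h := F η' ε' z') fun x => sub_add_cancel _ _
    have bF : C * δ + M ≤ |M| + C := by
      nlinarith [le_abs_self M, mul_le_mul_of_nonneg_left hδ hC]
    have hl : 0 ≤ low n d + δ * tot d + (|η - η'| + |ε - ε'|) := add_nonneg (add_nonneg (low_nonneg hd) (mul_nonneg hδ0 (tot_nonneg hd))) (add_nonneg (abs_nonneg _) (abs_nonneg _))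
    refine (((prod P hP _ _ _ _ (f2 z' η' ε' d a' bε e' hd hc) hG').add
      (prod P hP _ _ _ _ hF' (g2 z' η' ε' d a' bε e' hd hc))).mono ?_).congr fun x => by ring
    calc |a| * (C * (low n d + δ * tot d + (|η - η'| + |ε - ε'|))) * (D * δ + N)
          + |a| * (C * δ + M) * (D * (low n d + δ * tot d + (|η - η'| + |ε - ε'|)))
        ≤ |a| * (C * (low n d + δ * tot d + (|η - η'| + |ε - ε'|))) * (|N| + D)
          + |a| * (|M| + C) * (D * (low n d + δ * tot d + (|η - η'| + |ε - ε'|))) := by gcongr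
      _ = _ := by ring

/-- A linear operation with a bound carries the estimate. -/
lemma linear {t : ℕ} (L : (E2 → ℝ) → E2 → ℝ) (c : ℝ) (hc : 0 ≤ c)
    (hb : ∀ P, K.Adm P → ∀ f M, RB P s f M → RB P t (L f) (c * M))
    (hlin : ∀ P, K.Adm P → ∀ f h M N, RB P s f M → RB P s h N → ∀ x,
      L (fun y => f y - h y) x = L f x - L h x)
    (hF : Est K z0 s n F F0) : Est K z0 t n (fun η ε z => L (F η ε z)) (L F0) := by
  obtain ⟨⟨M, hM⟩, C, hC, hF⟩ := hF
  refine ⟨⟨c * M, fun P hP => hb P hP _ _ (hM P hP)⟩, c * C, mul_nonneg hc hC,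
    fun P hP η ε δ z h1 h2 hδ e => ?_⟩
  obtain ⟨f1, f2⟩ := hF P hP η ε δ z h1 h2 hδ e
  have hFz := (f1.add (hM P hP)).congr (h := F η ε z) fun x => sub_add_cancel _ _
  refine ⟨((hb P hP _ _ f1).mono (le_of_eq (by ring))).congr
    (hlin P hP _ _ _ _ hFz (hM P hP)), fun z' η' ε' d a' bε e' hd hc' => ?_⟩
  have hFz' := ((hF P hP η' ε' δ z' a' bε hδ e').1.add (hM P hP)).congr (h := F η' ε' z')
    fun x => sub_add_cancel _ _
  exact ((hb P hP _ _ (f2 z' η' ε' d a' bε e' hd hc')).mono (le_of_eq (by ring))).congr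
    (hlin P hP _ _ _ _ hFz hFz')

lemma coord4 {f : St → E2 → ℝ} {i : Fin 7} (h0 : Fix K 4 (f z0))
    (h : ∀ P z z' d, Close P z z' d → RB P 4 (fun x => f z x - f z' x) (d i))
    (hn : (i : ℕ) < n) : Est K z0 4 n (fun _ _ z => f z) (f z0) := by
  refine ⟨h0, 1, zero_le_one, fun P _ η ε δ z h1 _ _ e => ⟨?_, fun z' η' ε' d a' bε _ hd hc => ?_⟩⟩
  · rw [one_mul]; exact h P z z0 _ e
  · refine (h P z z' d hc).mono ?_
    rw [one_mul]
    linarith [le_low hd i hn, mul_nonneg ((abs_nonneg η).trans h1) (tot_nonneg hd), abs_nonneg (η - η'), abs_nonneg (ε - ε')]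

lemma coord5 {f : St → E2 → ℝ} {i : Fin 7} (h0 : Fix K 5 (f z0))
    (h : ∀ P z z' d, Close P z z' d → RB P 5 (fun x => f z x - f z' x) (d i))
    (hn : (i : ℕ) < n) : Est K z0 5 n (fun _ _ z => f z) (f z0) := by
  refine ⟨h0, 1, zero_le_one, fun P _ η ε δ z h1 _ _ e => ⟨?_, fun z' η' ε' d a' bε _ hd hc => ?_⟩⟩
  · rw [one_mul]; exact h P z z0 _ e
  · refine (h P z z' d hc).mono ?_
    rw [one_mul]
    linarith [le_low hd i hn, mul_nonneg ((abs_nonneg η).trans h1) (tot_nonneg hd), abs_nonneg (η - η'), abs_nonneg (ε - ε')]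

lemma kap (hs : 3 ≤ s) (hn : 3 < n) :
    Est K z0 s n (fun _ _ z _ => z.kap) (fun _ => z0.kap) := by
  refine ⟨⟨|z0.kap|, fun P _ => K.F.rb_const P hs _⟩, 1, zero_le_one,
    fun P _ η ε δ z h1 _ _ e => ⟨?_, fun z' η' ε' d a' bε _ hd hc => ?_⟩⟩
  · rw [one_mul]; exact (K.F.rb_const P hs _).mono e.2.2.2.1
  · refine (K.F.rb_const P hs _).mono ?_
    rw [one_mul]
    linarith [hc.2.2.2.1, le_low hd (3 : Fin 7) (by simpa using hn),
      mul_nonneg ((abs_nonneg η).trans h1) (tot_nonneg hd), abs_nonneg (η - η'), abs_nonneg (ε - ε')]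

/-- The derivative. -/
lemma dop (hs : 3 ≤ s) (i : Fin 2) (hF : Est K z0 (s + 1) n F F0) :
    Est K z0 s n (fun η ε z => Dop i (F η ε z)) (Dop i F0) := by
  refine linear (Dop i) (2 * π * K.R0) (by have := K.hR0; positivity) (fun P hP f M hf => ?_)
    (fun P hP f h M N hf hh => ?_) hF
  · rw [← K.adm_R0 P hP]; exact K.F.dop hs hf i
  · have e : Dop i (fun y => f y - h y) = fun x => Dop i f x - Dop i h x := by
      refine K.F.ext hs (K.F.dop hs (hf.sub hh) i) ((K.F.dop hs hf i).sub (K.F.dop hs hh i))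
        fun n => ?_
      simp only [sub_eq_add_neg]
      rw [fc_cx_add (K.F.dop hs hf i).1 (K.F.dop hs hh i).neg.1]
      simp only [show (fun x => -Dop i h x) = fun x => (-1) * Dop i h x from funext fun x => by ring,
        fc_cx_smul, K.F.fc_dop hs hf i, K.F.fc_dop hs hh i]
      have := K.F.fc_dop hs (hf.add hh.neg) i
      rw [this]
      simp only [fc_cx_add hf.1 hh.neg.1,
        show (fun y => -h y) = fun y => (-1) * h y from funext fun x => by ring, fc_cx_smul]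
      ring
    exact congrFun e

/-- Gradient of the inverse Laplacian. -/
lemma ginv (hs : 3 ≤ s) (i : Fin 2) (hF : Est K z0 s n F F0) :
    Est K z0 (s + 1) n (fun η ε z => Ginv (F η ε z) i) (Ginv F0 i) := by
  refine linear (fun f => Ginv f i) 1 zero_le_one (fun P _ f M hf => ?_)
    (fun P _ f h M N hf hh => ?_) hF
  · rw [one_mul]; exact (K.F.ginv hs hf i).1
  · have h1 := (K.F.ginv hs (hf.sub hh) i)
    have h2 := (K.F.ginv hs hf i)
    have h3 := (K.F.ginv hs hh i)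
    have e : Ginv (fun y => f y - h y) i = fun x => Ginv f i x - Ginv h i x := by
      refine K.F.ext (by omega) h1.1 (h2.1.sub h3.1) fun n => ?_
      have e1 : (fun x => Ginv f i x - Ginv h i x) = fun x => Ginv f i x + (-1) * Ginv h i x :=
        funext fun x => by ring
      have e2 : (fun y => f y - h y) = fun y => f y + (-1) * h y := funext fun x => by ring
      rw [h1.2, e1, fc_cx_add h2.1.1 ((h3.1.const_mul (-1)).1), fc_cx_smul, h2.2, h3.2]
      simp only [e2, fc_cx_add hf.1 (hh.const_mul (-1)).1, fc_cx_smul]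
      ring
    exact congrFun e

/-- The mean, as a constant function. -/
lemma mean {t : ℕ} (ht : 3 ≤ t) (hF : Est K z0 s n F F0) :
    Est K z0 t n (fun η ε z _ => (fc (cx (F η ε z)) 0).re) (fun _ => (fc (cx F0) 0).re) := by
  refine linear (fun f _ => (fc (cx f) 0).re) 1 zero_le_one
    (fun P _ f M hf => (K.F.rb_const P ht _).mono (by simpa using hf.abs_mean_le))
    (fun P _ f h M N hf hh x => ?_) hF
  have e2 : (fun y => f y - h y) = fun y => f y + (-1) * h y := funext fun x => by ring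
  rw [e2, fc_cx_add hf.1 (hh.const_mul (-1)).1, fc_cx_smul]
  simp
  ring

/-- The value at a point, as a constant function. -/
lemma at0 {t : ℕ} (ht : 3 ≤ t) (hs : 3 ≤ s) (hF : Est K z0 s n F F0) :
    Est K z0 t n (fun η ε z _ => F η ε z 0) (fun _ => F0 0) := by
  obtain ⟨C, hC⟩ := K.F.eval K.R0 K.hR0 s hs
  refine linear (fun f _ => f 0) |C| (abs_nonneg C) (fun P hP f M hf => ?_)
    (fun _ _ _ _ _ _ _ _ _ => rfl) hF
  refine (K.F.rb_const P ht _).mono ?_
  have := ((hC P (K.adm_R0 P hP)).2 _ _ hf).2 0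
  simp only [cx, Complex.norm_real, Real.norm_eq_abs] at this
  exact this.trans (mul_le_mul_of_nonneg_right (le_abs_self C) hf.nonneg)

/-- The approximate inverse. -/
lemma spot {G : Fin 2 → ℝ → ℝ → St → E2 → ℝ} {G0 : Fin 2 → E2 → ℝ}
    (hG : ∀ i, Est K z0 4 n (G i) (G0 i)) :
    Est K z0 5 n (fun η ε z => Spot K.A K.t fun i => G i η ε z) (Spot K.A K.t G0) := by
  have hθ' : 0 < 1 - K.θ := sub_pos.2 K.hθ1
  set c := 4 * (|K.t| * 2) / (1 - K.θ) with hc
  have sb : ∀ P, K.Adm P → ∀ (b : Fin 2 → E2 → ℝ) (B : ℝ), (∀ i, RB P 4 (b i) B) →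
      RB P 5 (Spot K.A K.t b) (c * B) := fun P hP b B hb =>
    ((K.F.spot_fc K.hθ K.hθ1 (K.adm_mul P hP) (R2.of hb)).1).mono (le_of_eq (by rw [hc]; ring))
  have sl : ∀ P, K.Adm P → ∀ (b b' : Fin 2 → E2 → ℝ) (B B' : ℝ), (∀ i, RB P 4 (b i) B) →
      (∀ i, RB P 4 (b' i) B') → ∀ x,
      Spot K.A K.t (fun i y => b i y - b' i y) x = Spot K.A K.t b x - Spot K.A K.t b' x := by
    intro P hP b b' B B' hb hb' x
    have h := congrFun (K.F.spot_add K.hθ K.hθ1 (K.adm_mul P hP)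
      (R2.of fun i => (hb i).sub (hb' i)) (R2.of hb')) x
    simp only [sub_add_cancel] at h
    linarith
  obtain ⟨⟨M0, hM0⟩, C0, hC0, h0⟩ := hG 0
  obtain ⟨⟨M1, hM1⟩, C1, hC1, h1⟩ := hG 1
  have hM : ∀ P, K.Adm P → ∀ i, RB P 4 (G0 i) (max M0 M1) := fun P hP i => by
    fin_cases i
    exacts [(hM0 P hP).mono (le_max_left _ _), (hM1 P hP).mono (le_max_right _ _)]
  refine ⟨⟨c * max M0 M1, fun P hP => sb P hP _ _ (hM P hP)⟩, c * (C0 + C1), by positivity,
    fun P hP η ε δ z a b hδ e => ?_⟩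
  have hδ0 : 0 ≤ δ := (abs_nonneg η).trans a
  have key : ∀ η ε, |η| ≤ δ → |ε| ≤ δ → ∀ z, Close P z z0 (fun _ => δ) →
      ∀ i, RB P 4 (fun x => G i η ε z x - G0 i x) ((C0 + C1) * δ) := fun η ε a b z e i => by
    fin_cases i
    · exact (h0 P hP η ε δ z a b hδ e).1.mono (mul_le_mul_of_nonneg_right (by linarith) hδ0)
    · exact (h1 P hP η ε δ z a b hδ e).1.mono (mul_le_mul_of_nonneg_right (by linarith) hδ0)
  have full : ∀ η ε, |η| ≤ δ → |ε| ≤ δ → ∀ z, Close P z z0 (fun _ => δ) →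
      ∀ i, RB P 4 (G i η ε z) ((C0 + C1) * δ + max M0 M1) := fun η ε a b z e i =>
    ((key η ε a b z e i).add (hM P hP i)).congr fun x => sub_add_cancel _ _
  refine ⟨((sb P hP _ _ (key η ε a b z e)).mono (le_of_eq (by ring))).congr
    (sl P hP _ _ _ _ (full η ε a b z e) (hM P hP)), fun z' η' ε' d a' bε e' hd hc' => ?_⟩
  have hl : 0 ≤ low n d + δ * tot d + (|η - η'| + |ε - ε'|) := add_nonneg (add_nonneg (low_nonneg hd) (mul_nonneg hδ0 (tot_nonneg hd))) (add_nonneg (abs_nonneg _) (abs_nonneg _))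
  have k2 : ∀ i, RB P 4 (fun x => G i η ε z x - G i η' ε' z' x)
      ((C0 + C1) * (low n d + δ * tot d + (|η - η'| + |ε - ε'|))) := fun i => by
    fin_cases i
    · exact ((h0 P hP η ε δ z a b hδ e).2 z' η' ε' d a' bε e' hd hc').mono
        (mul_le_mul_of_nonneg_right (by linarith) hl)
    · exact ((h1 P hP η ε δ z a b hδ e).2 z' η' ε' d a' bε e' hd hc').mono
        (mul_le_mul_of_nonneg_right (by linarith) hl)
  exact ((sb P hP _ _ k2).mono (le_of_eq (by ring))).congr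
    (sl P hP _ _ _ _ (full η ε a b z e) (full η' ε' a' bε z' e'))

end Est

end Vale.Agent.P205
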