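import Vale.Agent.P205.CoreLip

/-!
# P205, core: the simplified Newton map
-/

namespace Vale.Agent.P205

open Real
open scoped ContDiff

/-- The data of the construction. -/
structure Dat where
  g : Metric
  I : Iso g
  C : E2 → ℝ
  p : ℤ
  q : ℤ
  smooth_C : ContDiff ℝ ∞ C
  per_C : Per C
  abs_C : ∀ x, |C x| ≤ 1
  q_pos : 0 < q

namespace Dat

variable (D : Dat)

noncomputable def du (i : Fin 2) : E2 → ℝ := pd i D.I.u
noncomputable def v0 (i : Fin 2) (x : E2) : ℝ :=
  (if i = 0 then D.g.c x else -D.g.b x) * D.du 0 x + (if i = 0 then -D.g.b x else D.g.a x) * D.du 1 x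
noncomputable def N0 (x : E2) : ℝ := D.du 0 x * D.v0 0 x + D.du 1 x * D.v0 1 x
noncomputable def m0 (x : E2) : ℝ := 1 / Real.sqrt (D.g.det x)
noncomputable def iq0 (x : E2) : ℝ := 1 / D.N0 x
noncomputable def rho0 (x : E2) : ℝ := Real.sqrt (D.g.det x / D.N0 x)
noncomputable def ir0 (x : E2) : ℝ := 1 / D.rho0 x
noncomputable def z0 : St :=
  ⟨fun _ => 1, D.m0, fun _ => 0, D.I.τ2 / D.q, D.iq0, D.rho0, D.ir0⟩
noncomputable def c0 : ℝ := 2 * D.rho0 0 ^ 2 * D.N0 0

noncomputable def al (z : St) (i : Fin 2) (x : E2) : ℝ := D.du i x + Dop i z.bet x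
noncomputable def dal (z : St) (i k : Fin 2) (x : E2) : ℝ :=
  pd i (D.du k) x + Dop i (Dop k z.bet) x
noncomputable def nu (η : ℝ) (x : E2) : ℝ := 1 + η * D.C x
noncomputable def dnu (η : ℝ) (i : Fin 2) (x : E2) : ℝ := η * pd i D.C x
noncomputable def ddnu (η : ℝ) (i k : Fin 2) (x : E2) : ℝ := η * pd i (pd k D.C) x
noncomputable def sig (η : ℝ) (z : St) (i : Fin 2) (x : E2) : ℝ :=
  D.dnu η i x * z.rho x + D.nu η x * Dop i z.rho x
noncomputable def h (η ε : ℝ) (z : St) (i k : Fin 2) (x : E2) : ℝ :=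
  D.g.comp i k x
    - ε * (Dop i z.rho x * Dop k z.rho x + z.kap ^ 2 * (D.sig η z i x * D.sig η z k x))
noncomputable def adjh (η ε : ℝ) (z : St) (p k : Fin 2) (x : E2) : ℝ :=
  if p = k then D.h η ε z (1 - p) (1 - k) x else -D.h η ε z p k x
noncomputable def detH (η ε : ℝ) (z : St) (x : E2) : ℝ :=
  D.h η ε z 0 0 x * D.h η ε z 1 1 x - D.h η ε z 0 1 x ^ 2
noncomputable def vv (η ε : ℝ) (z : St) (p : Fin 2) (x : E2) : ℝ :=
  D.adjh η ε z p 0 x * D.al z 0 x + D.adjh η ε z p 1 x * D.al z 1 x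
noncomputable def flux (η ε : ℝ) (z : St) (i : Fin 2) (x : E2) : ℝ :=
  z.iv x * (z.m x * D.vv η ε z i x)
noncomputable def nn (η ε : ℝ) (z : St) (x : E2) : ℝ :=
  D.al z 0 x * D.vv η ε z 0 x + D.al z 1 x * D.vv η ε z 1 x
noncomputable def fq (η ε : ℝ) (z : St) (x : E2) : ℝ :=
  z.iv x * (z.iq x * (D.dnu η 0 x * D.vv η ε z 0 x + D.dnu η 1 x * D.vv η ε z 1 x))
noncomputable def irt (z : St) (x : E2) : ℝ := z.ir x * (2 - z.rho x * z.ir x)
noncomputable def vec (η ε : ℝ) (z : St) (i : Fin 2) (x : E2) : ℝ :=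
  z.m x * ((D.adjh η ε z i 0 x * Dop 0 z.rho x + D.adjh η ε z i 1 x * Dop 1 z.rho x) * irt z x
    + D.fq η ε z x * D.vv η ε z i x)
noncomputable def gG (p i k : Fin 2) (x : E2) : ℝ :=
  (pd i (D.g.comp p k) x + pd k (D.g.comp p i) x - pd p (D.g.comp i k) x) / 2
noncomputable def ee (z : St) (k : Fin 2) (x : E2) : ℝ :=
  if k = 0 then -(z.iq x * (z.m x * D.al z 1 x)) else z.iq x * (z.m x * D.al z 0 x)
noncomputable def vs (η ε : ℝ) (z : St) (x : E2) : ℝ :=
  D.vv η ε z 0 x * D.sig η z 0 x + D.vv η ε z 1 x * D.sig η z 1 x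
noncomputable def bb (η ε : ℝ) (z : St) (x : E2) : ℝ :=
  D.vv η ε z 0 x * Dop 0 z.rho x + D.vv η ε z 1 x * Dop 1 z.rho x
    + z.kap ^ 2 * (D.nu η x * D.vs η ε z x)
noncomputable def ww (η ε : ℝ) (z : St) (i k : Fin 2) (x : E2) : ℝ :=
  D.vv η ε z 0 x * D.gG 0 i k x + D.vv η ε z 1 x * D.gG 1 i k x
    - ε * (z.kap ^ 2 * (D.vs η ε z x * (D.dnu η i x * Dop k z.rho x + D.dnu η k x * Dop i z.rho x
        + D.ddnu η i k x * z.rho x)))
noncomputable def pA (η ε : ℝ) (z : St) (k : Fin 2) (x : E2) : ℝ :=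
  D.ee z k x * D.detH η ε z x
noncomputable def pB (η ε : ℝ) (z : St) (k : Fin 2) (x : E2) : ℝ :=
  ε * (D.ee z k x * D.bb η ε z x)
noncomputable def rr (η ε : ℝ) (z : St) (i : Fin 2) (x : E2) : ℝ :=
  D.ee z 0 x * D.ww η ε z i 0 x + D.ee z 1 x * D.ww η ε z i 1 x
noncomputable def srcPart (η ε : ℝ) (z : St) (k : Fin 2) (x : E2) : ℝ :=
  Dop 0 (D.pA η ε z k) x * D.dal z 1 k x - Dop 1 (D.pA η ε z k) x * D.dal z 0 k x
    + (Dop 0 (D.pB η ε z k) x * Dop 1 (Dop k z.rho) x
      - Dop 1 (D.pB η ε z k) x * Dop 0 (Dop k z.rho) x)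
noncomputable def src (η ε : ℝ) (z : St) (x : E2) : ℝ :=
  D.srcPart η ε z 0 x + D.srcPart η ε z 1 x
    - (Dop 0 (D.rr η ε z 1) x - Dop 1 (D.rr η ε z 0) x)
noncomputable def bL (η ε : ℝ) (z : St) (i : Fin 2) (x : E2) : ℝ :=
  D.vec η ε z i x - Ginv (D.src η ε z) i x
noncomputable def pin (η ε : ℝ) (z : St) : ℝ :=
  z.rho 0 * z.rho 0 * D.nn η ε z 0 - D.detH η ε z 0
noncomputable def potB (t : ℝ) (η ε : ℝ) (z : St) : E2 → ℝ :=
  Spot D.g.cond t fun i => D.flux η ε z i
noncomputable def potL (t : ℝ) (η ε : ℝ) (z : St) : E2 → ℝ :=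
  Spot D.g.cond t fun i => D.bL η ε z i

/-- The simplified Newton map. -/
noncomputable def T (t : ℝ) (η ε : ℝ) (z : St) : St where
  iv x := 1 - η * (D.C x * z.iv x)
  m x := z.m x + D.m0 x / 2 * (1 - D.detH η ε z x * (z.m x * z.m x))
  bet x := z.bet x - (fc (cx z.bet) 0).re - D.potB t η ε z x
  kap := (fc (cx (D.flux η ε z 0)) 0).re / D.q
  iq x := z.iq x + D.iq0 x * (1 - D.nn η ε z x * z.iq x)
  rho x := z.rho x
    - D.rho0 x * (D.potL t η ε z x - D.potL t η ε z 0 + D.pin η ε z / D.c0)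
  ir x := z.ir x + D.ir0 x * (1 - z.rho x * z.ir x)

end Dat

/-- The fixed functions of the construction are in the spaces. -/
structure Good (K : Ctx) (D : Dat) : Prop where
  hA : K.A = D.g.cond
  comp : ∀ i k, Fix K 5 (D.g.comp i k)
  dcomp : ∀ l i k, Fix K 5 (pd l (D.g.comp i k))
  cond : ∀ i k, Fix K 5 (D.g.cond i k)
  du : ∀ i, Fix K 5 (D.du i)
  ddu : ∀ i k, Fix K 5 (pd i (D.du k))
  hC : Fix K 5 D.C
  dC : ∀ i, Fix K 5 (pd i D.C)
  ddC : ∀ i k, Fix K 5 (pd i (pd k D.C))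
  hm : Fix K 5 D.m0
  hiq : Fix K 5 D.iq0
  hrho : Fix K 5 D.rho0
  hir : Fix K 5 D.ir0

section estimates
variable {K : Ctx} {D : Dat} (hG : Good K D)

lemma Fix.weaken {s t : ℕ} {f : E2 → ℝ} (h : Fix K s f) (hts : t ≤ s) : Fix K t f :=
  h.imp fun _ hM P hP => (hM P hP).weaken hts

lemma fix_const {s : ℕ} (hs : 3 ≤ s) (c : ℝ) : Fix K s (fun _ => c) :=
  ⟨|c|, fun P _ => K.F.rb_const P hs c⟩

lemma est_iv {n : ℕ} (hn : 0 < n) : Est K D.z0 4 n (fun _ _ z => z.iv) (fun _ => 1) :=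
  Est.coord4 (f := fun z => z.iv) (i := 0) (fix_const (by norm_num) 1)
    (fun _ _ _ _ h => h.1) hn

include hG in
lemma est_m {n : ℕ} (hn : 1 < n) : Est K D.z0 4 n (fun _ _ z => z.m) D.m0 :=
  Est.coord4 (f := fun z => z.m) (i := 1) (hG.hm.weaken (by norm_num))
    (fun _ _ _ _ h => h.2.1) hn

lemma est_bet {n : ℕ} (hn : 2 < n) : Est K D.z0 5 n (fun _ _ z => z.bet) (fun _ => 0) :=
  Est.coord5 (f := fun z => z.bet) (i := 2) (fix_const (by norm_num) 0)
    (fun _ _ _ _ h => h.2.2.1) hn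

include hG in
lemma est_iq {n : ℕ} (hn : 4 < n) : Est K D.z0 4 n (fun _ _ z => z.iq) D.iq0 :=
  Est.coord4 (f := fun z => z.iq) (i := 4) (hG.hiq.weaken (by norm_num))
    (fun _ _ _ _ h => h.2.2.2.2.1) hn

include hG in
lemma est_rho {n : ℕ} (hn : 5 < n) : Est K D.z0 5 n (fun _ _ z => z.rho) D.rho0 :=
  Est.coord5 (f := fun z => z.rho) (i := 5) hG.hrho (fun _ _ _ _ h => h.2.2.2.2.2.1) hn

include hG in
lemma est_ir {n : ℕ} (hn : 6 < n) : Est K D.z0 4 n (fun _ _ z => z.ir) D.ir0 :=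
  Est.coord4 (f := fun z => z.ir) (i := 6) (hG.hir.weaken (by norm_num))
    (fun _ _ _ _ h => h.2.2.2.2.2.2) hn

lemma dop_zero (K : Ctx) (i : Fin 2) : Dop i (fun _ => (0 : ℝ)) = fun _ => 0 := by
  funext x; simp [Dop, mult, cx, fc, ev]

include hG in
lemma est_al (i : Fin 2) : Est K D.z0 4 3 (fun _ _ z => D.al z i) (D.du i) :=
  (((Est.ofFix ((hG.du i).weaken (by norm_num))).mono (by norm_num)).add
    ((est_bet (by norm_num)).dop (by norm_num) i)).congr (fun _ _ _ _ => rfl)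
    fun x => by simp [dop_zero K]

include hG in
lemma est_dal (i k : Fin 2) : Est K D.z0 3 3 (fun _ _ z => D.dal z i k) (pd i (D.du k)) :=
  (((Est.ofFix ((hG.ddu i k).weaken (by norm_num))).mono (by norm_num)).add
    (((est_bet (by norm_num)).dop (by norm_num : 3 ≤ 4) k).dop le_rfl i)).congr
    (fun _ _ _ _ => rfl) fun x => by simp [dop_zero K]

include hG in
lemma est_nu : Est K D.z0 4 0 (fun η _ _ => D.nu η) (fun _ => 1) :=
  ((Est.ofFix (fix_const (by norm_num) 1)).add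
    ((Est.ofFix (hG.hC.weaken (by norm_num))).eta (by norm_num))).congr (fun _ _ _ _ => rfl)
    fun _ => by simp

include hG in
lemma est_dnu (i : Fin 2) : Est K D.z0 4 0 (fun η _ _ => D.dnu η i) (fun _ => 0) :=
  (Est.ofFix ((hG.dC i).weaken (by norm_num))).eta (by norm_num)

include hG in
lemma est_ddnu (i k : Fin 2) : Est K D.z0 4 0 (fun η _ _ => D.ddnu η i k) (fun _ => 0) :=
  (Est.ofFix ((hG.ddC i k).weaken (by norm_num))).eta (by norm_num)

include hG in
lemma est_drho (i : Fin 2) : Est K D.z0 4 6 (fun _ _ z => Dop i z.rho) (Dop i D.rho0) :=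
  (est_rho hG (by norm_num)).dop (by norm_num) i

include hG in
lemma est_sig (i : Fin 2) : Est K D.z0 4 6 (fun η _ z => D.sig η z i) (Dop i D.rho0) :=
  ((((est_dnu hG i).mono (by norm_num)).mul (by norm_num)
    ((est_rho hG (by norm_num)).weaken (by norm_num))).add
    (((est_nu hG).mono (by norm_num)).mul (by norm_num) (est_drho hG i))).congr
    (fun _ _ _ _ => rfl) fun x => by simp

include hG in
lemma est_h (i k : Fin 2) : Est K D.z0 4 0 (fun η ε z => D.h η ε z i k) (D.g.comp i k) := by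
  have h6 : Est K D.z0 4 6 (fun _ _ z _ => z.kap) (fun _ => D.z0.kap) :=
    Est.kap (by norm_num) (by norm_num)
  refine (((Est.ofFix ((hG.comp i k).weaken (by norm_num)))).sub
    ((((est_drho hG i).mul (by norm_num) (est_drho hG k)).add
      ((h6.mul (by norm_num) h6).mul (by norm_num)
        ((est_sig hG i).mul (by norm_num) (est_sig hG k)))).eps (by norm_num))).congr
    (fun η ε z x => ?_) fun x => by simp
  simp only [Dat.h, sq]

/-- The adjugate of the metric. -/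
def adjg (g : Metric) (p k : Fin 2) (x : E2) : ℝ :=
  if p = k then g.comp (1 - p) (1 - k) x else -g.comp p k x

include hG in
lemma est_adjh (p k : Fin 2) : Est K D.z0 4 0 (fun η ε z => D.adjh η ε z p k) (adjg D.g p k) := by
  by_cases hpk : p = k
  · exact (est_h hG (1 - p) (1 - k)).congr (fun η ε z x => by simp [Dat.adjh, hpk])
      fun x => by simp [adjg, hpk]
  · exact (est_h hG p k).neg.congr (fun η ε z x => by simp [Dat.adjh, hpk])
      fun x => by simp [adjg, hpk]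

include hG in
lemma est_det : Est K D.z0 4 0 (fun η ε z => D.detH η ε z) D.g.det :=
  (((est_h hG 0 0).mul (by norm_num) (est_h hG 1 1)).sub
    ((est_h hG 0 1).mul (by norm_num) (est_h hG 0 1))).congr
    (fun η ε z x => by simp only [Dat.detH, sq]) fun x => by simp [Metric.det, Metric.comp, sq]

include hG in
lemma est_vv (p : Fin 2) : Est K D.z0 4 3 (fun η ε z => D.vv η ε z p) (D.v0 p) :=
  ((((est_adjh hG p 0).mono (by norm_num)).mul (by norm_num) (est_al hG 0)).add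
    (((est_adjh hG p 1).mono (by norm_num)).mul (by norm_num) (est_al hG 1))).congr
    (fun _ _ _ _ => rfl) fun x => by
      fin_cases p <;> simp [Dat.v0, adjg, Metric.comp]

include hG in
lemma est_flux (i : Fin 2) :
    Est K D.z0 4 3 (fun η ε z => D.flux η ε z i) (fun x => 1 * (D.m0 x * D.v0 i x)) :=
  ((est_iv (by norm_num)).mul (by norm_num)
    ((est_m hG (by norm_num)).mul (by norm_num) (est_vv hG i))).congr (fun _ _ _ _ => rfl)
    fun _ => rfl

include hG in
lemma est_nn : Est K D.z0 4 3 (fun η ε z => D.nn η ε z) D.N0 :=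
  (((est_al hG 0).mul (by norm_num) (est_vv hG 0)).add
    ((est_al hG 1).mul (by norm_num) (est_vv hG 1))).congr (fun _ _ _ _ => rfl) fun _ => rfl

include hG in
lemma est_fq : Est K D.z0 4 5 (fun η ε z => D.fq η ε z) (fun _ => 0) :=
  ((est_iv (by norm_num)).mul (by norm_num) ((est_iq hG (by norm_num)).mul (by norm_num)
    ((((est_dnu hG 0).mono (by norm_num)).mul (by norm_num) ((est_vv hG 0).mono (by norm_num))).add
      (((est_dnu hG 1).mono (by norm_num)).mul (by norm_num)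
        ((est_vv hG 1).mono (by norm_num)))))).congr (fun _ _ _ _ => rfl) fun _ => by simp

include hG in
lemma est_ee (k : Fin 2) : Est K D.z0 4 5 (fun _ _ z => D.ee z k)
    (fun x => if k = 0 then -(D.iq0 x * (D.m0 x * D.du 1 x))
      else D.iq0 x * (D.m0 x * D.du 0 x)) := by
  have h : ∀ j : Fin 2, Est K D.z0 4 5 (fun _ _ z x => z.iq x * (z.m x * D.al z j x))
      (fun x => D.iq0 x * (D.m0 x * D.du j x)) := fun j =>
    (est_iq hG (by norm_num)).mul (by norm_num)
      ((est_m hG (by norm_num)).mul (by norm_num) ((est_al hG j).mono (by norm_num)))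
  by_cases hk : k = 0
  · exact (h 1).neg.congr (fun η ε z x => by simp [Dat.ee, hk]) fun x => by simp [hk]
  · exact (h 0).congr (fun η ε z x => by simp [Dat.ee, hk]) fun x => by simp [hk]

include hG in
lemma est_ww (i k : Fin 2) : Est K D.z0 4 3 (fun η ε z => D.ww η ε z i k)
    (fun x => D.v0 0 x * D.gG 0 i k x + D.v0 1 x * D.gG 1 i k x) := by
  have hgG : ∀ p, Est K D.z0 4 3 (fun _ _ _ => D.gG p i k) (D.gG p i k) := fun p =>
    (((((Est.ofFix ((hG.dcomp i p k).weaken (by norm_num))).add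
      (Est.ofFix ((hG.dcomp k p i).weaken (by norm_num)))).sub
      (Est.ofFix ((hG.dcomp p i k).weaken (by norm_num)))).smul (1 / 2)).congr
      (fun η ε z x => by simp [Dat.gG]; ring) (fun x => by simp [Dat.gG]; ring)).mono (by norm_num)
  have h6 : Est K D.z0 4 6 (fun _ _ z _ => z.kap) (fun _ => D.z0.kap) :=
    Est.kap (by norm_num) (by norm_num)
  have hvs : Est K D.z0 4 6 (fun η ε z => D.vs η ε z)
      (fun x => D.v0 0 x * Dop 0 D.rho0 x + D.v0 1 x * Dop 1 D.rho0 x) :=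
    ((((est_vv hG 0).mono (by norm_num)).mul (by norm_num) (est_sig hG 0)).add
      (((est_vv hG 1).mono (by norm_num)).mul (by norm_num) (est_sig hG 1))).congr
      (fun _ _ _ _ => rfl) fun _ => rfl
  refine ((((est_vv hG 0).mul (by norm_num) (hgG 0)).add
    ((est_vv hG 1).mul (by norm_num) (hgG 1))).sub
    ((((h6.mul (by norm_num) h6).mul (by norm_num) (hvs.mul (by norm_num)
      ((((est_dnu hG i).mono (by norm_num)).mul (by norm_num) (est_drho hG k)).add
        (((est_dnu hG k).mono (by norm_num)).mul (by norm_num) (est_drho hG i)) |>.add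
        (((est_ddnu hG i k).mono (by norm_num)).mul (by norm_num)
          ((est_rho hG (by norm_num)).weaken (by norm_num)))))).eps (by norm_num)).mono
      (by norm_num))).congr (fun η ε z x => ?_) fun x => by simp
  simp only [Dat.ww, sq]

include hG in
lemma est_pB (k : Fin 2) : Est K D.z0 4 0 (fun η ε z => D.pB η ε z k) (fun _ => 0) := by
  have h6 : Est K D.z0 4 6 (fun _ _ z _ => z.kap) (fun _ => D.z0.kap) :=
    Est.kap (by norm_num) (by norm_num)
  have hb := ((((est_vv hG 0).mono (by norm_num : 3 ≤ 6)).mul (by norm_num) (est_drho hG 0)).add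
    (((est_vv hG 1).mono (by norm_num : 3 ≤ 6)).mul (by norm_num) (est_drho hG 1))).add
    ((h6.mul (by norm_num) h6).mul (by norm_num) (((est_nu hG).mono (by norm_num : 0 ≤ 6)).mul
      (by norm_num)
      ((((est_vv hG 0).mono (by norm_num)).mul (by norm_num) (est_sig hG 0)).add
        (((est_vv hG 1).mono (by norm_num)).mul (by norm_num) (est_sig hG 1)))))
  refine ((((est_ee hG k).mono (by norm_num)).mul (by norm_num) hb).eps (by norm_num)).congr
    (fun η ε z x => ?_) fun _ => rfl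
  simp only [Dat.pB, Dat.bb, Dat.vs, sq]

/-- The source at the base point. -/
noncomputable def src0 (D : Dat) (x : E2) : ℝ := D.src 0 0 D.z0 x

include hG in
lemma est_src : ∃ F0, Est K D.z0 3 5 (fun η ε z => D.src η ε z) F0 := by
  have hpA : ∀ k, ∃ G0, Est K D.z0 4 5 (fun η ε z => D.pA η ε z k) G0 := fun k =>
    ⟨_, ((est_ee hG k).mul (by norm_num) ((est_det hG).mono (by norm_num))).congr
      (fun _ _ _ _ => rfl) fun _ => rfl⟩
  have hrr : ∀ i, ∃ G0, Est K D.z0 4 5 (fun η ε z => D.rr η ε z i) G0 := fun i =>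
    ⟨_, (((est_ee hG 0).mul (by norm_num) ((est_ww hG i 0).mono (by norm_num))).add
      ((est_ee hG 1).mul (by norm_num) ((est_ww hG i 1).mono (by norm_num)))).congr
      (fun _ _ _ _ => rfl) fun _ => rfl⟩
  have hp : ∀ k, ∃ G0, Est K D.z0 3 5 (fun η ε z => D.srcPart η ε z k) G0 := fun k => by
    obtain ⟨A0, hA⟩ := hpA k
    refine ⟨_, ((((hA.dop le_rfl 0).mul le_rfl ((est_dal hG 1 k).mono (by norm_num))).sub
      ((hA.dop le_rfl 1).mul le_rfl ((est_dal hG 0 k).mono (by norm_num)))).add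
      (?_ : Est K D.z0 3 5 (fun η ε z x => Dop 0 (D.pB η ε z k) x * Dop 1 (Dop k z.rho) x
        - Dop 1 (D.pB η ε z k) x * Dop 0 (Dop k z.rho) x) (fun _ => 0))).congr
      (fun _ _ _ _ => rfl) fun _ => rfl⟩
    have hd := fun i => ((est_drho hG k).dop le_rfl i)
    have e : (fun η ε z => D.pB η ε z k)
        = fun (η ε : ℝ) z x => ε * (D.ee z k x * D.bb η ε z x) := rfl
    obtain ⟨⟨M, hM⟩, -⟩ := est_pB hG k
    have h6 : Est K D.z0 4 6 (fun _ _ z _ => z.kap) (fun _ => D.z0.kap) :=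
      Est.kap (by norm_num) (by norm_num)
    have hb := ((((est_vv hG 0).mono (by norm_num : 3 ≤ 6)).mul (by norm_num) (est_drho hG 0)).add
      (((est_vv hG 1).mono (by norm_num : 3 ≤ 6)).mul (by norm_num) (est_drho hG 1))).add
      ((h6.mul (by norm_num) h6).mul (by norm_num) (((est_nu hG).mono (by norm_num : 0 ≤ 6)).mul
        (by norm_num)
        ((((est_vv hG 0).mono (by norm_num)).mul (by norm_num) (est_sig hG 0)).add
          (((est_vv hG 1).mono (by norm_num)).mul (by norm_num) (est_sig hG 1)))))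
    have hE := ((est_ee hG k).mono (by norm_num : 5 ≤ 6)).mul (by norm_num) hb
    refine (((((hE.dop le_rfl 0).mul le_rfl (hd 1)).sub
      ((hE.dop le_rfl 1).mul le_rfl (hd 0))).eps le_rfl).mono (by norm_num : 0 ≤ 5)).congr
      (fun η ε z x => ?_) fun _ => rfl
    have hscale : ∀ i : Fin 2, Dop i (D.pB η ε z k)
        = fun x => ε * Dop i (fun y => D.ee z k y * D.bb η ε z y) x := by
      intro i; funext x
      simp only [Dop, mult, ev]
      have : fc (cx (D.pB η ε z k)) = fun n => (ε : ℂ) * fc (cx fun y => D.ee z k y * D.bb η ε z y) n :=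
        funext fun n => fc_cx_smul _ _ _
      simp only [this, mul_left_comm _ (ε : ℂ), mul_assoc, tsum_mul_left, Complex.re_ofReal_mul]
    simp only [hscale, Dat.bb, Dat.vs, sq]
    ring
  obtain ⟨S0, h0⟩ := hp 0
  obtain ⟨S1, h1⟩ := hp 1
  obtain ⟨R0, hR0⟩ := hrr 0
  obtain ⟨R1, hR1⟩ := hrr 1
  exact ⟨_, ((h0.add h1).sub ((hR1.dop le_rfl 0).sub (hR0.dop le_rfl 1))).congr
    (fun _ _ _ _ => rfl) fun _ => rfl⟩

end estimates

end Vale.Agent.P205
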