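import Vale.Agent.P205.Interfaces

/-!
# P205, core: real functions in the weighted spaces and the linear operations on them
-/

namespace Vale.Agent.P205

open Real
open scoped ContDiff ComplexConjugate

/-- What the core uses about the weighted spaces. -/
structure Facts : Prop where
  eval : EvalStmt
  alg : AlgStmt
  multB : MultStmt
  deriv : DerivStmt
  smoothMem : SmoothMemStmt
  smoothOut : SmoothOutStmt
  mulOp : MulOpStmt
  compl : ComplStmt

/-- A real function as a complex one. -/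
def cx (f : E2 → ℝ) : E2 → ℂ := fun x => (f x : ℂ)

/-- A real function in the weighted space. -/
def RB (P : Par) (s : ℕ) (f : E2 → ℝ) (M : ℝ) : Prop := Nb P s (cx f) M

/-- Real derivative operator. -/
noncomputable def Dop (i : Fin 2) (f : E2 → ℝ) : E2 → ℝ := fun x => (mult (dsym i) (cx f) x).re

lemma one_le_wt_factor (P : Par) (n : ℤ × ℤ) :
    1 ≤ 1 + len n / P.R0 ∧ 1 ≤ 1 + len n / P.R := by
  have h0 : 0 ≤ len n := by unfold len; positivity
  have h1 := P.one_le_R0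
  have h2 := P.R0_le
  constructor <;> linarith [div_nonneg h0 (by linarith : (0 : ℝ) ≤ P.R0),
    div_nonneg h0 (by linarith : (0 : ℝ) ≤ P.R)]

lemma wt_pos' (P : Par) (s : ℕ) (n : ℤ × ℤ) : 0 < wt P s n := by
  obtain ⟨h1, h2⟩ := one_le_wt_factor P n
  unfold wt; positivity

lemma wt_monoC (P : Par) {s t : ℕ} (h : t ≤ s) (n : ℤ × ℤ) : wt P t n ≤ wt P s n := by
  obtain ⟨h1, h2⟩ := one_le_wt_factor P n
  exact mul_le_mul_of_nonneg_right (pow_le_pow_right₀ h1 h) (by positivity)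

lemma len_negC (n : ℤ × ℤ) : len (-n) = len n := by simp [len]

lemma Bd.monoC {P : Par} {s : ℕ} {c : Co} {M N : ℝ} (h : Bd P s c M) (hMN : M ≤ N) : Bd P s c N :=
  ⟨h.1.trans hMN, fun S => (h.2 S).trans (pow_le_pow_left₀ h.1 hMN 2)⟩

lemma Bd.weaken {P : Par} {s t : ℕ} {c : Co} {M : ℝ} (h : Bd P s c M) (hts : t ≤ s) :
    Bd P t c M :=
  ⟨h.1, fun S => (Finset.sum_le_sum fun n _ => pow_le_pow_left₀
    (mul_nonneg (wt_pos' P t n).le (norm_nonneg _))
    (mul_le_mul_of_nonneg_right (wt_monoC P hts n) (norm_nonneg _)) 2).trans (h.2 S)⟩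

lemma Bd.add' {P : Par} {s : ℕ} {a b c : Co} {M N : ℝ} (ha : Bd P s a M) (hb : Bd P s b N)
    (hc : ∀ n, ‖c n‖ ≤ ‖a n‖ + ‖b n‖) : Bd P s c (M + N) := by
  refine ⟨add_nonneg ha.1 hb.1, fun S => ?_⟩
  have h1 := ha.2 S
  have h2 := hb.2 S
  have hcs := Finset.sum_mul_sq_le_sq_mul_sq S (fun n => wt P s n * ‖a n‖) fun n => wt P s n * ‖b n‖
  have hab : ∑ n ∈ S, (wt P s n * ‖a n‖) * (wt P s n * ‖b n‖) ≤ M * N := by
    refine abs_le_of_sq_le_sq' (hcs.trans ?_) (mul_nonneg ha.1 hb.1) |>.2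
    rw [mul_pow]
    exact mul_le_mul h1 h2 (Finset.sum_nonneg fun n _ => sq_nonneg _) (sq_nonneg _)
  calc ∑ n ∈ S, (wt P s n * ‖c n‖) ^ 2
      ≤ ∑ n ∈ S, (wt P s n * ‖a n‖ + wt P s n * ‖b n‖) ^ 2 := Finset.sum_le_sum fun n _ => by
        rw [← mul_add]
        exact pow_le_pow_left₀ (mul_nonneg (wt_pos' P s n).le (norm_nonneg _))
          (mul_le_mul_of_nonneg_left (hc n) (wt_pos' P s n).le) 2
    _ = ∑ n ∈ S, (wt P s n * ‖a n‖) ^ 2 + 2 * ∑ n ∈ S, (wt P s n * ‖a n‖) * (wt P s n * ‖b n‖)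
        + ∑ n ∈ S, (wt P s n * ‖b n‖) ^ 2 := by
        rw [Finset.mul_sum, ← Finset.sum_add_distrib, ← Finset.sum_add_distrib]
        exact Finset.sum_congr rfl fun n _ => by ring
    _ ≤ (M + N) ^ 2 := by nlinarith

lemma cont_inner {f : E2 → ℂ} (hf : Continuous f) (n : ℤ × ℤ) :
    Continuous fun x : ℝ => ∫ y in (0 : ℝ)..1, chr (-n) (x, y) * f (x, y) :=
  intervalIntegral.continuous_parametric_intervalIntegral_of_continuous'
    (by unfold Function.uncurry chr; fun_prop) 0 1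

lemma fcC_add {f h : E2 → ℂ} (hf : Continuous f) (hh : Continuous h) (n : ℤ × ℤ) :
    fc (fun x => f x + h x) n = fc f n + fc h n := by
  unfold fc
  rw [← intervalIntegral.integral_add ((cont_inner hf n).intervalIntegrable _ _)
    ((cont_inner hh n).intervalIntegrable _ _)]
  refine intervalIntegral.integral_congr fun x _ => ?_
  simp only [mul_add]
  exact intervalIntegral.integral_add
    ((Continuous.intervalIntegrable (by unfold chr; fun_prop)) _ _)
    ((Continuous.intervalIntegrable (by unfold chr; fun_prop)) _ _)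

lemma fc_smul (f : E2 → ℂ) (a : ℂ) (n : ℤ × ℤ) : fc (fun x => a * f x) n = a * fc f n := by
  unfold fc
  simp [mul_left_comm _ a, intervalIntegral.integral_const_mul]

lemma conj_chrC (n : ℤ × ℤ) (x : E2) : conj (chr n x) = chr (-n) x := by
  unfold chr
  rw [← Complex.exp_conj]
  congr 1
  simp [Complex.conj_ofNat]
  ring

lemma fc_conj (f : E2 → ℂ) (n : ℤ × ℤ) : fc (fun x => conj (f x)) n = conj (fc f (-n)) := by
  unfold fc
  simp only [← Complex.conjLIE_apply, ← LinearIsometryEquiv.coe_toLinearIsometry]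
  simp only [← LinearIsometry.intervalIntegral_comp_comm]
  simp only [LinearIsometryEquiv.coe_toLinearIsometry, Complex.conjLIE_apply, map_mul, conj_chrC,
    neg_neg]

lemma RB.mono {P : Par} {s : ℕ} {f : E2 → ℝ} {M N : ℝ} (h : RB P s f M) (hMN : M ≤ N) :
    RB P s f N := ⟨h.1, h.2.1, h.2.2.monoC hMN⟩

lemma RB.weaken {P : Par} {s t : ℕ} {f : E2 → ℝ} {M : ℝ} (h : RB P s f M) (hts : t ≤ s) :
    RB P t f M := ⟨h.1, h.2.1, h.2.2.weaken hts⟩

lemma RB.nonneg {P : Par} {s : ℕ} {f : E2 → ℝ} {M : ℝ} (h : RB P s f M) : 0 ≤ M := h.2.2.1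

lemma RB.cont {P : Par} {s : ℕ} {f : E2 → ℝ} {M : ℝ} (h : RB P s f M) : Continuous f := by
  have := Complex.continuous_re.comp h.1
  simpa [cx, Function.comp_def] using this

lemma RB.per {P : Par} {s : ℕ} {f : E2 → ℝ} {M : ℝ} (h : RB P s f M) : Per f := fun x a b =>
  Complex.ofReal_inj.1 (h.2.1 x a b)

lemma RB.add {P : Par} {s : ℕ} {f h : E2 → ℝ} {M N : ℝ} (hf : RB P s f M) (hh : RB P s h N) :
    RB P s (fun x => f x + h x) (M + N) := by
  have e : cx (fun x => f x + h x) = fun x => cx f x + cx h x := by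
    funext x; simp [cx]
  refine ⟨e ▸ hf.1.add hh.1, fun x a b => ?_, ?_⟩
  · simp [cx, hf.per x a b, hh.per x a b]
  · refine hf.2.2.add' hh.2.2 fun n => ?_
    rw [e, fcC_add hf.1 hh.1]
    exact norm_add_le _ _

lemma RB.const_mul {P : Par} {s : ℕ} {f : E2 → ℝ} {M : ℝ} (hf : RB P s f M) (a : ℝ) :
    RB P s (fun x => a * f x) (|a| * M) := by
  have e : cx (fun x => a * f x) = fun x => (a : ℂ) * cx f x := by funext x; simp [cx]
  refine ⟨e ▸ hf.1.const_mul _, fun x u v => ?_, mul_nonneg (abs_nonneg a) hf.nonneg, fun S => ?_⟩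
  · simp [cx, hf.per x u v]
  · rw [e, mul_pow, sq_abs]
    refine le_trans (le_of_eq ?_) (mul_le_mul_of_nonneg_left (hf.2.2.2 S) (sq_nonneg a))
    rw [Finset.mul_sum]
    refine Finset.sum_congr rfl fun n _ => ?_
    rw [fc_smul, norm_mul, Complex.norm_real, Real.norm_eq_abs, ← sq_abs a]
    ring

lemma RB.neg {P : Par} {s : ℕ} {f : E2 → ℝ} {M : ℝ} (hf : RB P s f M) :
    RB P s (fun x => -f x) M := by
  simpa using hf.const_mul (-1)

lemma RB.sub {P : Par} {s : ℕ} {f h : E2 → ℝ} {M N : ℝ} (hf : RB P s f M) (hh : RB P s h N) :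
    RB P s (fun x => f x - h x) (M + N) := by
  simpa [sub_eq_add_neg] using hf.add hh.neg

lemma RB.zero (P : Par) (s : ℕ) : RB P s (fun _ => (0 : ℝ)) 0 := by
  refine ⟨continuous_const, fun x a b => rfl, le_rfl, fun S => ?_⟩
  simp [fc, cx]

/-- The real part of a member is a real member. -/
lemma RB.of_re {P : Par} {s : ℕ} {f : E2 → ℂ} {M : ℝ} (hf : Nb P s f M) :
    RB P s (fun x => (f x).re) M := by
  have e : cx (fun x => (f x).re) = fun x => (1 / 2 : ℂ) * (f x + conj (f x)) := by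
    funext x; simp [cx, Complex.add_conj]
  have hc : Continuous fun x => conj (f x) := Complex.continuous_conj.comp hf.1
  refine ⟨e ▸ (hf.1.add hc).const_mul _, fun x a b => ?_, ?_⟩
  · simp [cx, hf.2.1 x a b]
  · have hneg : Bd P s (fun n => conj (fc f (-n))) M := by
      refine ⟨hf.2.2.1, fun S => le_trans (le_of_eq ?_) (hf.2.2.2 (S.map (Equiv.neg _).toEmbedding))⟩
      simp [wt, len_negC]
    have h2 := hf.2.2.add' hneg (c := fun n => fc f n + conj (fc f (-n))) fun n => norm_add_le _ _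
    refine ⟨hf.2.2.1, fun S => ?_⟩
    have := h2.2 S
    rw [e]
    have key : ∀ n, (wt P s n * ‖fc (fun x => (1 / 2 : ℂ) * (f x + conj (f x))) n‖) ^ 2
        = (1 / 4) * (wt P s n * ‖fc f n + conj (fc f (-n))‖) ^ 2 := fun n => by
      rw [fc_smul, fcC_add hf.1 hc, fc_conj, norm_mul]
      norm_num
      ring
    simp only [key, ← Finset.mul_sum]
    nlinarith

lemma Facts.summable (F : Facts) {P : Par} {s : ℕ} (hs : 3 ≤ s) {f : E2 → ℂ} {M : ℝ}
    (hf : Nb P s f M) : Summable fun n => ‖fc f n‖ := by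
  obtain ⟨C, hC⟩ := F.eval P.R0 P.one_le_R0 s hs
  exact ((hC P rfl).1 _ M hf.2.2).1

lemma Facts.fc_mult (F : Facts) {P : Par} {s t : ℕ} (ht : 3 ≤ t) {f : E2 → ℂ} {M : ℝ}
    (hf : Nb P s f M) {σ : ℤ × ℤ → ℂ} {K : ℝ} (hK : 0 ≤ K)
    (hσ : ∀ n, ‖σ n‖ * wt P t n ≤ K * wt P s n) :
    fc (mult σ f) = fun n => σ n * fc f n := by
  obtain ⟨C, hC⟩ := F.eval P.R0 P.one_le_R0 t ht
  have hb : Bd P t (fun n => σ n * fc f n) (K * M) := by
    refine ⟨mul_nonneg hK hf.2.2.1, fun S => ?_⟩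
    refine le_trans (Finset.sum_le_sum fun n _ => pow_le_pow_left₀ (mul_nonneg (wt_pos' P t n).le
      (norm_nonneg _)) (?_ : _ ≤ K * (wt P s n * ‖fc f n‖)) 2) ?_
    · rw [norm_mul, ← mul_assoc, mul_comm (wt P t n), ← mul_assoc K]
      exact mul_le_mul_of_nonneg_right (hσ n) (norm_nonneg _)
    · simp only [mul_pow K, ← Finset.mul_sum]
      exact mul_le_mul_of_nonneg_left (hf.2.2.2 S) (sq_nonneg K)
  exact ((hC P rfl).1 _ _ hb).2.2.2.2

lemma norm_dsym_wt (P : Par) (s : ℕ) (i : Fin 2) (n : ℤ × ℤ) :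
    ‖dsym i n‖ * wt P s n ≤ 2 * π * P.R0 * wt P (s + 1) n := by
  have hR := P.one_le_R0
  have h1 : |(fr i n : ℝ)| ≤ len n := by
    fin_cases i <;> simp [fr, len]
  have h2 : len n ≤ P.R0 * (1 + len n / P.R0) := by
    rw [mul_add, mul_one, mul_div_cancel₀ _ (by linarith : P.R0 ≠ 0)]; linarith
  have h3 : ‖dsym i n‖ = 2 * π * |(fr i n : ℝ)| := by
    simp [dsym, abs_of_pos pi_pos]
  have h4 : wt P (s + 1) n = (1 + len n / P.R0) * wt P s n := by unfold wt; ring
  rw [h3, h4]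
  calc 2 * π * |(fr i n : ℝ)| * wt P s n ≤ 2 * π * (P.R0 * (1 + len n / P.R0)) * wt P s n := by
        gcongr
        · exact (wt_pos' P s n).le
        · exact h1.trans h2
    _ = _ := by ring

lemma Facts.dop (F : Facts) {P : Par} {s : ℕ} (hs : 3 ≤ s) {f : E2 → ℝ} {M : ℝ}
    (hf : RB P (s + 1) f M) (i : Fin 2) : RB P s (Dop i f) (2 * π * P.R0 * M) :=
  RB.of_re (F.multB P (s + 1) s hs (dsym i) _ (by have := P.one_le_R0; positivity)
    (norm_dsym_wt P s i) _ M hf)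

lemma Facts.dop_eq_pd (F : Facts) {P : Par} {s : ℕ} (hs : 4 ≤ s) {f : E2 → ℝ} {M : ℝ}
    (hf : RB P s f M) : ContDiff ℝ 1 f ∧ ∀ i x, Dop i f x = pd i f x := by
  obtain ⟨hc, hd⟩ := F.deriv P s hs (cx f) M hf
  have h1 : ContDiff ℝ 1 f := by
    have := Complex.reCLM.contDiff.comp hc
    simpa [cx, Function.comp_def] using this
  refine ⟨h1, fun i x => ?_⟩
  have := (Complex.ofRealCLM.hasFDerivAt.comp x
    (h1.differentiable (by norm_num) x).hasFDerivAt).fderiv
  have e : pd i (cx f) x = ((pd i f x : ℝ) : ℂ) := by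
    show fderiv ℝ (Complex.ofRealCLM ∘ f) x (e i) = _
    rw [this]; rfl
  rw [Dop, ← hd, e, Complex.ofReal_re]

end Vale.Agent.P205

namespace Vale.Agent.P205

/-- On smooth periodic functions the multiplier derivative is the derivative. -/
lemma Facts.dop_smooth (F : Facts) {f : E2 → ℝ} (hf : ContDiff ℝ ((⊤ : ℕ∞) : WithTop ℕ∞) f)
    (hp : Per f) (i : Fin 2) : Dop i f = pd i f := by
  have hc : ContDiff ℝ ((⊤ : ℕ∞) : WithTop ℕ∞) (cx f) := Complex.ofRealCLM.contDiff.comp hf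
  obtain ⟨M, hM⟩ := F.smoothMem (cx f) hc (fun x a b => by simp [cx, hp x a b]) 1 le_rfl 4
  obtain ⟨R1, hR1⟩ := hM 0
  let P : Par := ⟨1, 1, 0, le_rfl, le_rfl⟩
  exact funext fun x => (F.dop_eq_pd le_rfl (hR1 P rfl rfl (Or.inl rfl))).2 i x

/-- Partial derivatives of periodic-plus-linear functions are periodic. -/
lemma per_pdR {f : E2 → ℝ} (hp : ∀ a b : ℤ, ∃ c : ℝ, ∀ y, f (y + ((a : ℝ), (b : ℝ))) = f y + c) (i : Fin 2) : Per (pd i f) := by
  intro x a b
  obtain ⟨c, hc⟩ := hp a b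
  have e : (fun y => f (y + ((a : ℝ), (b : ℝ)))) = fun y => f y + c := funext hc
  have h := congrArg (fun F : E2 → ℝ => fderiv ℝ F x (Vale.Agent.P205.e i)) e
  simp only [fderiv_comp_add_right, fderiv_add_const] at h
  exact h

end Vale.Agent.P205
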