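import Vale.Agent.P205.Interfaces

/-!
# P205, the pointwise identity
-/

namespace Vale.Agent.P205

/-- The identity behind the regularity gain. -/
theorem ident : IdentStmt := by
  intro h dh al dal nu dnu adj dadj D dD v N dN Gam w Om hsym hdsym hclosed hD hN hnu hdiv i
  have hE : D ≠ 0 := hD.ne'
  have key : ((∑ k, adj i k * (dD k / (2 * D) - dN k / (2 * N)))
      + (∑ k, dnu k * v k) / (nu * N) * v i - if i = 0 then Om 1 else -Om 0)
      = -(v i * nu / N) * (∑ j, ((∑ k, (dadj j j k * al k + adj j k * dal j k)) / nu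
        - v j * dnu j / nu ^ 2 - v j * dD j / (2 * D * nu))) := by
    simp only [adj, dadj, D, dD, v, N, dN, Gam, w, Om, Fin.sum_univ_two, hsym 1 0, hdsym _ 1 0,
      hclosed 1 0] at hE hN ⊢
    fin_cases i <;>
      (simp only [Fin.isValue, sub_zero, sub_self, hsym 1 0, hdsym _ 1 0, hclosed 1 0, ↓reduceIte,
        one_ne_zero, zero_ne_one, Fin.zero_eta, Fin.mk_one] at hE hN ⊢
       generalize hEe : h 0 0 * h 1 1 - h 0 1 ^ 2 = E at hE ⊢
       generalize hNe : al 0 * (h 1 1 * al 0 + -h 0 1 * al 1)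
         + al 1 * (-h 0 1 * al 0 + h 0 0 * al 1) = M at hN ⊢
       field_simp
       subst hEe hNe
       ring)
  rw [hdiv, mul_zero, sub_eq_zero] at key
  exact key

end Vale.Agent.P205
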