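import Vale.Agent.P205.CoreStmts
import Vale.Agent.P205.CoreBase
import Vale.Agent.P205.Ident

/-!
# P205, core: the regularity identity for states, and the relations at the base point
-/

namespace Vale.Agent.P205.Sem

open Real
open scoped ContDiff

theorem sp_const (c : ℝ) : SP (fun _ => c) := ⟨contDiff_const, fun _ _ _ => rfl⟩

theorem sp_add {f h : E2 → ℝ} (hf : SP f) (hh : SP h) : SP (fun x => f x + h x) :=
  ⟨hf.1.add hh.1, fun x a b => by simp only [hf.2 x a b, hh.2 x a b]⟩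

theorem sp_sub {f h : E2 → ℝ} (hf : SP f) (hh : SP h) : SP (fun x => f x - h x) :=
  ⟨hf.1.sub hh.1, fun x a b => by simp only [hf.2 x a b, hh.2 x a b]⟩

theorem sp_mul {f h : E2 → ℝ} (hf : SP f) (hh : SP h) : SP (fun x => f x * h x) :=
  ⟨hf.1.mul hh.1, fun x a b => by simp only [hf.2 x a b, hh.2 x a b]⟩

theorem sp_neg {f : E2 → ℝ} (hf : SP f) : SP (fun x => -f x) :=
  ⟨hf.1.neg, fun x a b => by simp only [hf.2 x a b]⟩

theorem sp_sq {f : E2 → ℝ} (hf : SP f) : SP (fun x => f x ^ 2) :=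
  ⟨hf.1.pow 2, fun x a b => by simp only [hf.2 x a b]⟩

theorem contDiff_pd {f : E2 → ℝ} (hf : ContDiff ℝ ∞ f) (i : Fin 2) : ContDiff ℝ ∞ (pd i f) :=
  (hf.fderiv_right (by simp)).clm_apply contDiff_const

theorem sp_pd {f : E2 → ℝ} (hf : SP f) (i : Fin 2) : SP (pd i f) :=
  ⟨contDiff_pd hf.1 i, per_pdR (fun a b => ⟨0, fun y => by rw [hf.2 y a b, add_zero]⟩) i⟩

theorem diffAt {f : E2 → ℝ} (hf : SP f) (x : E2) : DifferentiableAt ℝ f x :=
  hf.1.differentiable (by simp) x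

theorem pd_add {f h : E2 → ℝ} (hf : SP f) (hh : SP h) (i : Fin 2) (x : E2) :
    pd i (fun y => f y + h y) x = pd i f x + pd i h x := by
  simp [pd, fderiv_fun_add (diffAt hf x) (diffAt hh x)]

theorem pd_sub {f h : E2 → ℝ} (hf : SP f) (hh : SP h) (i : Fin 2) (x : E2) :
    pd i (fun y => f y - h y) x = pd i f x - pd i h x := by
  simp [pd, fderiv_fun_sub (diffAt hf x) (diffAt hh x)]

theorem pd_mul {f h : E2 → ℝ} (hf : SP f) (hh : SP h) (i : Fin 2) (x : E2) :
    pd i (fun y => f y * h y) x = f x * pd i h x + h x * pd i f x := by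
  simp [pd, fderiv_fun_mul (diffAt hf x) (diffAt hh x)]

theorem pd_neg (f : E2 → ℝ) (i : Fin 2) (x : E2) : pd i (fun y => -f y) x = -pd i f x := by
  simp [pd]

theorem pd_const (c : ℝ) (i : Fin 2) (x : E2) : pd i (fun _ => c) x = 0 := by simp [pd]

theorem comp_symm (g : Metric) (i k : Fin 2) : g.comp i k = g.comp k i := by
  fin_cases i <;> fin_cases k <;> simp [Metric.comp]

theorem sp_comp (g : Metric) (i k : Fin 2) : SP (g.comp i k) := by
  fin_cases i <;> fin_cases k <;> simp [Metric.comp, SP, g.smooth_a, g.smooth_b, g.smooth_c,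
    g.per_a, g.per_b, g.per_c]

theorem sp_du (D : Dat) (i : Fin 2) : SP (D.du i) :=
  ⟨contDiff_pd D.I.smooth_u i, per_pdR (fun a b => ⟨a, fun y => D.I.per_u y a b⟩) i⟩

theorem sp_C (D : Dat) : SP D.C := ⟨D.smooth_C, D.per_C⟩

/-- The identity for states. -/
theorem stateIdent : StateIdentStmt := by
  intro F D η ε z hiv hm hbet hiq hrho hivnu hmpos hmdet hnn hiqnn hdiv r hr hrpos hrsq W
  have hν : SP (D.nu η) := sp_add (sp_const 1) (sp_mul (sp_const η) (sp_C D))
  have hdν : ∀ i, SP (D.dnu η i) := fun i => sp_mul (sp_const η) (sp_pd (sp_C D) i)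
  have hddν : ∀ i k, SP (D.ddnu η i k) := fun i k =>
    sp_mul (sp_const η) (sp_pd (sp_pd (sp_C D) k) i)
  have pdν : ∀ i x, pd i (D.nu η) x = D.dnu η i x := fun i x => by
    show pd i (fun y => 1 + η * D.C y) x = η * pd i D.C x
    rw [pd_add (sp_const 1) (sp_mul (sp_const η) (sp_C D)), pd_mul (sp_const η) (sp_C D)]
    simp [pd_const]
  have pdν2 : ∀ i k x, pd i (D.dnu η k) x = D.ddnu η i k x := fun i k x => by
    show pd i (fun y => η * pd k D.C y) x = η * pd i (pd k D.C) x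
    rw [pd_mul (sp_const η) (sp_pd (sp_C D) k)]
    simp [pd_const]
  have eR : ∀ i, Dop i z.rho = pd i z.rho := fun i => F.dop_smooth hrho.1 hrho.2 i
  have eB : ∀ i, Dop i z.bet = pd i z.bet := fun i => F.dop_smooth hbet.1 hbet.2 i
  have hR : ∀ i, SP (pd i z.rho) := fun i => sp_pd hrho i
  have sig_eq : ∀ i, D.sig η z i = fun x => D.dnu η i x * z.rho x + D.nu η x * pd i z.rho x :=
    fun i => funext fun x => by rw [Dat.sig, eR]
  have hσ : ∀ i, SP (D.sig η z i) := fun i => by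
    rw [sig_eq]; exact sp_add (sp_mul (hdν i) hrho) (sp_mul hν (hR i))
  have pdσ : ∀ i k x, pd i (D.sig η z k) x = D.ddnu η i k x * z.rho x
      + D.dnu η k x * pd i z.rho x + D.dnu η i x * pd k z.rho x
      + D.nu η x * pd i (pd k z.rho) x := fun i k x => by
    rw [sig_eq, pd_add (sp_mul (hdν k) hrho) (sp_mul hν (hR k)), pd_mul (hdν k) hrho,
      pd_mul hν (hR k), pdν, pdν2]
    ring
  have h_eq : ∀ i k, D.h η ε z i k = fun x => D.g.comp i k x - ε * (pd i z.rho x * pd k z.rho x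
      + z.kap ^ 2 * (D.sig η z i x * D.sig η z k x)) := fun i k => funext fun x => by
    rw [Dat.h, eR, eR]
  have hh : ∀ i k, SP (D.h η ε z i k) := fun i k => by
    rw [h_eq]
    exact sp_sub (sp_comp D.g i k) (sp_mul (sp_const ε) (sp_add (sp_mul (hR i) (hR k))
      (sp_mul (sp_const _) (sp_mul (hσ i) (hσ k)))))
  have hsym : ∀ i k, D.h η ε z i k = D.h η ε z k i := fun i k => by
    funext x; rw [h_eq, h_eq]; simp only [comp_symm D.g k i]; ring
  have pdh : ∀ l i k x, pd l (D.h η ε z i k) x = pd l (D.g.comp i k) x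
      - ε * (pd l (pd i z.rho) x * pd k z.rho x + pd i z.rho x * pd l (pd k z.rho) x
        + z.kap ^ 2 * (pd l (D.sig η z i) x * D.sig η z k x
          + D.sig η z i x * pd l (D.sig η z k) x)) := fun l i k x => by
    rw [h_eq, pd_sub (sp_comp D.g i k) (sp_mul (sp_const ε) (sp_add (sp_mul (hR i) (hR k))
      (sp_mul (sp_const _) (sp_mul (hσ i) (hσ k))))),
      pd_mul (sp_const ε) (sp_add (sp_mul (hR i) (hR k))
        (sp_mul (sp_const _) (sp_mul (hσ i) (hσ k)))), pd_const,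
      pd_add (sp_mul (hR i) (hR k)) (sp_mul (sp_const _) (sp_mul (hσ i) (hσ k))),
      pd_mul (hR i) (hR k), pd_mul (sp_const _) (sp_mul (hσ i) (hσ k)), pd_const,
      pd_mul (hσ i) (hσ k)]
    ring
  have hadj : ∀ p k, SP (D.adjh η ε z p k) := fun p k => by
    by_cases h : p = k
    · rw [show D.adjh η ε z p k = D.h η ε z (1 - p) (1 - k) from funext fun x => if_pos h]
      exact hh _ _
    · rw [show D.adjh η ε z p k = fun x => -D.h η ε z p k x from funext fun x => if_neg h]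
      exact sp_neg (hh _ _)
  have pdadj : ∀ l p k x, pd l (D.adjh η ε z p k) x
      = if p = k then pd l (D.h η ε z (1 - p) (1 - k)) x else -pd l (D.h η ε z p k) x := by
    intro l p k x
    by_cases h : p = k
    · rw [if_pos h, show D.adjh η ε z p k = D.h η ε z (1 - p) (1 - k) from
        funext fun x => if_pos h]
    · rw [if_neg h, show D.adjh η ε z p k = fun x => -D.h η ε z p k x from
        funext fun x => if_neg h, pd_neg]
  have al_eq : ∀ i, D.al z i = fun x => D.du i x + pd i z.bet x := fun i => funext fun x => by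
    rw [Dat.al, eB]
  have hal : ∀ i, SP (D.al z i) := fun i => by
    rw [al_eq]; exact sp_add (sp_du D i) (sp_pd hbet i)
  have dal_eq : ∀ i k, D.dal z i k = pd i (D.al z k) := fun i k => funext fun x => by
    rw [Dat.dal, eB, F.dop_smooth (sp_pd hbet k).1 (sp_pd hbet k).2, al_eq,
      pd_add (sp_du D k) (sp_pd hbet k)]
  have dal_sym : ∀ i k x, D.dal z i k x = D.dal z k i x := fun i k x => by
    fin_cases i <;> fin_cases k <;>
      simp only [dal_eq, al_eq, pd_add (sp_du D _) (sp_pd hbet _)] <;>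
      simp only [Fin.zero_eta, Fin.mk_one, Dat.du, BaseAux.pd_comm D.I.smooth_u,
        BaseAux.pd_comm hbet.1]
  have hdal : ∀ i k, SP (D.dal z i k) := fun i k => by rw [dal_eq]; exact sp_pd (hal k) i
  have hvv : ∀ p, SP (D.vv η ε z p) := fun p =>
    sp_add (sp_mul (hadj p 0) (hal 0)) (sp_mul (hadj p 1) (hal 1))
  have pdvv : ∀ l p x, pd l (D.vv η ε z p) x
      = D.adjh η ε z p 0 x * D.dal z l 0 x + D.al z 0 x * pd l (D.adjh η ε z p 0) x
        + (D.adjh η ε z p 1 x * D.dal z l 1 x + D.al z 1 x * pd l (D.adjh η ε z p 1) x) := by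
    intro l p x
    show pd l (fun y => D.adjh η ε z p 0 y * D.al z 0 y + D.adjh η ε z p 1 y * D.al z 1 y) x = _
    rw [pd_add (sp_mul (hadj p 0) (hal 0)) (sp_mul (hadj p 1) (hal 1)), pd_mul (hadj p 0) (hal 0),
      pd_mul (hadj p 1) (hal 1), dal_eq, dal_eq]
  have hD : SP (D.detH η ε z) :=
    sp_sub (sp_mul (hh 0 0) (hh 1 1)) (sp_sq (hh 0 1))
  have pdD : ∀ l x, pd l (D.detH η ε z) x = pd l (D.h η ε z 0 0) x * D.h η ε z 1 1 x
      + D.h η ε z 0 0 x * pd l (D.h η ε z 1 1) x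
      - 2 * D.h η ε z 0 1 x * pd l (D.h η ε z 0 1) x := fun l x => by
    show pd l (fun y => D.h η ε z 0 0 y * D.h η ε z 1 1 y - D.h η ε z 0 1 y ^ 2) x = _
    simp only [sq]
    rw [pd_sub (sp_mul (hh 0 0) (hh 1 1)) (sp_mul (hh 0 1) (hh 0 1)), pd_mul (hh 0 0) (hh 1 1),
      pd_mul (hh 0 1) (hh 0 1)]
    ring
  have hN : SP (D.nn η ε z) := sp_add (sp_mul (hal 0) (hvv 0)) (sp_mul (hal 1) (hvv 1))
  have pdN : ∀ l x, pd l (D.nn η ε z) x = D.al z 0 x * pd l (D.vv η ε z 0) x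
      + D.vv η ε z 0 x * D.dal z l 0 x
      + (D.al z 1 x * pd l (D.vv η ε z 1) x + D.vv η ε z 1 x * D.dal z l 1 x) := fun l x => by
    show pd l (fun y => D.al z 0 y * D.vv η ε z 0 y + D.al z 1 y * D.vv η ε z 1 y) x = _
    rw [pd_add (sp_mul (hal 0) (hvv 0)) (sp_mul (hal 1) (hvv 1)), pd_mul (hal 0) (hvv 0),
      pd_mul (hal 1) (hvv 1), dal_eq, dal_eq]
  -- the identity at a point
  have key : ∀ x (i : Fin 2), W i x = if i = 0 then
      (D.pA η ε z 0 x * D.dal z 1 0 x + D.pA η ε z 1 x * D.dal z 1 1 x)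
        + (D.pB η ε z 0 x * pd 1 (pd 0 z.rho) x + D.pB η ε z 1 x * pd 1 (pd 1 z.rho) x)
        - D.rr η ε z 1 x
      else -((D.pA η ε z 0 x * D.dal z 0 0 x + D.pA η ε z 1 x * D.dal z 0 1 x)
        + (D.pB η ε z 0 x * pd 0 (pd 0 z.rho) x + D.pB η ε z 1 x * pd 0 (pd 1 z.rho) x)
        - D.rr η ε z 0 x) := by
    intro x
    have hν0 : D.nu η x ≠ 0 := fun h => by have := hivnu x; rw [h, mul_zero] at this; norm_num at this
    have hD0 : 0 < D.detH η ε z x := by
      have := hmdet x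
      have := mul_pos (hmpos x) (hmpos x)
      nlinarith
    have hN0 := (hnn x).ne'
    have div_iv : ∀ l, pd l z.iv x = -(z.iv x * D.dnu η l x / D.nu η x) := fun l => by
      have h := pd_mul hiv hν l x
      rw [show (fun y => z.iv y * D.nu η y) = fun _ => (1 : ℝ) from funext hivnu, pd_const,
        pdν] at h
      field_simp
      linarith
    have dm : ∀ l, pd l z.m x = -(z.m x * pd l (D.detH η ε z) x / (2 * D.detH η ε z x)) := fun l => by
      have h := pd_mul hD (sp_mul hm hm) l x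
      rw [show (fun y => D.detH η ε z y * (z.m y * z.m y)) = fun _ => (1 : ℝ) from funext hmdet,
        pd_const, pd_mul hm hm] at h
      have := hmpos x
      field_simp
      have h2 : z.m x * (2 * D.detH η ε z x * pd l z.m x + z.m x * pd l (D.detH η ε z) x) = 0 := by
        linarith
      linarith [(mul_eq_zero.1 h2).resolve_left this.ne']
    have hflux : ∀ l, pd l (D.flux η ε z l) x = z.m x * (pd l (D.vv η ε z l) x / D.nu η x
        - D.vv η ε z l x * D.dnu η l x / D.nu η x ^ 2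
        - D.vv η ε z l x * pd l (D.detH η ε z) x / (2 * D.detH η ε z x * D.nu η x)) := fun l => by
      show pd l (fun y => z.iv y * (z.m y * D.vv η ε z l y)) x = _
      rw [pd_mul hiv (sp_mul hm (hvv l)), pd_mul hm (hvv l), div_iv, dm,
        show z.iv x = 1 / D.nu η x by rw [eq_div_iff hν0]; exact hivnu x]
      field_simp
      ring
    have dr : ∀ l, pd l r x / r x = pd l (D.detH η ε z) x / (2 * D.detH η ε z x)
        - pd l (D.nn η ε z) x / (2 * D.nn η ε z x) := fun l => by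
      have h := pd_mul (sp_mul hr hr) hN l x
      rw [show (fun y => r y * r y * D.nn η ε z y) = D.detH η ε z from funext hrsq,
        pd_mul hr hr] at h
      have := hrpos x
      rw [h, ← hrsq x]
      field_simp
      ring
    have hid := ident (fun p k => D.h η ε z p k x) (fun l p k => pd l (D.h η ε z p k) x)
      (fun p => D.al z p x) (fun i k => D.dal z i k x) (D.nu η x) (fun l => D.dnu η l x)
    simp only [Fin.sum_univ_two] at hid
    have hid := hid (fun p k => congrFun (hsym p k) x) (fun l p k => by rw [hsym])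
      (fun i k => dal_sym i k x) hD0 (by
        refine ne_of_eq_of_ne ?_ hN0
        simp [Dat.nn, Dat.vv, Dat.adjh]) hν0 (by
        have h := hdiv x
        rw [hflux, hflux, ← mul_add, mul_eq_zero] at h
        refine Eq.trans ?_ (h.resolve_left (hmpos x).ne')
        simp only [pdvv, pdadj, pdD]
        simp [Dat.vv, Dat.adjh, Dat.detH]
        ring)
    intro i
    have hf : D.fq η ε z x = (D.dnu η 0 x * D.vv η ε z 0 x + D.dnu η 1 x * D.vv η ε z 1 x)
        / (D.nu η x * D.nn η ε z x) := by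
      rw [Dat.fq, show z.iv x = 1 / D.nu η x by rw [eq_div_iff hν0]; exact hivnu x,
        show z.iq x = 1 / D.nn η ε z x by rw [eq_div_iff hN0]; exact hiqnn x]
      field_simp
    have hlhs : W i x = z.m x * ((D.adjh η ε z i 0 x * (pd 0 r x / r x)
        + D.adjh η ε z i 1 x * (pd 1 r x / r x)) + D.fq η ε z x * D.vv η ε z i x) := by
      simp only [W]; ring
    rw [hlhs, dr, dr, hf]
    have hi := hid i
    have hiqv : z.iq x = 1 / D.nn η ε z x := by rw [eq_div_iff hN0]; exact hiqnn x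
    have hNv : D.nn η ε z x = D.al z 0 x * (D.h η ε z 1 1 x * D.al z 0 x + -D.h η ε z 0 1 x * D.al z 1 x)
        + D.al z 1 x * (-D.h η ε z 1 0 x * D.al z 0 x + D.h η ε z 0 0 x * D.al z 1 x) := by
      simp [Dat.nn, Dat.vv, Dat.adjh]
    have hDv : D.detH η ε z x = D.h η ε z 0 0 x * D.h η ε z 1 1 x - D.h η ε z 0 1 x ^ 2 := rfl
    refine Eq.trans (b := z.m x * (if i = 0 then
        (D.al z 0 x * (D.detH η ε z x * D.dal z 1 1 x
          - ((pd 1 (D.h η ε z 0 1) x + pd 1 (D.h η ε z 0 1) x - pd 0 (D.h η ε z 1 1) x) / 2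
              * D.vv η ε z 0 x
            + (pd 1 (D.h η ε z 1 1) x + pd 1 (D.h η ε z 1 1) x - pd 1 (D.h η ε z 1 1) x) / 2
              * D.vv η ε z 1 x))
        - D.al z 1 x * (D.detH η ε z x * D.dal z 1 0 x
          - ((pd 1 (D.h η ε z 0 0) x + pd 0 (D.h η ε z 0 1) x - pd 0 (D.h η ε z 1 0) x) / 2
              * D.vv η ε z 0 x
            + (pd 1 (D.h η ε z 1 0) x + pd 0 (D.h η ε z 1 1) x - pd 1 (D.h η ε z 1 0) x) / 2
              * D.vv η ε z 1 x))) / D.nn η ε z x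
      else -((D.al z 0 x * (D.detH η ε z x * D.dal z 0 1 x
          - ((pd 0 (D.h η ε z 0 1) x + pd 1 (D.h η ε z 0 0) x - pd 0 (D.h η ε z 0 1) x) / 2
              * D.vv η ε z 0 x
            + (pd 0 (D.h η ε z 1 1) x + pd 1 (D.h η ε z 1 0) x - pd 1 (D.h η ε z 0 1) x) / 2
              * D.vv η ε z 1 x))
        - D.al z 1 x * (D.detH η ε z x * D.dal z 0 0 x
          - ((pd 0 (D.h η ε z 0 0) x + pd 0 (D.h η ε z 0 0) x - pd 0 (D.h η ε z 0 0) x) / 2
              * D.vv η ε z 0 x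
            + (pd 0 (D.h η ε z 1 0) x + pd 0 (D.h η ε z 1 0) x - pd 1 (D.h η ε z 0 0) x) / 2
              * D.vv η ε z 1 x))) / D.nn η ε z x))) ?_ ?_
    · congr 1
      simp only [pdN, pdvv, pdadj, pdD]
      fin_cases i <;>
        simp [Dat.vv, Dat.adjh, Dat.detH, Dat.nn, hsym 1 0, dal_sym 1 0 x] at hi ⊢ <;>
        linear_combination hi
    · fin_cases i <;>
        simp only [Fin.zero_eta, Fin.mk_one, Fin.isValue, one_ne_zero, ↓reduceIte, Dat.pA, Dat.pB,
          Dat.rr, Dat.ww, Dat.bb, Dat.ee, Dat.gG, pdh, pdσ, eR, Dat.vs, hiqv,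
          Dat.ddnu, BaseAux.pd_comm hrho.1, BaseAux.pd_comm D.smooth_C, comp_symm D.g 1 0] <;>
        field_simp <;> ring
  have eeS : ∀ k, SP (D.ee z k) := fun k => by
    fin_cases k
    · simpa [show D.ee z 0 = fun x => -(z.iq x * (z.m x * D.al z 1 x)) from rfl] using
        sp_neg (sp_mul hiq (sp_mul hm (hal 1)))
    · simpa [show D.ee z 1 = fun x => z.iq x * (z.m x * D.al z 0 x) from rfl] using
        sp_mul hiq (sp_mul hm (hal 0))
  have hpA : ∀ k, SP (D.pA η ε z k) := fun k => sp_mul (eeS k) hD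
  have hvs : SP (D.vs η ε z) := sp_add (sp_mul (hvv 0) (hσ 0)) (sp_mul (hvv 1) (hσ 1))
  have hbb : SP (D.bb η ε z) := by
    rw [show D.bb η ε z = fun x => D.vv η ε z 0 x * pd 0 z.rho x + D.vv η ε z 1 x * pd 1 z.rho x
      + z.kap ^ 2 * (D.nu η x * D.vs η ε z x) from funext fun x => by rw [Dat.bb, eR, eR]]
    exact sp_add (sp_add (sp_mul (hvv 0) (hR 0)) (sp_mul (hvv 1) (hR 1)))
      (sp_mul (sp_const _) (sp_mul hν hvs))
  have hpB : ∀ k, SP (D.pB η ε z k) := fun k => sp_mul (sp_const ε) (sp_mul (eeS k) hbb)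
  have hgG : ∀ p i k, SP (D.gG p i k) := fun p i k => by
    rw [show D.gG p i k = fun x => (1 / 2 : ℝ) * (pd i (D.g.comp p k) x + pd k (D.g.comp p i) x
      - pd p (D.g.comp i k) x) from funext fun x => by rw [Dat.gG]; ring]
    exact sp_mul (sp_const _) (sp_sub (sp_add (sp_pd (sp_comp _ _ _) _) (sp_pd (sp_comp _ _ _) _))
      (sp_pd (sp_comp _ _ _) _))
  have hww : ∀ i k, SP (D.ww η ε z i k) := fun i k => by
    rw [show D.ww η ε z i k = fun x => D.vv η ε z 0 x * D.gG 0 i k x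
      + D.vv η ε z 1 x * D.gG 1 i k x - ε * (z.kap ^ 2 * (D.vs η ε z x
        * (D.dnu η i x * pd k z.rho x + D.dnu η k x * pd i z.rho x + D.ddnu η i k x * z.rho x)))
      from funext fun x => by rw [Dat.ww, eR, eR]]
    exact sp_sub (sp_add (sp_mul (hvv 0) (hgG 0 i k)) (sp_mul (hvv 1) (hgG 1 i k)))
      (sp_mul (sp_const _) (sp_mul (sp_const _) (sp_mul hvs (sp_add (sp_add
        (sp_mul (hdν i) (hR k)) (sp_mul (hdν k) (hR i))) (sp_mul (hddν i k) hrho)))))
  have hrr : ∀ i, SP (D.rr η ε z i) := fun i =>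
    sp_add (sp_mul (eeS 0) (hww i 0)) (sp_mul (eeS 1) (hww i 1))
  intro x
  have eW0 : W 0 = fun x => (D.pA η ε z 0 x * D.dal z 1 0 x + D.pA η ε z 1 x * D.dal z 1 1 x)
        + (D.pB η ε z 0 x * pd 1 (pd 0 z.rho) x + D.pB η ε z 1 x * pd 1 (pd 1 z.rho) x)
        - D.rr η ε z 1 x := funext fun x => by simpa using key x 0
  have eW1 : W 1 = fun x => -((D.pA η ε z 0 x * D.dal z 0 0 x + D.pA η ε z 1 x * D.dal z 0 1 x)
        + (D.pB η ε z 0 x * pd 0 (pd 0 z.rho) x + D.pB η ε z 1 x * pd 0 (pd 1 z.rho) x)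
        - D.rr η ε z 0 x) := funext fun x => by simpa using key x 1
  have sA := fun i => sp_add (sp_mul (hpA 0) (hdal i 0)) (sp_mul (hpA 1) (hdal i 1))
  have sB := fun i => sp_add (sp_mul (hpB 0) (sp_pd (hR 0) i)) (sp_mul (hpB 1) (sp_pd (hR 1) i))
  rw [eW0, eW1, pd_neg, pd_sub (sp_add (sA 1) (sB 1)) (hrr 1),
    pd_sub (sp_add (sA 0) (sB 0)) (hrr 0), pd_add (sA 1) (sB 1), pd_add (sA 0) (sB 0),
    pd_add (sp_mul (hpA 0) (hdal 1 0)) (sp_mul (hpA 1) (hdal 1 1)),
    pd_add (sp_mul (hpA 0) (hdal 0 0)) (sp_mul (hpA 1) (hdal 0 1)),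
    pd_add (sp_mul (hpB 0) (sp_pd (hR 0) 1)) (sp_mul (hpB 1) (sp_pd (hR 1) 1)),
    pd_add (sp_mul (hpB 0) (sp_pd (hR 0) 0)) (sp_mul (hpB 1) (sp_pd (hR 1) 0)),
    pd_mul (hpA 0) (hdal 1 0), pd_mul (hpA 1) (hdal 1 1), pd_mul (hpA 0) (hdal 0 0),
    pd_mul (hpA 1) (hdal 0 1), pd_mul (hpB 0) (sp_pd (hR 0) 1), pd_mul (hpB 1) (sp_pd (hR 1) 1),
    pd_mul (hpB 0) (sp_pd (hR 0) 0), pd_mul (hpB 1) (sp_pd (hR 1) 0)]
  simp only [Dat.src, Dat.srcPart, F.dop_smooth (hpA _).1 (hpA _).2, eR,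
    F.dop_smooth (hpB _).1 (hpB _).2, F.dop_smooth (hR _).1 (hR _).2,
    F.dop_smooth (hrr _).1 (hrr _).2, dal_eq, BaseAux.pd_comm (hal _).1,
    BaseAux.pd_comm (hR _).1]
  ring

/-- The projection of a pair whose divergence is removed. -/
theorem psym_row_div (i : Fin 2) (n : ℤ × ℤ) (c0 c1 S : ℂ)
    (hS : dsym 0 n * c0 + dsym 1 n * c1 = S) :
    psym i 0 n * (c0 - gsym 0 n * S) + psym i 1 n * (c1 - gsym 1 n * S) = 0 := by
  subst hS
  have hp : psym 0 1 n = psym 1 0 n := by simp [psym]; ring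
  linear_combination (psym i 0 n * c1 - c0 * psym i 1 n) * hp + (-c0) * psym_psym i 0 n - c1 * psym_psym i 1 n
    + (psym i 0 n * c0) * (-(dsym_gsym 0 0 n)) + (psym i 0 n * c1) * (-(dsym_gsym 1 0 n))
    + (psym i 1 n * c0) * (-(dsym_gsym 0 1 n)) + (psym i 1 n * c1) * (-(dsym_gsym 1 1 n))

theorem fc_zero_re (f : E2 → ℝ) : (fc (cx f) 0).re = avg2 f := by
  simp [fc, cx, chr, avg2, intervalIntegral.integral_ofReal]

/-- The relations at the base point. -/
theorem baseRel : BaseRelStmt := by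
  intro F D
  have hdet : ∀ x, 0 < D.g.det x := fun x => by
    have := D.g.det_pos x
    unfold Metric.det
    linarith
  have hN0 : ∀ x, 0 < D.N0 x := fun x => by
    have hd := hdet x
    have ha := D.g.pos x
    unfold Metric.det at hd
    rcases eq_or_ne (D.du 1 x) 0 with h1 | h1
    · have h0 : D.du 0 x ≠ 0 := (D.I.regular x).resolve_right (not_not_intro h1)
      have e : D.N0 x = D.g.c x * D.du 0 x ^ 2 := by
        simp [Dat.N0, Dat.v0, h1]; ring
      have hc : 0 < D.g.c x := by nlinarith [sq_nonneg (D.g.b x)]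
      rw [e]; positivity
    · have hc : 0 < D.g.c x := by nlinarith [sq_nonneg (D.g.b x)]
      have e : D.g.c x * D.N0 x = (D.g.c x * D.du 0 x - D.g.b x * D.du 1 x) ^ 2
          + (D.g.a x * D.g.c x - D.g.b x ^ 2) * D.du 1 x ^ 2 := by
        simp [Dat.N0, Dat.v0]; ring
      have : 0 < D.g.c x * D.N0 x := by rw [e]; positivity
      exact (mul_pos_iff_of_pos_left hc).1 this
  have hrho0 : ∀ x, 0 < D.rho0 x := fun x => Real.sqrt_pos.2 (div_pos (hdet x) (hN0 x))
  have hsD : SP D.g.det :=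
    sp_sub (sp_mul ⟨D.g.smooth_a, D.g.per_a⟩ ⟨D.g.smooth_c, D.g.per_c⟩)
      (sp_sq ⟨D.g.smooth_b, D.g.per_b⟩)
  have hv0 : ∀ i, SP (D.v0 i) := fun i => by
    fin_cases i
    · simpa [show D.v0 0 = fun x => D.g.c x * D.du 0 x + -D.g.b x * D.du 1 x from rfl] using
        sp_add (sp_mul ⟨D.g.smooth_c, D.g.per_c⟩ (sp_du D 0))
          (sp_mul (sp_neg ⟨D.g.smooth_b, D.g.per_b⟩) (sp_du D 1))
    · simpa [show D.v0 1 = fun x => -D.g.b x * D.du 0 x + D.g.a x * D.du 1 x from rfl] using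
        sp_add (sp_mul (sp_neg ⟨D.g.smooth_b, D.g.per_b⟩) (sp_du D 0))
          (sp_mul ⟨D.g.smooth_a, D.g.per_a⟩ (sp_du D 1))
  have hN : SP D.N0 := sp_add (sp_mul (sp_du D 0) (hv0 0)) (sp_mul (sp_du D 1) (hv0 1))
  have hrho : SP D.rho0 :=
    ⟨(hsD.1.div hN.1 fun x => (hN0 x).ne').sqrt fun x => (div_pos (hdet x) (hN0 x)).ne',
      fun x a b => by simp only [Dat.rho0, hsD.2 x a b, hN.2 x a b]⟩
  have hm : SP D.m0 :=
    ⟨contDiff_const.div (hsD.1.sqrt fun x => (hdet x).ne') fun x => (Real.sqrt_pos.2 (hdet x)).ne',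
      fun x a b => by simp only [Dat.m0, hsD.2 x a b]⟩
  have hiq : SP D.iq0 :=
    ⟨contDiff_const.div hN.1 fun x => (hN0 x).ne', fun x a b => by simp only [Dat.iq0, hN.2 x a b]⟩
  have hir : SP D.ir0 :=
    ⟨contDiff_const.div hrho.1 fun x => (hrho0 x).ne',
      fun x a b => by simp only [Dat.ir0, hrho.2 x a b]⟩
  have m0sq : ∀ x, D.g.det x * (D.m0 x * D.m0 x) = 1 := fun x => by
    have := Real.sqrt_pos.2 (hdet x)
    rw [Dat.m0]
    field_simp
    exact (Real.sq_sqrt (hdet x).le).symm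
  have rhosq : ∀ x, D.rho0 x * D.rho0 x * D.N0 x = D.g.det x := fun x => by
    have := hN0 x
    rw [Dat.rho0, Real.mul_self_sqrt (div_pos (hdet x) (hN0 x)).le]
    field_simp
  have hvpd : ∀ i, SP (pd i D.I.v) := fun i =>
    ⟨contDiff_pd D.I.smooth_v i,
      per_pdR (fun a b => ⟨a * D.I.τ1 + b * D.I.τ2, fun y => D.I.per_v y a b⟩) i⟩
  have hflux : ∀ x, 1 * (D.m0 x * D.v0 0 x) = pd 1 D.I.v x
      ∧ 1 * (D.m0 x * D.v0 1 x) = -pd 0 D.I.v x := fun x => by
    constructor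
    · rw [← D.I.cr0 x]
      simp [Dat.m0, Dat.v0, Dat.du, Metric.cond, Metric.comp]
      ring
    · rw [← D.I.cr1 x]
      simp [Dat.m0, Dat.v0, Dat.du, Metric.cond, Metric.comp]
      ring
  have hbet : SP (fun _ : E2 => (0 : ℝ)) := sp_const 0
  have hd0 : ∀ i, Dop i (fun _ : E2 => (0 : ℝ)) = fun _ => 0 := fun i => by
    funext x; simp [Dop, mult, cx, fc, ev]
  have eh : ∀ i k x, D.h 0 0 D.z0 i k x = D.g.comp i k x := fun i k x => by simp [Dat.h]
  have eD : ∀ x, D.detH 0 0 D.z0 x = D.g.det x := fun x => by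
    simp [Dat.detH, eh, Metric.det, Metric.comp]
  have eal : ∀ i x, D.al D.z0 i x = D.du i x := fun i x => by simp [Dat.al, Dat.z0, hd0]
  have evv : ∀ i x, D.vv 0 0 D.z0 i x = D.v0 i x := fun i x => by
    fin_cases i <;> simp [Dat.vv, Dat.adjh, eh, eal, Dat.v0, Metric.comp]
  have enn : ∀ x, D.nn 0 0 D.z0 x = D.N0 x := fun x => by simp [Dat.nn, evv, eal, Dat.N0]
  have hdiv : ∀ x, pd 0 (D.flux 0 0 D.z0 0) x + pd 1 (D.flux 0 0 D.z0 1) x = 0 := fun x => by
    rw [show D.flux 0 0 D.z0 0 = pd 1 D.I.v from funext fun y => by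
        rw [← (hflux y).1, Dat.flux, evv]; simp [Dat.z0],
      show D.flux 0 0 D.z0 1 = fun y => -pd 0 D.I.v y from funext fun y => by
        rw [← (hflux y).2, Dat.flux, evv]; simp [Dat.z0],
      pd_neg, BaseAux.pd_comm D.I.smooth_v]
    ring
  have hmp : ∀ x, 0 < D.m0 x := fun x => div_pos one_pos (Real.sqrt_pos.2 (hdet x))
  have hW := stateIdent F D 0 0 D.z0 (sp_const 1) hm hbet hiq hrho
    (fun x => by simp [Dat.z0, Dat.nu]) hmp (fun x => by rw [eD]; exact m0sq x)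
    (fun x => by rw [enn]; exact hN0 x)
    (fun x => by rw [enn]; show 1 / D.N0 x * D.N0 x = 1; field_simp [(hN0 x).ne'])
    hdiv D.rho0 hrho hrho0 (fun x => by rw [enn, eD]; exact rhosq x)
  have eR : ∀ i, Dop i D.rho0 = pd i D.rho0 := fun i => F.dop_smooth hrho.1 hrho.2 i
  have evec : ∀ i x, D.vec 0 0 D.z0 i x = D.m0 x * ((D.adjh 0 0 D.z0 i 0 x * pd 0 D.rho0 x
      + D.adjh 0 0 D.z0 i 1 x * pd 1 D.rho0 x) / D.rho0 x
      + D.fq 0 0 D.z0 x * D.vv 0 0 D.z0 i x) := fun i x => by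
    have := (hrho0 x).ne'
    simp only [Dat.vec, Dat.irt, show D.z0.rho = D.rho0 from rfl,
      show D.z0.ir = D.ir0 from rfl, show D.z0.m = D.m0 from rfl, eR, Dat.ir0]
    field_simp
    ring
  have hvec : ∀ i, SP (D.vec 0 0 D.z0 i) := fun i => by
    have e : D.vec 0 0 D.z0 i = fun x => D.m0 x * ((adjg D.g i 0 x * pd 0 D.rho0 x
        + adjg D.g i 1 x * pd 1 D.rho0 x) * D.ir0 x) := funext fun x => by
      rw [evec]
      simp [Dat.fq, Dat.dnu, Dat.adjh, adjg, eh, Dat.ir0, div_eq_mul_inv]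
    have ha : ∀ p k, SP (adjg D.g p k) := fun p k => by
      by_cases h : p = k
      · rw [show adjg D.g p k = D.g.comp (1 - p) (1 - k) from funext fun x => if_pos h]
        exact sp_comp _ _ _
      · rw [show adjg D.g p k = fun x => -D.g.comp p k x from funext fun x => if_neg h]
        exact sp_neg (sp_comp _ _ _)
    rw [e]
    exact sp_mul hm (sp_mul (sp_add (sp_mul (ha i 0) (sp_pd hrho 0))
      (sp_mul (ha i 1) (sp_pd hrho 1))) hir)
  have esrc : D.src 0 0 D.z0 = fun x => pd 0 (D.vec 0 0 D.z0 0) x + pd 1 (D.vec 0 0 D.z0 1) x := by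
    funext x
    rw [funext (evec 0), funext (evec 1)]
    exact (hW x).symm
  have hsrc : SP (D.src 0 0 D.z0) := by
    rw [esrc]; exact sp_add (sp_pd (hvec 0) 0) (sp_pd (hvec 1) 1)
  let P : Par := ⟨1, 1, 0, le_rfl, le_rfl⟩
  have rbd : ∀ {f : E2 → ℝ}, SP f → ∀ s, ∃ M, RB P s f M := fun {f} hf s => by
    obtain ⟨M, hM⟩ := F.smoothMem (cx f) (Complex.ofRealCLM.contDiff.comp hf.1)
      (fun x a b => by simp [cx, hf.2 x a b]) 1 le_rfl s
    obtain ⟨R1, hR1⟩ := hM 0
    exact ⟨M, hR1 P rfl rfl (Or.inl rfl)⟩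
  have hfcpd : ∀ {f : E2 → ℝ}, SP f → ∀ i, fc (cx (pd i f)) = fun n => dsym i n * fc (cx f) n := by
    intro f hf i
    obtain ⟨M, hM⟩ := rbd hf 5
    rw [← F.dop_smooth hf.1 hf.2 i, F.fc_dop (by norm_num : 3 ≤ 4) hM]
  have fc0 : ∀ n, fc (cx fun _ : E2 => (0 : ℝ)) n = 0 := fun n => by simp [fc, cx]
  refine
  { det_pos := hdet
    N0_pos := hN0
    rho0_pos := hrho0
    cond_eq := fun i k x => ?_
    m0_sq := m0sq
    iq0_eq := fun x => by rw [Dat.iq0]; field_simp [(hN0 x).ne']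
    ir0_eq := fun x => by rw [Dat.ir0]; field_simp [(hrho0 x).ne']
    rho0_sq := rhosq
    dir0 := fun i x => ?_
    mean0 := ?_
    popA := ?_
    popL := ?_ }
  · fin_cases i <;> fin_cases k <;>
      simp [Dat.m0, adjg, Metric.cond, Metric.comp, div_eq_inv_mul]
  · rw [F.dop_smooth hir.1 hir.2, eR]
    have h : pd i (fun y => D.rho0 y * D.ir0 y) x = pd i (fun _ => (1 : ℝ)) x := by
      congr 1; funext y; rw [Dat.ir0]; field_simp [(hrho0 y).ne']
    rw [pd_mul hrho hir, pd_const] at h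
    have := hrho0 x
    rw [Dat.ir0]
    simp only [Dat.ir0] at h
    field_simp at h ⊢
    linarith
  · rw [show (fun x => 1 * (D.m0 x * D.v0 0 x)) = pd 1 D.I.v from funext fun x => (hflux x).1,
      fc_zero_re]
    refine BaseAux.mean2_pd_one D.I.smooth_v fun x => ?_
    have := D.I.per_v (x, 0) 0 1
    simp only [Int.cast_zero, Int.cast_one, Prod.mk_add_mk, add_zero, zero_add] at this
    rw [this]; ring
  · set b : Fin 2 → E2 → ℝ := fun i x => 1 * (D.m0 x * D.v0 i x)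
    have hb : ∀ i, SP (b i) := fun i => sp_mul (sp_const 1) (sp_mul hm (hv0 i))
    choose M hM using fun i => rbd (hb i) 4
    have hR2 := R2.of (P := P) (s := 4) (v := b) (M := M 0 + M 1) fun i => (hM i).mono (by
      fin_cases i <;> simp <;> linarith [(hM 0).nonneg, (hM 1).nonneg])
    have hdv : ∀ n, dsym 0 n * fc (cx (b 0)) n + dsym 1 n * fc (cx (b 1)) n = 0 := fun n => by
      have e : (fun x => pd 0 (b 0) x + pd 1 (b 1) x) = fun _ => (0 : ℝ) := funext fun x => by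
        rw [show b 0 = pd 1 D.I.v from funext fun y => (hflux y).1,
          show b 1 = fun y => -pd 0 D.I.v y from funext fun y => (hflux y).2, pd_neg,
          BaseAux.pd_comm D.I.smooth_v]
        ring
      have h := fc_cx_add (Complex.continuous_ofReal.comp (sp_pd (hb 0) 0).1.continuous)
        (Complex.continuous_ofReal.comp (sp_pd (hb 1) 1).1.continuous) n
      rw [e, fc0, hfcpd (hb 0), hfcpd (hb 1)] at h
      exact h.symm
    funext i
    refine F.ext (by norm_num) ((F.pop (by norm_num) hR2).comp i) (RB.zero P 4) fun n => ?_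
    have h := psym_row_div i n _ _ _ (hdv n)
    simp only [mul_zero, sub_zero] at h
    rw [F.fc_pop (by norm_num) hR2, fc0]
    simpa [Fin.sum_univ_two] using h
  · obtain ⟨S, hS⟩ := rbd hsrc 4
    choose V hV using fun i => rbd (hvec i) 4
    have hG := fun i => F.ginv (by norm_num : 3 ≤ 4) hS i
    have hb : ∀ i, RB P 4 (fun x => D.bL 0 0 D.z0 i x) (V i + S) := fun i =>
      (hV i).sub ((hG i).1.weaken (by norm_num))
    have hR2 := R2.of (P := P) (s := 4) (v := fun i x => D.bL 0 0 D.z0 i x) (M := V 0 + V 1 + S)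
      fun i => (hb i).mono (by
        fin_cases i <;> simp <;> linarith [(hV 0).nonneg, (hV 1).nonneg])
    funext i
    refine F.ext (by norm_num) ((F.pop (by norm_num) hR2).comp i) (RB.zero P 4) fun n => ?_
    rw [F.fc_pop (by norm_num) hR2, fc0]
    have eb : ∀ k, fc (cx fun x => D.bL 0 0 D.z0 k x) n
        = fc (cx (D.vec 0 0 D.z0 k)) n - gsym k n * fc (cx (D.src 0 0 D.z0)) n := fun k => by
      have e : (fun x => D.bL 0 0 D.z0 k x)
          = fun x => D.vec 0 0 D.z0 k x + (-1) * Ginv (D.src 0 0 D.z0) k x := by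
        funext x; simp [Dat.bL]; ring
      rw [e, fc_cx_add (hV k).1 ((hG k).1.const_mul (-1)).1, fc_cx_smul, (hG k).2]
      push_cast
      ring
    simp only [Fin.sum_univ_two, eb]
    refine psym_row_div i n _ _ _ ?_
    rw [esrc, fc_cx_add (Complex.continuous_ofReal.comp (sp_pd (hvec 0) 0).1.continuous)
      (Complex.continuous_ofReal.comp (sp_pd (hvec 1) 1).1.continuous), hfcpd (hvec 0),
      hfcpd (hvec 1)]

end Vale.Agent.P205.Sem
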