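import Vale.Agent.P205.CoreAux

/-!
# P205, core: properties of a fixed point of the Newton map
-/

namespace Vale.Agent.P205

open Real
open scoped ContDiff

lemma pd_sub1 {f g : E2 → ℝ} (hf : Differentiable ℝ f) (hg : Differentiable ℝ g) (i : Fin 2)
    (x : E2) : pd i (fun y => f y - g y) x = pd i f x - pd i g x := by
  show fderiv ℝ (f - g) x (e i) = _
  rw [((hf x).hasFDerivAt.sub (hg x).hasFDerivAt).fderiv]; rfl

lemma pd_log {f : E2 → ℝ} (hf : ContDiff ℝ ∞ f) (i : Fin 2) (x : E2) (hx : f x ≠ 0) :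
    pd i (fun y => Real.log (f y)) x = pd i f x / f x := by
  have := ((hf.differentiable (by simp) x).hasFDerivAt.log hx).fderiv
  simp only [pd, this]
  simp [div_eq_inv_mul]

section states
variable (F : Facts) {D : Dat} {η ε : ℝ} {z : St}

include F in
lemma Facts.sp_dop {f : E2 → ℝ} (h : SP f) (i : Fin 2) : SP (Dop i f) := by
  rw [F.dop_smooth h.1 h.2]; exact h.pd i

lemma sp_nu : SP (D.nu η) :=
  (sp_const 1).add ((sp_const η).mul ⟨D.smooth_C, D.per_C⟩)

lemma sp_dnu (i : Fin 2) : SP (D.dnu η i) :=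
  (sp_const η).mul (SP.pd (f := D.C) ⟨D.smooth_C, D.per_C⟩ i)

include F in
lemma sp_sig (hr : SP z.rho) (i : Fin 2) : SP (D.sig η z i) :=
  ((sp_dnu i).mul hr).add (sp_nu.mul (F.sp_dop hr i))

include F in
lemma sp_h (hr : SP z.rho) (i k : Fin 2) : SP (D.h η ε z i k) :=
  (D.g.sp_comp i k).sub ((sp_const ε).mul (((F.sp_dop hr i).mul (F.sp_dop hr k)).add
    ((sp_const (z.kap ^ 2)).mul ((sp_sig F hr i).mul (sp_sig F hr k)))))

include F in
lemma sp_adjh (hr : SP z.rho) (p k : Fin 2) : SP (D.adjh η ε z p k) := by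
  unfold Dat.adjh
  split_ifs
  exacts [sp_h F hr _ _, (sp_h F hr _ _).neg]

include F in
lemma sp_det (hr : SP z.rho) : SP (D.detH η ε z) :=
  ((sp_h F hr 0 0).mul (sp_h F hr 1 1)).sub ((sp_h F hr 0 1).pow 2)

include F in
lemma sp_al (hb : SP z.bet) (i : Fin 2) : SP (D.al z i) := (D.sp_du i).add (F.sp_dop hb i)

include F in
lemma sp_vv (hb : SP z.bet) (hr : SP z.rho) (p : Fin 2) : SP (D.vv η ε z p) :=
  ((sp_adjh F hr p 0).mul (sp_al F hb 0)).add ((sp_adjh F hr p 1).mul (sp_al F hb 1))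

include F in
lemma sp_flux (hv : SP z.iv) (hm : SP z.m) (hb : SP z.bet) (hr : SP z.rho) (i : Fin 2) :
    SP (D.flux η ε z i) := hv.mul (hm.mul (sp_vv F hb hr i))

include F in
lemma sp_nn (hb : SP z.bet) (hr : SP z.rho) : SP (D.nn η ε z) :=
  ((sp_al F hb 0).mul (sp_vv F hb hr 0)).add ((sp_al F hb 1).mul (sp_vv F hb hr 1))

include F in
lemma sp_fq (hv : SP z.iv) (hq : SP z.iq) (hb : SP z.bet) (hr : SP z.rho) :
    SP (D.fq η ε z) :=
  hv.mul (hq.mul (((sp_dnu 0).mul (sp_vv F hb hr 0)).add ((sp_dnu 1).mul (sp_vv F hb hr 1))))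

lemma h_symm (i k : Fin 2) (x : E2) : D.h η ε z i k x = D.h η ε z k i x := by
  have : D.g.comp i k = D.g.comp k i := by
    fin_cases i <;> fin_cases k <;> simp [Metric.comp]
  simp only [Dat.h, this]; ring

lemma h11_pos (x : E2) (hd : 0 < D.detH η ε z x) (hN : 0 < D.nn η ε z x) :
    0 < D.h η ε z 1 1 x := by
  have e : D.h η ε z 1 1 x * D.nn η ε z x
      = (D.h η ε z 1 1 x * D.al z 0 x - D.h η ε z 0 1 x * D.al z 1 x) ^ 2
        + D.detH η ε z x * D.al z 1 x ^ 2 := by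
    simp [Dat.nn, Dat.vv, Dat.adjh, Dat.detH, h_symm 1 0]; ring
  have h0 : 0 ≤ D.h η ε z 1 1 x * D.nn η ε z x := by rw [e]; positivity
  refine lt_of_le_of_ne (nonneg_of_mul_nonneg_left h0 hN) fun h => ?_
  simp only [Dat.detH, ← h, mul_zero] at hd
  linarith [sq_nonneg (D.h η ε z 0 1 x)]

end states

/-- What the immersion needs about a state. -/
structure Sol (D : Dat) (η ε : ℝ) (z : St) : Prop where
  sp_rho : SP z.rho
  sp_bet : SP z.bet
  sp_flux : ∀ i, SP (D.flux η ε z i)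
  iv_nu : ∀ x, z.iv x * D.nu η x = 1
  m_pos : ∀ x, 0 < z.m x
  m_sq : ∀ x, D.detH η ε z x * (z.m x * z.m x) = 1
  nn_pos : ∀ x, 0 < D.nn η ε z x
  kap_pos : 0 < z.kap
  kap_eq : avg2 (D.flux η ε z 0) = z.kap
  div : ∀ x, pd 0 (D.flux η ε z 0) x + pd 1 (D.flux η ε z 1) x = 0
  rel : ∀ x, z.rho x * z.rho x * D.nn η ε z x = D.detH η ε z x

variable {K : Ctx} {D : Dat}

lemma Ctx.sp_near (K : Ctx) (hj : ∀ j, ∃ P, K.Adm P ∧ P.j = j) {f f0 : E2 → ℝ} {δ : ℝ}
    (h0 : Fix K 4 f0) (h : ∀ P, K.Adm P → RB P 4 (fun x => f x - f0 x) δ) : SP f :=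
  K.F.sp_of fun j => by
    obtain ⟨P, hP, hPj⟩ := hj j
    obtain ⟨M, hM⟩ := h0
    exact ⟨P, hPj, _, ((h P hP).add (hM P hP)).congr fun x => sub_add_cancel _ _⟩

/-- A fixed point solves the equations. -/
theorem sol_of (hG : Good K D) (hI : StateIdentStmt) (hB : BaseRel D)
    (hj : ∀ j, ∃ P, K.Adm P ∧ P.j = j) (hq : D.q = 1) {η ε δ : ℝ} {z : St} (hη : |η| ≤ δ)
    (hε : |ε| ≤ δ) (hδ : δ ≤ 1) (hfix : D.T K.t η ε z = z)
    (hc : ∀ P, K.Adm P → Close P z D.z0 fun _ => δ) (hm : ∀ x, 0 < z.m x)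
    (hρ : ∀ x, 0 < z.rho x) (hN : ∀ x, 0 < D.nn η ε z x) (hk : 0 < z.kap) :
    Sol D η ε z := by
  have w5 : ∀ {f}, Fix K 5 f → Fix K 4 f := fun h => h.weaken (by norm_num)
  have sv : SP z.iv := K.sp_near hj (fix_const (by norm_num) 1) fun P hP => (hc P hP).1
  have sm : SP z.m := K.sp_near hj (w5 hG.hm) fun P hP => (hc P hP).2.1
  have sb : SP z.bet := K.sp_near hj (fix_const (by norm_num) 0) fun P hP =>
    (hc P hP).2.2.1.weaken (by norm_num)
  have sq' : SP z.iq := K.sp_near hj (w5 hG.hiq) fun P hP => (hc P hP).2.2.2.2.1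
  have sr : SP z.rho := K.sp_near hj (w5 hG.hrho) fun P hP =>
    (hc P hP).2.2.2.2.2.1.weaken (by norm_num)
  have si : SP z.ir := K.sp_near hj (w5 hG.hir) fun P hP => (hc P hP).2.2.2.2.2.2
  have sF := fun i => sp_flux (η := η) (ε := ε) (D := D) K.F sv sm sb sr i
  have e0 : ∀ x, z.iv x * D.nu η x = 1 := fun x => by
    have := congrFun (congrArg St.iv hfix) x
    simp only [Dat.T] at this
    simp only [Dat.nu]
    linear_combination -this
  have e1 : ∀ x, D.detH η ε z x * (z.m x * z.m x) = 1 := fun x => by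
    have := congrFun (congrArg St.m hfix) x
    simp only [Dat.T] at this
    have h0 : D.m0 x / 2 ≠ 0 := by
      intro h
      have h1 := hB.m0_sq x
      rw [show D.m0 x = 0 by linarith] at h1
      simp at h1
    have h2 : D.m0 x / 2 * (1 - D.detH η ε z x * (z.m x * z.m x)) = 0 := by linarith
    linarith [(mul_eq_zero.1 h2).resolve_left h0]
  have hdet : ∀ x, 0 < D.detH η ε z x := fun x =>
    pos_of_mul_pos_left (by rw [e1]; exact one_pos) (mul_self_nonneg _)
  obtain ⟨P, hP, -⟩ := hj 0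
  have hθ := K.adm_mul P hP
  have divfree : ∀ {b : Fin 2 → E2 → ℝ} {B : ℝ} {c : ℝ}, R2 P 4 b B →
      (∀ x, Spot K.A K.t b x = c) → ∀ x, Dop 0 (b 0) x + Dop 1 (b 1) x = 0 := by
    intro b B c hb hcst x
    have hp := K.F.pop_eq_zero_of_spot_const K.hθ K.hθ1 hθ K.ht.ne' hb hcst
    have := K.F.div_pop hb x
    rw [hp] at this
    simpa [Fin.sum_univ_two, dop_zero K] using this.symm
  have hdiv : ∀ x, pd 0 (D.flux η ε z 0) x + pd 1 (D.flux η ε z 1) x = 0 := fun x => by
    obtain ⟨B0, h0⟩ := (est_flux hG 0).rb hP hη hε hδ (hc P hP)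
    obtain ⟨B1, h1⟩ := (est_flux hG 1).rb hP hη hε hδ (hc P hP)
    have := divfree (b := fun i => D.flux η ε z i) (c := -(fc (cx z.bet) 0).re)
      (R2.of (M := max B0 B1) fun i => by
        fin_cases i
        exacts [h0.mono (le_max_left _ _), h1.mono (le_max_right _ _)]) (fun y => by
        have := congrFun (congrArg St.bet hfix) y
        simp only [Dat.T, Dat.potB, ← hG.hA] at this
        linarith) x
    rwa [K.F.dop_smooth (sF 0).1 (sF 0).2, K.F.dop_smooth (sF 1).1 (sF 1).2] at this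
  have hkap : avg2 (D.flux η ε z 0) = z.kap := by
    have := congrArg St.kap hfix
    simp only [Dat.T, hq, Int.cast_one, div_one] at this
    rwa [mean_eq_avg2 (sF 0).1.continuous] at this
  have e4 : ∀ x, z.iq x * D.nn η ε z x = 1 := fun x => by
    have := congrFun (congrArg St.iq hfix) x
    simp only [Dat.T] at this
    have h0 : D.iq0 x ≠ 0 := right_ne_zero_of_mul_eq_one (hB.iq0_eq x)
    have h2 : D.iq0 x * (1 - D.nn η ε z x * z.iq x) = 0 := by linarith
    linarith [(mul_eq_zero.1 h2).resolve_left h0]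
  have e6 : ∀ x, z.rho x * z.ir x = 1 := fun x => by
    have := congrFun (congrArg St.ir hfix) x
    simp only [Dat.T] at this
    have h0 : D.ir0 x ≠ 0 := right_ne_zero_of_mul_eq_one (hB.ir0_eq x)
    have h2 : D.ir0 x * (1 - z.rho x * z.ir x) = 0 := by linarith
    linarith [(mul_eq_zero.1 h2).resolve_left h0]
  have e5 : ∀ x, D.potL K.t η ε z x - D.potL K.t η ε z 0 + D.pin η ε z / D.c0 = 0 := fun x => by
    have := congrFun (congrArg St.rho hfix) x
    simp only [Dat.T] at this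
    have h2 : D.rho0 x * (D.potL K.t η ε z x - D.potL K.t η ε z 0 + D.pin η ε z / D.c0) = 0 := by
      linarith
    exact (mul_eq_zero.1 h2).resolve_left (hB.rho0_pos x).ne'
  have hpin : D.pin η ε z = 0 := by
    have h0 := e5 0
    have hc0 : D.c0 ≠ 0 := by
      have := hB.N0_pos 0; have := hB.rho0_pos 0; simp only [Dat.c0]; positivity
    simpa [hc0] using h0
  -- the equation of `rho`
  obtain ⟨S0, hS0⟩ := est_src hG
  obtain ⟨Ms, hs⟩ := hS0.rb hP hη hε hδ (hc P hP)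
  have hvec : ∀ i, D.vec η ε z i = fun x => z.m x *
      ((D.adjh η ε z i 0 x * pd 0 z.rho x + D.adjh η ε z i 1 x * pd 1 z.rho x) / z.rho x
        + D.fq η ε z x * D.vv η ε z i x) := fun i => funext fun x => by
    have h1 : z.ir x = 1 / z.rho x := by
      rw [eq_div_iff (hρ x).ne', mul_comm]; exact e6 x
    simp only [Dat.vec, Dat.irt, K.F.dop_smooth sr.1 sr.2, h1]
    field_simp [(hρ x).ne']
    ring
  have svec : ∀ i, SP (D.vec η ε z i) := fun i => by
    rw [hvec i]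
    exact sm.mul (((((sp_adjh K.F sr i 0).mul (sr.pd 0)).add
      ((sp_adjh K.F sr i 1).mul (sr.pd 1))).div sr fun x => (hρ x).ne').add
      ((sp_fq K.F sv sq' sb sr).mul (sp_vv K.F sb sr i)))
  set c := -(fc (cx (D.src η ε z)) 0).re with hcdef
  have hdv : ∀ x, pd 0 (D.vec η ε z 0) x + pd 1 (D.vec η ε z 1) x = D.src η ε z x + c := by
    intro x
    obtain ⟨Q, hQ, hQj⟩ := hj 0
    obtain ⟨Ms', hs'⟩ := hS0.rb hQ hη hε hδ (hc Q hQ)
    have hb : ∀ i, ∃ B, RB Q 4 (fun y => D.bL η ε z i y) B := fun i => by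
      obtain ⟨B, hB'⟩ := K.F.rb_of_sp (svec i) hQj 4
      exact ⟨_, hB'.sub (K.F.ginv (le_refl 3) hs' i).1⟩
    choose B hb using hb
    have hR : R2 Q 4 (fun i => D.bL η ε z i) (2 * max (B 0) (B 1)) := R2.of fun i => by
      fin_cases i
      exacts [(hb 0).mono (le_max_left _ _), (hb 1).mono (le_max_right _ _)]
    have hp := K.F.pop_eq_zero_of_spot_const K.hθ K.hθ1 (K.adm_mul Q hQ) K.ht.ne' hR
      (c := D.potL K.t η ε z 0) fun y => by
        have := e5 y
        simp only [hpin, zero_div, add_zero, Dat.potL, ← hG.hA] at this ⊢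
        linarith
    have h0 := K.F.div_pop hR x
    rw [hp] at h0
    have hz : Dop 0 (D.bL η ε z 0) x + Dop 1 (D.bL η ε z 1) x = 0 := by
      simpa [Fin.sum_univ_two, dop_zero K] using h0.symm
    have hg := K.F.div_ginv hs' x
    rw [Fin.sum_univ_two] at hg
    have key : ∀ i, Dop i (D.bL η ε z i) x
        = pd i (D.vec η ε z i) x - Dop i (Ginv (D.src η ε z) i) x := fun i => by
      rw [(K.F.dop_eq_pd le_rfl (hb i)).2, (K.F.dop_eq_pd le_rfl (K.F.ginv (le_refl 3) hs' i).1).2]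
      exact pd_sub1 ((svec i).1.differentiable (by simp))
        ((K.F.dop_eq_pd le_rfl (K.F.ginv (le_refl 3) hs' i).1).1.differentiable (by norm_num)) i x
    rw [key 0, key 1] at hz
    simp only [hcdef]
    linarith
  -- the candidate `r`
  set r : E2 → ℝ := fun x => Real.sqrt (D.detH η ε z x / D.nn η ε z x) with hrdef
  have sN := sp_nn (η := η) (ε := ε) (D := D) K.F sb sr
  have sr' : SP r := ((sp_det K.F sr).div sN fun x => (hN x).ne').sqrt
    fun x => div_pos (hdet x) (hN x)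
  have hr : ∀ x, 0 < r x := fun x => Real.sqrt_pos.2 (div_pos (hdet x) (hN x))
  have hr2 : ∀ x, r x * r x * D.nn η ε z x = D.detH η ε z x := fun x => by
    rw [hrdef]
    simp only [Real.mul_self_sqrt (div_pos (hdet x) (hN x)).le]
    exact div_mul_cancel₀ _ (hN x).ne'
  have hW := hI K.F D η ε z sv sm sb sq' sr e0 hm e1 hN e4 hdiv r sr' hr hr2
  set W : Fin 2 → E2 → ℝ := fun i x => z.m x *
      ((D.adjh η ε z i 0 x * pd 0 r x + D.adjh η ε z i 1 x * pd 1 r x) / r x
        + D.fq η ε z x * D.vv η ε z i x) with hWdef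
  have hW : ∀ x, pd 0 (W 0) x + pd 1 (W 1) x = D.src η ε z x := hW
  have sW : ∀ i, SP (W i) := fun i =>
    sm.mul (((((sp_adjh K.F sr i 0).mul (sr'.pd 0)).add
      ((sp_adjh K.F sr i 1).mul (sr'.pd 1))).div sr' fun x => (hr x).ne').add
      ((sp_fq K.F sv sq' sb sr).mul (sp_vv K.F sb sr i)))
  set L : E2 → ℝ := fun x => Real.log (z.rho x) - Real.log (r x) with hLdef
  have sL : SP L := (sr.log fun x => (hρ x).ne').sub (sr'.log fun x => (hr x).ne')
  have dL : ∀ k x, pd k L x = pd k z.rho x / z.rho x - pd k r x / r x := fun k x => by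
    rw [hLdef, pd_sub ((sr.log fun x => (hρ x).ne')).1 ((sr'.log fun x => (hr x).ne')).1,
      pd_log sr.1 k x (hρ x).ne', pd_log sr'.1 k x (hr x).ne']
  have hV0 : (fun y => z.m y * D.h η ε z 1 1 y * pd 0 L y
      + -(z.m y * D.h η ε z 0 1 y) * pd 1 L y)
      = fun y => D.vec η ε z 0 y - W 0 y := funext fun y => by
    simp [hvec, hWdef, dL, Dat.adjh]; ring
  have hV1 : (fun y => -(z.m y * D.h η ε z 0 1 y) * pd 0 L y
      + z.m y * D.h η ε z 0 0 y * pd 1 L y)
      = fun y => D.vec η ε z 1 y - W 1 y := funext fun y => by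
    simp [hvec, hWdef, dL, Dat.adjh, h_symm 1 0]; ring
  obtain ⟨-, hLc⟩ := eq_const_of_energy (c := c)
    (a00 := fun y => z.m y * D.h η ε z 1 1 y) (a01 := fun y => -(z.m y * D.h η ε z 0 1 y))
    (a11 := fun y => z.m y * D.h η ε z 0 0 y)
    (sm.mul (sp_h K.F sr 1 1)) (sm.mul (sp_h K.F sr 0 1)).neg (sm.mul (sp_h K.F sr 0 0)) sL
    (fun x => mul_pos (hm x) (h11_pos x (hdet x) (hN x)))
    (fun x => by
      have := mul_pos (mul_pos (hm x) (hm x)) (hdet x)
      simp only [Dat.detH] at this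
      nlinarith)
    (fun x => by
      rw [hV0, hV1, pd_sub (svec 0).1 (sW 0).1, pd_sub (svec 1).1 (sW 1).1]
      linarith [hdv x, hW x])
  have hL0 : L 0 = 0 := by
    have h1 : z.rho 0 * z.rho 0 * D.nn η ε z 0 = D.detH η ε z 0 := by
      simp only [Dat.pin] at hpin; linarith
    have : r 0 = z.rho 0 := by
      simp only [hrdef, ← h1, mul_div_assoc, div_self (hN 0).ne', mul_one]
      exact Real.sqrt_mul_self (hρ 0).le
    simp [hLdef, this]
  refine ⟨sr, sb, sF, e0, hm, e1, hN, hk, hkap, hdiv, fun x => ?_⟩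
  have : z.rho x = r x := Real.log_injOn_pos (hρ x) (hr x) (by
    have := hLc x
    rw [hL0] at this
    simp only [hLdef] at this
    linarith)
  rw [this]
  exact hr2 x

end Vale.Agent.P205
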