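import Vale.Agent.P205.CoreOps

/-!
# P205, core: the approximate inverse of `div (A ∇ ·)` by a Richardson series
-/

namespace Vale.Agent.P205

open Real Filter
open scoped ContDiff ComplexConjugate Topology

/-- A pair of real functions in the weighted space. -/
def R2 (P : Par) (s : ℕ) (v : Fin 2 → E2 → ℝ) (M : ℝ) : Prop := Nb2 P s (fun i => cx (v i)) M

/-- Gradient part of a pair of functions. -/
noncomputable def Pop (v : Fin 2 → E2 → ℝ) (i : Fin 2) : E2 → ℝ :=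
  fun x => ∑ k, (mult (psym i k) (cx (v k)) x).re

/-- `∂ᵢ Δ⁻¹` on a real function. -/
noncomputable def Ginv (f : E2 → ℝ) (i : Fin 2) : E2 → ℝ := fun x => (mult (gsym i) (cx f) x).re

/-- The matrix `1 - t A` applied to a pair. -/
def Res (A : Fin 2 → Fin 2 → E2 → ℝ) (t : ℝ) (v : Fin 2 → E2 → ℝ) (i : Fin 2) : E2 → ℝ :=
  fun x => v i x - t * ∑ k, A i k x * v k x

/-- Terms of the Richardson series. -/
noncomputable def term (A : Fin 2 → Fin 2 → E2 → ℝ) (t : ℝ) (b : Fin 2 → E2 → ℝ) :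
    ℕ → Fin 2 → E2 → ℝ
  | 0 => Pop fun i x => t * b i x
  | k + 1 => Pop (Res A t (term A t b k))

/-- The gradient solution. -/
noncomputable def usol (A : Fin 2 → Fin 2 → E2 → ℝ) (t : ℝ) (b : Fin 2 → E2 → ℝ) (i : Fin 2) :
    E2 → ℝ := fun x => ∑' k, term A t b k i x

/-- The potential of the gradient solution. -/
noncomputable def Spot (A : Fin 2 → Fin 2 → E2 → ℝ) (t : ℝ) (b : Fin 2 → E2 → ℝ) : E2 → ℝ :=
  fun x => ∑ k, Ginv (usol A t b k) k x

/-- `1 - t A` has norm at most `θ`. -/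
def MulBd (P : Par) (A : Fin 2 → Fin 2 → E2 → ℝ) (t θ : ℝ) : Prop :=
  ∀ v M, R2 P 4 v M → R2 P 4 (Res A t v) (θ * M)

lemma conj_gsym (i : Fin 2) (n : ℤ × ℤ) : conj (gsym i (-n)) = gsym i n := by
  fin_cases i <;> simp [gsym, fr, map_div₀, Complex.conj_ofNat] <;> ring

lemma conj_psym (i k : Fin 2) (n : ℤ × ℤ) : conj (psym i k (-n)) = psym i k n := by
  fin_cases i <;> fin_cases k <;> simp [psym, fr, map_div₀]

lemma conj_dsym (i : Fin 2) (n : ℤ × ℤ) : conj (dsym i (-n)) = dsym i n := by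
  fin_cases i <;> simp [dsym, fr, Complex.conj_ofNat]

lemma norm_psym_le (i k : Fin 2) (n : ℤ × ℤ) : ‖psym i k n‖ ≤ 1 := by
  have e : psym i k n = (((fr i n : ℝ) * (fr k n : ℝ)
      / ((n.1 : ℝ) ^ 2 + (n.2 : ℝ) ^ 2) : ℝ) : ℂ) := by simp [psym]
  rw [e, Complex.norm_real, Real.norm_eq_abs, abs_div,
    abs_of_nonneg (by positivity : (0:ℝ) ≤ (n.1 : ℝ) ^ 2 + (n.2 : ℝ) ^ 2)]
  refine div_le_one_of_le₀ ?_ (by positivity)
  fin_cases i <;> fin_cases k <;> simp only [fr, abs_mul] <;> norm_num <;>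
    nlinarith [sq_abs (n.1 : ℝ), sq_abs (n.2 : ℝ), sq_nonneg (|(n.1 : ℝ)| - |(n.2 : ℝ)|),
      sq_nonneg (n.1 : ℝ), sq_nonneg (n.2 : ℝ)]

lemma norm_gsym_le (P : Par) (s : ℕ) (i : Fin 2) (n : ℤ × ℤ) :
    ‖gsym i n‖ * wt P (s + 1) n ≤ 1 * wt P s n := by
  have e : gsym i n = ((-(fr i n : ℝ) / (2 * π * ((n.1 : ℝ) ^ 2 + (n.2 : ℝ) ^ 2)) : ℝ) : ℂ)
      * Complex.I := by
    simp only [gsym]
    push_cast
    rw [div_mul_eq_mul_div, show (2 * (π : ℂ) * Complex.I * ((n.1 : ℂ) ^ 2 + (n.2 : ℂ) ^ 2))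
      = (2 * π * ((n.1 : ℂ) ^ 2 + (n.2 : ℂ) ^ 2)) * Complex.I by ring, div_mul_eq_div_div]
    simp [div_eq_mul_inv]
    ring
  rw [e, norm_mul, Complex.norm_I, mul_one, Complex.norm_real, Real.norm_eq_abs, one_mul,
    abs_div, abs_neg, abs_of_nonneg (by positivity : (0:ℝ) ≤ 2 * π * ((n.1 : ℝ) ^ 2 + (n.2 : ℝ) ^ 2))]
  by_cases hn : n = 0
  · subst hn
    simpa using (wt_pos' P s 0).le
  have hq : 1 ≤ (n.1 : ℝ) ^ 2 + (n.2 : ℝ) ^ 2 := by
    have : 1 ≤ n.1 ^ 2 + n.2 ^ 2 := by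
      rcases eq_or_ne n.1 0 with h | h
      · have h2 : n.2 ≠ 0 := fun h2 => hn (Prod.ext h h2)
        nlinarith [sq_nonneg n.1, sq_pos_of_ne_zero h2]
      · nlinarith [sq_nonneg n.2, sq_pos_of_ne_zero h]
    exact_mod_cast this
  have h4 : wt P (s + 1) n = (1 + len n / P.R0) * wt P s n := by unfold wt; ring
  rw [h4, ← mul_assoc]
  refine mul_le_of_le_one_left (wt_pos' P s n).le ?_
  rw [div_mul_eq_mul_div, div_le_one (by positivity)]
  have hR := P.one_le_R0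
  have hl : (0:ℝ) ≤ len n := by unfold len; positivity
  have h1 : |(fr i n : ℝ)| ≤ len n := by fin_cases i <;> simp [fr, len]
  have h2 : len n / P.R0 ≤ len n := div_le_self hl hR
  have h3 : len n ^ 2 ≤ 2 * ((n.1 : ℝ) ^ 2 + (n.2 : ℝ) ^ 2) := by
    unfold len
    nlinarith [sq_abs (n.1 : ℝ), sq_abs (n.2 : ℝ), sq_nonneg (|(n.1 : ℝ)| - |(n.2 : ℝ)|)]
  nlinarith [mul_le_mul h1 (show 1 + len n / P.R0 ≤ 1 + len n by linarith)
    (add_nonneg zero_le_one (div_nonneg hl (by linarith))) hl,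
    pi_gt_three, sq_nonneg (len n - 1)]

/-- A real multiplier on a real member: coefficients and bounds. -/
lemma Facts.re_mult (F : Facts) {P : Par} {s t : ℕ} (ht : 3 ≤ t) {f : E2 → ℝ} {M : ℝ}
    (hf : RB P s f M) {σ : ℤ × ℤ → ℂ} {K : ℝ} (hK : 0 ≤ K)
    (hσ : ∀ n, ‖σ n‖ * wt P t n ≤ K * wt P s n) (hreal : ∀ n, conj (σ (-n)) = σ n) :
    RB P t (fun x => (mult σ (cx f) x).re) (K * M) ∧
      cx (fun x => (mult σ (cx f) x).re) = mult σ (cx f) ∧
      fc (cx fun x => (mult σ (cx f) x).re) = fun n => σ n * fc (cx f) n := by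
  have hm := F.multB P s t ht σ K hK hσ (cx f) M hf
  have hc := F.fc_mult ht hf hK hσ
  have hfr : ∀ n, conj (fc (cx f) (-n)) = fc (cx f) n := fun n => by
    have := fc_conj (cx f) n
    simp only [cx, Complex.conj_ofReal] at this
    exact this.symm
  have hcont : Continuous fun x => conj (mult σ (cx f) x) := Complex.continuous_conj.comp hm.1
  have e : cx (fun x => (mult σ (cx f) x).re)
      = fun x => (1 / 2 : ℂ) * (mult σ (cx f) x + conj (mult σ (cx f) x)) := by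
    funext x; simp [cx, Complex.add_conj]
  have hcoef : fc (cx fun x => (mult σ (cx f) x).re) = fun n => σ n * fc (cx f) n := by
    funext n
    rw [e, fc_smul, fcC_add hm.1 hcont, fc_conj, hc]
    simp only [map_mul, hreal, hfr]
    ring
  refine ⟨RB.of_re hm, ?_, hcoef⟩
  obtain ⟨C, hC⟩ := F.eval P.R0 P.one_le_R0 t ht
  have h1 := ((hC P rfl).2 _ _ (RB.of_re hm)).1
  rw [← h1, hcoef]
  rfl

lemma R2.comp {P : Par} {s : ℕ} {v : Fin 2 → E2 → ℝ} {M : ℝ} (h : R2 P s v M) (i : Fin 2) :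
    RB P s (v i) M :=
  ⟨(h.1 i).1, (h.1 i).2, h.2.1, fun S => le_trans
    (Finset.single_le_sum (f := fun i => ∑ n ∈ S, (wt P s n * ‖fc (cx (v i)) n‖) ^ 2)
      (fun i _ => Finset.sum_nonneg fun n _ => sq_nonneg _) (Finset.mem_univ i)) (h.2.2 S)⟩

lemma R2.of {P : Par} {s : ℕ} {v : Fin 2 → E2 → ℝ} {M : ℝ} (h : ∀ i, RB P s (v i) M) :
    R2 P s v (2 * M) := by
  have h0 := (h 0).nonneg
  refine ⟨fun i => ⟨(h i).1, (h i).2.1⟩, by positivity, fun S => ?_⟩
  rw [Fin.sum_univ_two]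
  nlinarith [(h 0).2.2.2 S, (h 1).2.2.2 S]

lemma R2.mono {P : Par} {s : ℕ} {v : Fin 2 → E2 → ℝ} {M N : ℝ} (h : R2 P s v M) (hMN : M ≤ N) :
    R2 P s v N := ⟨h.1, h.2.1.trans hMN, fun S => (h.2.2 S).trans (pow_le_pow_left₀ h.2.1 hMN 2)⟩

lemma psym_row (n : ℤ × ℤ) (a : Fin 2 → ℂ) :
    ∑ i, ‖∑ k, psym i k n * a k‖ ^ 2 ≤ ∑ k, ‖a k‖ ^ 2 := by
  simp only [Fin.sum_univ_two]
  by_cases hn : n = 0
  · subst hn; simp [psym, fr]; positivity
  set q : ℂ := (n.1 : ℂ) ^ 2 + (n.2 : ℂ) ^ 2 with hq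
  set d : ℂ := ((n.1 : ℂ) * a 0 + (n.2 : ℂ) * a 1) / q with hd
  have e0 : psym 0 0 n * a 0 + psym 0 1 n * a 1 = (n.1 : ℂ) * d := by
    simp [psym, fr, hd, hq]; ring
  have e1 : psym 1 0 n * a 0 + psym 1 1 n * a 1 = (n.2 : ℂ) * d := by
    simp [psym, fr, hd, hq]; ring
  rw [e0, e1, norm_mul, norm_mul, mul_pow, mul_pow, ← add_mul]
  have hQ : 0 < (n.1 : ℝ) ^ 2 + (n.2 : ℝ) ^ 2 := by
    rcases eq_or_ne n.1 0 with h | h
    · have h2 : (n.2 : ℝ) ≠ 0 := Int.cast_ne_zero.2 fun h2 => hn (Prod.ext h h2)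
      positivity
    · have : (n.1 : ℝ) ≠ 0 := Int.cast_ne_zero.2 h
      positivity
  have nq : ‖q‖ = (n.1 : ℝ) ^ 2 + (n.2 : ℝ) ^ 2 := by
    rw [hq, show (n.1 : ℂ) ^ 2 + (n.2 : ℂ) ^ 2 = (((n.1 : ℝ) ^ 2 + (n.2 : ℝ) ^ 2 : ℝ) : ℂ) by simp,
      Complex.norm_real, Real.norm_eq_abs, abs_of_pos hQ]
  have nI : ∀ m : ℤ, ‖(m : ℂ)‖ = |(m : ℝ)| := fun m => by simp
  have hnum := norm_add_le ((n.1 : ℂ) * a 0) ((n.2 : ℂ) * a 1)
  rw [norm_mul, norm_mul, nI, nI] at hnum
  rw [nI, nI, sq_abs, sq_abs, hd, norm_div, nq, div_pow, ← mul_div_assoc,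
    div_le_iff₀ (by positivity)]
  have h2 := pow_le_pow_left₀ (norm_nonneg _) hnum 2
  have h5 : (|(n.1 : ℝ)| * ‖a 0‖ + |(n.2 : ℝ)| * ‖a 1‖) ^ 2
      ≤ ((n.1 : ℝ) ^ 2 + (n.2 : ℝ) ^ 2) * (‖a 0‖ ^ 2 + ‖a 1‖ ^ 2) := by
    rw [← sq_abs (n.1 : ℝ), ← sq_abs (n.2 : ℝ)]
    nlinarith [sq_nonneg (|(n.1 : ℝ)| * ‖a 1‖ - |(n.2 : ℝ)| * ‖a 0‖)]
  nlinarith [mul_le_mul_of_nonneg_left (h2.trans h5) hQ.le]

lemma norm_psym_wt (P : Par) (s : ℕ) (i k : Fin 2) (n : ℤ × ℤ) :
    ‖psym i k n‖ * wt P s n ≤ 1 * wt P s n :=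
  mul_le_mul_of_nonneg_right (norm_psym_le i k n) (wt_pos' P s n).le

lemma Facts.fc_pop (F : Facts) {P : Par} {s : ℕ} (hs : 3 ≤ s) {v : Fin 2 → E2 → ℝ} {M : ℝ}
    (hv : R2 P s v M) (i : Fin 2) :
    fc (cx (Pop v i)) = fun n => ∑ k, psym i k n * fc (cx (v k)) n := by
  have h := fun k => F.re_mult hs (hv.comp k) zero_le_one (norm_psym_wt P s i k) (conj_psym i k)
  funext n
  have e : cx (Pop v i) = fun x => cx (fun x => (mult (psym i 0) (cx (v 0)) x).re) x
      + cx (fun x => (mult (psym i 1) (cx (v 1)) x).re) x := by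
    funext x; simp [cx, Pop]
  rw [e, fcC_add (h 0).1.1 (h 1).1.1, (h 0).2.2, (h 1).2.2, Fin.sum_univ_two]

lemma Facts.pop (F : Facts) {P : Par} {s : ℕ} (hs : 3 ≤ s) {v : Fin 2 → E2 → ℝ} {M : ℝ}
    (hv : R2 P s v M) : R2 P s (Pop v) M := by
  have h := fun i k => F.re_mult hs (hv.comp k) zero_le_one (norm_psym_wt P s i k) (conj_psym i k)
  have e : ∀ i, Pop v i = fun x => (mult (psym i 0) (cx (v 0)) x).re
      + (mult (psym i 1) (cx (v 1)) x).re := fun i => by funext x; simp [Pop]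
  refine ⟨fun i => ?_, hv.2.1, fun S => le_trans ?_ (hv.2.2 S)⟩
  · have := (h i 0).1.add (h i 1).1
    rw [← e i] at this
    exact ⟨this.1, this.2.1⟩
  rw [Finset.sum_comm]
  refine le_of_le_of_eq (Finset.sum_le_sum fun n _ => ?_) Finset.sum_comm
  simp only [F.fc_pop hs hv, mul_pow, ← Finset.mul_sum]
  exact mul_le_mul_of_nonneg_left (psym_row n fun k => fc (cx (v k)) n) (sq_nonneg _)

lemma Facts.ext (F : Facts) {P : Par} {s : ℕ} (hs : 3 ≤ s) {f h : E2 → ℝ} {M N : ℝ}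
    (hf : RB P s f M) (hh : RB P s h N) (he : ∀ n, fc (cx f) n = fc (cx h) n) : f = h := by
  obtain ⟨C, hC⟩ := F.eval P.R0 P.one_le_R0 s hs
  have h1 := ((hC P rfl).2 _ _ hf).1
  have h2 := ((hC P rfl).2 _ _ hh).1
  rw [funext he, h2] at h1
  funext x
  exact (Complex.ofReal_inj.1 (congrFun h1 x)).symm

lemma fc_cx_add {f h : E2 → ℝ} (hf : Continuous (cx f)) (hh : Continuous (cx h)) (n : ℤ × ℤ) :
    fc (cx fun x => f x + h x) n = fc (cx f) n + fc (cx h) n := by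
  rw [show (cx fun x => f x + h x) = fun x => cx f x + cx h x by funext x; simp [cx], fcC_add hf hh]

lemma fc_cx_smul (f : E2 → ℝ) (a : ℝ) (n : ℤ × ℤ) :
    fc (cx fun x => a * f x) n = a * fc (cx f) n := by
  rw [show (cx fun x => a * f x) = fun x => (a : ℂ) * cx f x by funext x; simp [cx], fc_smul]

lemma R2.add {P : Par} {s : ℕ} {v w : Fin 2 → E2 → ℝ} {M N : ℝ} (hv : R2 P s v M)
    (hw : R2 P s w N) : R2 P s (fun i x => v i x + w i x) (2 * (M + N)) :=
  R2.of fun i => (hv.comp i).add (hw.comp i)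

lemma Facts.pop_add (F : Facts) {P : Par} {s : ℕ} (hs : 3 ≤ s) {v w : Fin 2 → E2 → ℝ} {M N : ℝ}
    (hv : R2 P s v M) (hw : R2 P s w N) (i : Fin 2) :
    Pop (fun i x => v i x + w i x) i = fun x => Pop v i x + Pop w i x := by
  refine F.ext hs ((F.pop hs (hv.add hw)).comp i)
    (((F.pop hs hv).comp i).add ((F.pop hs hw).comp i)) fun n => ?_
  rw [fc_cx_add ((F.pop hs hv).comp i).1 ((F.pop hs hw).comp i).1, F.fc_pop hs (hv.add hw),
    F.fc_pop hs hv, F.fc_pop hs hw, ← Finset.sum_add_distrib]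
  refine Finset.sum_congr rfl fun k _ => ?_
  rw [fc_cx_add (hv.comp k).1 (hw.comp k).1]
  ring

lemma R2.neg {P : Par} {s : ℕ} {v : Fin 2 → E2 → ℝ} {M : ℝ} (hv : R2 P s v M) :
    R2 P s (fun i x => -v i x) (2 * M) := R2.of fun i => (hv.comp i).neg

lemma Res_add (A : Fin 2 → Fin 2 → E2 → ℝ) (t : ℝ) (v w : Fin 2 → E2 → ℝ) :
    Res A t (fun i x => v i x + w i x) = fun i x => Res A t v i x + Res A t w i x := by
  funext i x
  simp [Res, Fin.sum_univ_two]
  ring

section series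
variable {P : Par} {A : Fin 2 → Fin 2 → E2 → ℝ} {t θ : ℝ}

lemma Facts.step (F : Facts) (hA : MulBd P A t θ) {v : Fin 2 → E2 → ℝ} {M : ℝ}
    (hv : R2 P 4 v M) : R2 P 4 (Pop (Res A t v)) (θ * M) := F.pop (by norm_num) (hA v M hv)

lemma Facts.term_bd (F : Facts) (hA : MulBd P A t θ) {b : Fin 2 → E2 → ℝ} {B : ℝ}
    (hb : R2 P 4 b B) : ∀ k, R2 P 4 (term A t b k) (θ ^ k * (2 * (|t| * B))) := by
  intro k
  induction k with
  | zero =>
    have := F.pop (by norm_num) (R2.of (P := P) (s := 4) fun i => (hb.comp i).const_mul t)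
    simpa [term] using this
  | succ k ih =>
    have := F.step hA ih
    simpa [term, pow_succ', mul_assoc] using this

lemma Facts.sup_le (F : Facts) (R0 : ℝ) (h0 : 1 ≤ R0) : ∃ C, 0 ≤ C ∧ ∀ P : Par, P.R0 = R0 →
    ∀ f M, RB P 4 f M → ∀ x, |f x| ≤ C * M := by
  obtain ⟨C, hC⟩ := F.eval R0 h0 4 (by norm_num)
  refine ⟨|C|, abs_nonneg _, fun P hP f M hf x => ?_⟩
  have := ((hC P hP).2 _ _ hf).2 x
  simp only [cx, Complex.norm_real, Real.norm_eq_abs] at this
  exact this.trans (mul_le_mul_of_nonneg_right (le_abs_self C) hf.nonneg)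

lemma Facts.usol_tail (F : Facts) (hθ : 0 ≤ θ) (hθ1 : θ < 1) (hA : MulBd P A t θ)
    {b : Fin 2 → E2 → ℝ} {B : ℝ} (hb : R2 P 4 b B) (i : Fin 2) :
    (∀ x, Summable fun k => term A t b k i x) ∧ ∀ N, RB P 4
      (fun x => usol A t b i x - ∑ k ∈ Finset.range N, term A t b k i x)
      (2 * (|t| * B) * θ ^ N / (1 - θ)) := by
  obtain ⟨C, hC0, hC⟩ := F.sup_le P.R0 P.one_le_R0
  set E := 2 * (|t| * B) with hE
  have hterm := F.term_bd hA hb
  have hsum : ∀ x, Summable fun k => term A t b k i x := fun x =>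
    Summable.of_norm_bounded (((summable_geometric_of_lt_one hθ hθ1).mul_right E).mul_left C)
      fun k => hC P rfl _ _ ((hterm k).comp i) x
  refine ⟨hsum, ?_⟩
  set S : ℕ → E2 → ℂ := fun N x => ((∑ k ∈ Finset.range N, term A t b k i x : ℝ) : ℂ) with hS
  have h00 : Nb P 4 (S 0) 0 := by
    have e : S 0 = cx fun _ => (0 : ℝ) := by funext x; simp [S, cx]
    rw [e]; exact RB.zero P 4
  obtain ⟨l, hl⟩ := F.compl P 4 (by norm_num) S E θ hθ hθ1 ⟨0, h00⟩ fun k => by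
    have e : (fun x => S (k + 1) x - S k x) = cx (term A t b k i) := by
      funext x; simp [S, cx, Finset.sum_range_succ]
    rw [e, mul_comm]
    exact (hterm k).comp i
  obtain ⟨C', hC'⟩ := F.eval P.R0 P.one_le_R0 4 (by norm_num)
  have hlim : ∀ x, l x = ((usol A t b i x : ℝ) : ℂ) := by
    intro x
    have h1 : Tendsto (fun N => S N x) atTop (𝓝 ((usol A t b i x : ℝ) : ℂ)) :=
      (Complex.continuous_ofReal.tendsto _).comp (hsum x).hasSum.tendsto_sum_nat
    have h2 : Tendsto (fun N => S N x) atTop (𝓝 (l x)) := by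
      rw [tendsto_iff_norm_sub_tendsto_zero]
      refine squeeze_zero (fun N => norm_nonneg _) (fun N => ?_)
        (g := fun N => C' * (E * θ ^ N / (1 - θ))) ?_
      · rw [norm_sub_rev]; exact ((hC' P rfl).2 _ _ (hl N)).2 x
      · have := ((tendsto_pow_atTop_nhds_zero_of_lt_one hθ hθ1).const_mul E).div_const (1 - θ)
        simpa using this.const_mul C'
    exact tendsto_nhds_unique h2 h1
  intro N
  have e : cx (fun x => usol A t b i x - ∑ k ∈ Finset.range N, term A t b k i x)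
      = fun x => l x - S N x := by
    funext x; simp [cx, S, hlim]
  show Nb P 4 (cx _) _
  rw [e]
  exact hl N

lemma Facts.usol_bd (F : Facts) (hθ : 0 ≤ θ) (hθ1 : θ < 1) (hA : MulBd P A t θ)
    {b : Fin 2 → E2 → ℝ} {B : ℝ} (hb : R2 P 4 b B) (i : Fin 2) :
    (∀ x, Summable fun k => term A t b k i x) ∧
      RB P 4 (usol A t b i) (2 * (|t| * B) / (1 - θ)) := by
  obtain ⟨h1, h2⟩ := F.usol_tail hθ hθ1 hA hb i
  exact ⟨h1, by simpa using h2 0⟩

lemma Facts.usol_eq (F : Facts) (hθ : 0 ≤ θ) (hθ1 : θ < 1) (hA : MulBd P A t θ)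
    {b : Fin 2 → E2 → ℝ} {B : ℝ} (hb : R2 P 4 b B) :
    usol A t b = fun i x => Pop (fun i x => t * b i x) i x + Pop (Res A t (usol A t b)) i x := by
  obtain ⟨C, hC0, hC⟩ := F.sup_le P.R0 P.one_le_R0
  set E := 2 * (|t| * B) with hE
  have hu : ∀ i, RB P 4 (usol A t b i) (E / (1 - θ)) := fun i => (F.usol_bd hθ hθ1 hA hb i).2
  have hterm := F.term_bd hA hb
  funext i x
  set v : ℕ → Fin 2 → E2 → ℝ := fun N i x => usol A t b i x - ∑ k ∈ Finset.range N, term A t b k i x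
  have hv : ∀ N, ∃ M, R2 P 4 (v N) M := by
    intro N
    induction N with
    | zero =>
      refine ⟨2 * (E / (1 - θ)), R2.of fun i => ?_⟩
      simpa [v] using hu i
    | succ N ih =>
      obtain ⟨M, hM⟩ := ih
      refine ⟨2 * (M + 2 * (θ ^ N * E)), ?_⟩
      have := hM.add (hterm N).neg
      convert this using 1
      funext i x; simp [v, Finset.sum_range_succ]; ring
  have hlin : ∀ N, Pop (Res A t (v N)) i x = Pop (Res A t (usol A t b)) i x
      - ∑ k ∈ Finset.range N, term A t b (k + 1) i x := by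
    intro N
    induction N with
    | zero =>
      have : v 0 = usol A t b := by funext i x; simp [v]
      simp [this]
    | succ N ih =>
      obtain ⟨M, hM⟩ := hv (N + 1)
      have e : v N = fun i x => v (N + 1) i x + term A t b N i x := by
        funext i x; simp [v, Finset.sum_range_succ]; ring
      have h2 := congrFun (F.pop_add (by norm_num) (hA _ _ hM) (hA _ _ (hterm N)) i) x
      rw [← Res_add, ← e] at h2
      rw [Finset.sum_range_succ, show term A t b (N + 1) = Pop (Res A t (term A t b N)) from rfl]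
      linarith
  have hsum := fun i x => (F.usol_bd hθ hθ1 hA hb i).1 x
  have hsmall : Tendsto (fun N => Pop (Res A t (v N)) i x) atTop (𝓝 0) := by
    refine squeeze_zero_norm (a := fun N => C * (θ * (2 * (θ ^ N * E / (1 - θ))))) (fun N => ?_) ?_
    · refine hC P rfl _ _ ((F.step hA (R2.of fun i => ?_)).comp i) x
      have h := (F.usol_tail hθ hθ1 hA hb i).2 N
      rwa [mul_comm _ (θ ^ N)] at h
    · have := ((tendsto_pow_atTop_nhds_zero_of_lt_one hθ hθ1).mul_const E).div_const (1 - θ)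
      simpa using (((this.const_mul 2).const_mul θ).const_mul C)
  have h3 : Tendsto (fun N => Pop (Res A t (v N)) i x) atTop
      (𝓝 (Pop (Res A t (usol A t b)) i x - ∑' k, term A t b (k + 1) i x)) := by
    simp only [hlin]
    exact ((summable_nat_add_iff 1).2 (hsum i x)).hasSum.tendsto_sum_nat.const_sub _
  have h4 := tendsto_nhds_unique h3 hsmall
  show ∑' k, term A t b k i x = _
  rw [(hsum i x).tsum_eq_zero_add]
  show Pop (fun i x => t * b i x) i x + _ = _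
  linarith

lemma Facts.step_unique (F : Facts) (hθ : 0 ≤ θ) (hθ1 : θ < 1) (hA : MulBd P A t θ)
    {v : Fin 2 → E2 → ℝ} {M : ℝ} (hv : R2 P 4 v M) (he : Pop (Res A t v) = v) : v = 0 := by
  obtain ⟨C, hC0, hC⟩ := F.sup_le P.R0 P.one_le_R0
  have h : ∀ k : ℕ, R2 P 4 v (θ ^ k * M) := by
    intro k
    induction k with
    | zero => simpa using hv
    | succ k ih =>
      have := F.step hA ih
      rw [he] at this
      simpa [pow_succ', mul_assoc] using this
  funext i x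
  have h2 : |v i x| ≤ 0 := ge_of_tendsto' (by
    simpa using ((tendsto_pow_atTop_nhds_zero_of_lt_one hθ hθ1).mul_const M).const_mul C)
    fun k => hC P rfl _ _ ((h k).comp i) x
  simpa using h2

lemma Facts.usol_add (F : Facts) (hθ : 0 ≤ θ) (hθ1 : θ < 1) (hA : MulBd P A t θ)
    {b c : Fin 2 → E2 → ℝ} {B C : ℝ} (hb : R2 P 4 b B) (hc : R2 P 4 c C) :
    usol A t (fun i x => b i x + c i x) = fun i x => usol A t b i x + usol A t c i x := by
  have hu := R2.of (P := P) (s := 4) fun i => ((F.usol_bd hθ hθ1 hA hb i).2).mono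
    (le_max_left _ (2 * (|t| * C) / (1 - θ)))
  have hv := R2.of (P := P) (s := 4) fun i => ((F.usol_bd hθ hθ1 hA hc i).2).mono
    (le_max_right (2 * (|t| * B) / (1 - θ)) _)
  have hbc := hb.add hc
  have hw := R2.of (P := P) (s := 4) fun i => (F.usol_bd hθ hθ1 hA hbc i).2
  have tb : ∀ {b : Fin 2 → E2 → ℝ} {B : ℝ}, R2 P 4 b B →
      R2 P 4 (fun i x => t * b i x) (2 * (|t| * B)) :=
    fun h => R2.of fun i => (h.comp i).const_mul t
  set d : Fin 2 → E2 → ℝ := fun i x => usol A t (fun i x => b i x + c i x) i x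
    + -(usol A t b i x + usol A t c i x) with hd
  have hd0 : R2 P 4 d _ := hw.add (hu.add hv).neg
  have e : usol A t (fun i x => b i x + c i x) = fun i x => d i x
      + (usol A t b i x + usol A t c i x) := by funext i x; simp [d]; ring
  have heq : Pop (Res A t d) = d := by
    funext i x
    have h1 := congrFun (congrFun (F.usol_eq hθ hθ1 hA hbc) i) x
    have h2 := congrFun (congrFun (F.usol_eq hθ hθ1 hA hb) i) x
    have h3 := congrFun (congrFun (F.usol_eq hθ hθ1 hA hc) i) x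
    have h4 := congrFun (F.pop_add (by norm_num) (tb hb) (tb hc) i) x
    have h5 := congrFun (F.pop_add (by norm_num) (hA _ _ hd0) (hA _ _ (hu.add hv)) i) x
    have h6 := congrFun (F.pop_add (by norm_num) (hA _ _ hu) (hA _ _ hv) i) x
    rw [← Res_add] at h5 h6
    rw [← e] at h5
    simp only [← mul_add] at h4
    have : d i x = usol A t (fun i x => b i x + c i x) i x
        + -(usol A t b i x + usol A t c i x) := rfl
    linarith
  have h0 := F.step_unique hθ hθ1 hA hd0 heq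
  rw [e, h0]
  simp

lemma Facts.ginv (F : Facts) {P : Par} {s : ℕ} (hs : 3 ≤ s) {f : E2 → ℝ} {M : ℝ}
    (hf : RB P s f M) (i : Fin 2) :
    RB P (s + 1) (Ginv f i) M ∧ fc (cx (Ginv f i)) = fun n => gsym i n * fc (cx f) n := by
  have := F.re_mult (by omega : 3 ≤ s + 1) hf zero_le_one (norm_gsym_le P s i) (conj_gsym i)
  refine ⟨?_, this.2.2⟩
  have h1 := this.1
  rwa [one_mul] at h1

lemma Facts.fc_dop (F : Facts) {P : Par} {s : ℕ} (hs : 3 ≤ s) {f : E2 → ℝ} {M : ℝ}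
    (hf : RB P (s + 1) f M) (i : Fin 2) :
    fc (cx (Dop i f)) = fun n => dsym i n * fc (cx f) n :=
  (F.re_mult hs hf (by have := P.one_le_R0; positivity) (norm_dsym_wt P s i) (conj_dsym i)).2.2

lemma Facts.spot_fc (F : Facts) (hθ : 0 ≤ θ) (hθ1 : θ < 1) (hA : MulBd P A t θ)
    {b : Fin 2 → E2 → ℝ} {B : ℝ} (hb : R2 P 4 b B) :
    RB P 5 (Spot A t b) (2 * (2 * (|t| * B) / (1 - θ))) ∧
      fc (cx (Spot A t b)) = fun n => ∑ k, gsym k n * fc (cx (usol A t b k)) n := by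
  have h := fun k => F.ginv (by norm_num) (F.usol_bd hθ hθ1 hA hb k).2 k
  have e : Spot A t b = fun x => Ginv (usol A t b 0) 0 x + Ginv (usol A t b 1) 1 x := by
    funext x; simp [Spot]
  refine ⟨?_, funext fun n => ?_⟩
  · rw [e, two_mul]; exact (h 0).1.add (h 1).1
  · rw [e, fc_cx_add (h 0).1.1 (h 1).1.1, (h 0).2, (h 1).2, Fin.sum_univ_two]

lemma Facts.spot_add (F : Facts) (hθ : 0 ≤ θ) (hθ1 : θ < 1) (hA : MulBd P A t θ)
    {b c : Fin 2 → E2 → ℝ} {B C : ℝ} (hb : R2 P 4 b B) (hc : R2 P 4 c C) :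
    Spot A t (fun i x => b i x + c i x) = fun x => Spot A t b x + Spot A t c x := by
  have h1 := F.spot_fc hθ hθ1 hA (hb.add hc)
  have h2 := F.spot_fc hθ hθ1 hA hb
  have h3 := F.spot_fc hθ hθ1 hA hc
  refine F.ext (by norm_num) h1.1 (h2.1.add h3.1) fun n => ?_
  rw [fc_cx_add h2.1.1 h3.1.1, h1.2, h2.2, h3.2, ← Finset.sum_add_distrib,
    F.usol_add hθ hθ1 hA hb hc]
  refine Finset.sum_congr rfl fun k _ => ?_
  rw [fc_cx_add (F.usol_bd hθ hθ1 hA hb k).2.1 (F.usol_bd hθ hθ1 hA hc k).2.1]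
  ring

lemma dsym_gsym (i k : Fin 2) (n : ℤ × ℤ) : dsym i n * gsym k n = psym i k n := by
  unfold dsym gsym psym
  rw [← mul_div_assoc, show 2 * (π : ℂ) * (fr i n : ℂ) * Complex.I * (fr k n : ℂ)
    = (2 * π * Complex.I) * ((fr i n : ℂ) * (fr k n : ℂ)) by ring,
    mul_div_mul_left _ _ (by simp [pi_ne_zero, Complex.I_ne_zero])]

lemma psym_psym (i l : Fin 2) (n : ℤ × ℤ) :
    psym i 0 n * psym 0 l n + psym i 1 n * psym 1 l n = psym i l n := by
  by_cases hn : (n.1 : ℂ) ^ 2 + (n.2 : ℂ) ^ 2 = 0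
  · simp [psym, hn]
  · fin_cases i <;> fin_cases l <;> simp [psym, fr] <;> field_simp

lemma Facts.fc_pop_pop (F : Facts) {v : Fin 2 → E2 → ℝ} {M : ℝ} (hv : R2 P 4 v M) (i : Fin 2)
    (n : ℤ × ℤ) : ∑ k, psym i k n * fc (cx (Pop v k)) n = fc (cx (Pop v i)) n := by
  simp only [F.fc_pop (by norm_num) hv, Fin.sum_univ_two]
  linear_combination fc (cx (v 0)) n * psym_psym i 0 n + fc (cx (v 1)) n * psym_psym i 1 n

lemma Facts.usol_grad (F : Facts) (hθ : 0 ≤ θ) (hθ1 : θ < 1) (hA : MulBd P A t θ)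
    {b : Fin 2 → E2 → ℝ} {B : ℝ} (hb : R2 P 4 b B) (i : Fin 2) (n : ℤ × ℤ) :
    ∑ k, psym i k n * fc (cx (usol A t b k)) n = fc (cx (usol A t b i)) n := by
  have hu := R2.of (P := P) (s := 4) fun i => (F.usol_bd hθ hθ1 hA hb i).2
  have htb := R2.of (P := P) (s := 4) fun i => (hb.comp i).const_mul t
  have e := fun k => congrFun (F.usol_eq hθ hθ1 hA hb) k
  have e' : ∀ k, fc (cx (usol A t b k)) n
      = fc (cx (Pop (fun i x => t * b i x) k)) n + fc (cx (Pop (Res A t (usol A t b)) k)) n :=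
    fun k => by
      conv_lhs => rw [e k]
      exact fc_cx_add ((F.pop (by norm_num) htb).comp k).1 ((F.step hA hu).comp k).1 n
  simp only [e', mul_add, Finset.sum_add_distrib, F.fc_pop_pop htb, F.fc_pop_pop (hA _ _ hu)]

/-- The gradient of the potential. -/
lemma Facts.dop_spot (F : Facts) (hθ : 0 ≤ θ) (hθ1 : θ < 1) (hA : MulBd P A t θ)
    {b : Fin 2 → E2 → ℝ} {B : ℝ} (hb : R2 P 4 b B) (i : Fin 2) :
    Dop i (Spot A t b) = usol A t b i := by
  have h := F.spot_fc hθ hθ1 hA hb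
  refine F.ext (by norm_num) (F.dop (by norm_num : 3 ≤ 4) h.1 i) (F.usol_bd hθ hθ1 hA hb i).2
    fun n => ?_
  simp only [F.fc_dop (by norm_num : 3 ≤ 4) h.1, h.2]
  rw [Finset.mul_sum, ← F.usol_grad hθ hθ1 hA hb i n]
  refine Finset.sum_congr rfl fun k _ => ?_
  rw [← mul_assoc, dsym_gsym]

/-- The operator inverts `div (A ∇ ·)` on potentials. -/
lemma Facts.spot_exact (F : Facts) (hθ : 0 ≤ θ) (hθ1 : θ < 1) (hA : MulBd P A t θ)
    {w : E2 → ℝ} {W : ℝ} (hw : RB P 5 w W) {B : ℝ}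
    (hb : R2 P 4 (fun i x => ∑ k, A i k x * Dop k w x) B) :
    ∀ x, Spot A t (fun i x => ∑ k, A i k x * Dop k w x) x = w x - (fc (cx w) 0).re := by
  set b : Fin 2 → E2 → ℝ := fun i x => ∑ k, A i k x * Dop k w x with hbdef
  have hDw := fun k => F.dop (by norm_num : 3 ≤ 4) hw k
  have hD := R2.of hDw
  have htb := R2.of (P := P) (s := 4) fun i => (hb.comp i).const_mul t
  have hsum : (fun i x => Res A t (fun k => Dop k w) i x + t * b i x) = fun i => Dop i w := by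
    funext i x; simp [Res, b]
  have hfix : ∀ i x, Dop i w x = Pop (fun i x => t * b i x) i x
      + Pop (Res A t fun k => Dop k w) i x := by
    intro i x
    have h := congrFun (F.pop_add (by norm_num) (hA _ _ hD) htb i) x
    rw [hsum] at h
    have e : Pop (fun k => Dop k w) i = Dop i w := by
      refine F.ext (by norm_num) ((F.pop (by norm_num) hD).comp i) (hDw i) fun n => ?_
      simp only [F.fc_pop (by norm_num) hD, F.fc_dop (by norm_num : 3 ≤ 4) hw, Fin.sum_univ_two,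
        ← dsym_gsym]
      by_cases hn : (n.1 : ℂ) ^ 2 + (n.2 : ℂ) ^ 2 = 0
      · have h2 : ((n.1 ^ 2 + n.2 ^ 2 : ℤ) : ℂ) = 0 := by exact_mod_cast hn
        have h3 : n.1 ^ 2 + n.2 ^ 2 = 0 := Int.cast_eq_zero.1 h2
        have h4 : n.1 = 0 := by nlinarith [sq_nonneg n.1, sq_nonneg n.2]
        have h5 : n.2 = 0 := by nlinarith [sq_nonneg n.1, sq_nonneg n.2]
        fin_cases i <;> simp [dsym, gsym, fr, h4, h5]
      · fin_cases i <;> simp [dsym, gsym, fr] <;> field_simp [Complex.I_ne_zero, pi_ne_zero] <;>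
          ring
    rw [e] at h
    linarith
  have hu := R2.of (P := P) (s := 4) fun i => (F.usol_bd hθ hθ1 hA hb i).2
  have hdiff := hu.add hD.neg
  have hz := F.step_unique hθ hθ1 hA hdiff (by
    funext i x
    have h1 := congrFun (congrFun (F.usol_eq hθ hθ1 hA hb) i) x
    have h5 := congrFun (F.pop_add (by norm_num) (hA _ _ hdiff) (hA _ _ hD) i) x
    rw [← Res_add] at h5
    simp only [neg_add_cancel_right] at h5
    have h2 := hfix i x
    show _ = usol A t b i x + -Dop i w x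
    linarith)
  have husol : ∀ k, usol A t b k = Dop k w := fun k => funext fun x => by
    have := congrFun (congrFun hz k) x
    simp only [Pi.zero_apply] at this
    linarith
  have h := F.spot_fc hθ hθ1 hA hb
  obtain ⟨C, hC⟩ := F.eval P.R0 P.one_le_R0 5 (by norm_num)
  intro x
  have hS := ((hC P rfl).2 _ _ h.1).1
  have hW := ((hC P rfl).2 _ _ hw).1
  have hco : ∀ n, fc (cx (Spot A t b)) n = if n = 0 then 0 else fc (cx w) n := by
    intro n
    rw [h.2]
    simp only [husol, F.fc_dop (by norm_num : 3 ≤ 4) hw, Fin.sum_univ_two]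
    split
    · next hn => subst hn; simp [gsym, fr]
    · next hn =>
        have hq : (n.1 : ℂ) ^ 2 + (n.2 : ℂ) ^ 2 ≠ 0 := fun hq => hn (by
          have h2 : ((n.1 ^ 2 + n.2 ^ 2 : ℤ) : ℂ) = 0 := by exact_mod_cast hq
          have h3 : n.1 ^ 2 + n.2 ^ 2 = 0 := Int.cast_eq_zero.1 h2
          exact Prod.ext (by nlinarith [sq_nonneg n.1, sq_nonneg n.2] : n.1 = 0)
            (by nlinarith [sq_nonneg n.1, sq_nonneg n.2] : n.2 = 0))
        simp [gsym, dsym, fr]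
        field_simp [Complex.I_ne_zero, pi_ne_zero]
  have hsm := ((hC P rfl).1 _ _ hw.2.2).1
  have hs1 : Summable fun n => fc (cx w) n * chr n x := by
    refine Summable.of_norm_bounded hsm fun n => ?_
    simp [chr, norm_mul, Complex.norm_exp]
  have key : (Spot A t b x : ℂ) = (w x : ℂ) - fc (cx w) 0 := by
    have e1 : (w x : ℂ) = ∑' n, fc (cx w) n * chr n x := (congrFun hW x).symm
    have e2 : (Spot A t b x : ℂ) = ∑' n, (if n = 0 then 0 else fc (cx w) n * chr n x) := by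
      refine (congrFun hS x).symm.trans (tsum_congr fun n => ?_)
      rw [hco]; split <;> simp
    rw [e2, e1, hs1.tsum_eq_add_tsum_ite 0]
    simp [chr]
  have := congrArg Complex.re key
  simpa using this

/-- A constant potential means a divergence free argument. -/
lemma Facts.pop_eq_zero_of_spot_const (F : Facts) (hθ : 0 ≤ θ) (hθ1 : θ < 1) (hA : MulBd P A t θ)
    (ht : t ≠ 0) {b : Fin 2 → E2 → ℝ} {B : ℝ} (hb : R2 P 4 b B) {c : ℝ}
    (hc : ∀ x, Spot A t b x = c) : Pop b = fun _ _ => 0 := by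
  have h := F.spot_fc hθ hθ1 hA hb
  have hz : usol A t b = fun _ _ => 0 := by
    funext i x
    rw [← F.dop_spot hθ hθ1 hA hb i, (F.dop_eq_pd (by norm_num : 4 ≤ 5) h.1).2, pd, funext hc]
    simp
  funext i
  refine F.ext (by norm_num) ((F.pop (by norm_num) hb).comp i) (RB.zero P 4) fun n => ?_
  have htb := R2.of (P := P) (s := 4) fun i => (hb.comp i).const_mul t
  have e : Pop (fun i x => t * b i x) i = fun _ => 0 := by
    funext x
    have := congrFun (congrFun (F.usol_eq hθ hθ1 hA hb) i) x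
    have h0 : Res A t (fun _ _ => (0 : ℝ)) = fun _ _ => 0 := by funext i x; simp [Res]
    rw [hz, h0] at this
    have hp : Pop (fun _ _ => (0 : ℝ)) i x = 0 := by
      simp [Pop, cx, mult, fc, ev]
    linarith
  have h1 : fc (cx (Pop (fun i x => t * b i x) i)) n = fc (cx fun _ => (0 : ℝ)) n := by rw [e]
  simp only [F.fc_pop (by norm_num) htb, fc_cx_smul, Fin.sum_univ_two] at h1
  have h2 : fc (cx fun _ => (0 : ℝ)) n = 0 := by simp [fc, cx]
  rw [h2] at h1 ⊢
  simp only [F.fc_pop (by norm_num) hb, Fin.sum_univ_two]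
  have h3 : (t : ℂ) * (psym i 0 n * fc (cx (b 0)) n + psym i 1 n * fc (cx (b 1)) n) = 0 := by
    linear_combination h1
  exact (mul_eq_zero.1 h3).resolve_left (by exact_mod_cast ht)

end series

section divergence

lemma dsym_psym (k : Fin 2) (n : ℤ × ℤ) :
    dsym 0 n * psym 0 k n + dsym 1 n * psym 1 k n = dsym k n := by
  by_cases hq : (n.1 : ℂ) ^ 2 + (n.2 : ℂ) ^ 2 = 0
  · have h2 : ((n.1 ^ 2 + n.2 ^ 2 : ℤ) : ℂ) = 0 := by exact_mod_cast hq
    have h3 : n.1 ^ 2 + n.2 ^ 2 = 0 := Int.cast_eq_zero.1 h2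
    have h4 : n.1 = 0 := by nlinarith [sq_nonneg n.1, sq_nonneg n.2]
    have h5 : n.2 = 0 := by nlinarith [sq_nonneg n.1, sq_nonneg n.2]
    fin_cases k <;> simp [dsym, psym, fr, h4, h5]
  · fin_cases k <;> simp [dsym, psym, fr] <;> field_simp <;> ring

/-- The divergence sees only the gradient part. -/
lemma Facts.div_pop (F : Facts) {P : Par} {b : Fin 2 → E2 → ℝ} {B : ℝ} (hb : R2 P 4 b B) (x : E2) :
    ∑ i, Dop i (Pop b i) x = ∑ i, Dop i (b i) x := by
  have h1 := fun i => F.dop (by norm_num : 3 ≤ 3) ((F.pop (by norm_num) hb).comp i) i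
  have h2 := fun i => F.dop (by norm_num : 3 ≤ 3) (hb.comp i) i
  have key := F.ext (le_refl 3) ((h1 0).add (h1 1)) ((h2 0).add (h2 1)) fun n => by
    rw [fc_cx_add (h1 0).1 (h1 1).1, fc_cx_add (h2 0).1 (h2 1).1]
    simp only [F.fc_dop (le_refl 3) ((F.pop (by norm_num) hb).comp _), F.fc_dop (le_refl 3)
      (hb.comp _), F.fc_pop (by norm_num) hb, Fin.sum_univ_two]
    linear_combination fc (cx (b 0)) n * dsym_psym 0 n + fc (cx (b 1)) n * dsym_psym 1 n
  simpa [Fin.sum_univ_two] using congrFun key x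

/-- The divergence of `∇ Δ⁻¹ f` is `f` minus its mean. -/
lemma Facts.div_ginv (F : Facts) {P : Par} {f : E2 → ℝ} {M : ℝ} (hf : RB P 3 f M) (x : E2) :
    ∑ i, Dop i (Ginv f i) x = f x - (fc (cx f) 0).re := by
  have hg := fun i => F.ginv (le_refl 3) hf i
  have h1 := fun i => F.dop (le_refl 3) (hg i).1 i
  obtain ⟨C, hC⟩ := F.eval P.R0 P.one_le_R0 3 le_rfl
  have hsum := (h1 0).add (h1 1)
  have hS := ((hC P rfl).2 _ _ hsum).1
  have hW := ((hC P rfl).2 _ _ hf).1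
  have hco : ∀ n, fc (cx fun x => Dop 0 (Ginv f 0) x + Dop 1 (Ginv f 1) x) n
      = if n = 0 then 0 else fc (cx f) n := by
    intro n
    rw [fc_cx_add (h1 0).1 (h1 1).1]
    simp only [F.fc_dop (le_refl 3) (hg _).1, (hg _).2]
    split
    · next hn => subst hn; simp [dsym, fr]
    · next hn =>
        have hq : (n.1 : ℂ) ^ 2 + (n.2 : ℂ) ^ 2 ≠ 0 := fun hq => hn (by
          have h2 : ((n.1 ^ 2 + n.2 ^ 2 : ℤ) : ℂ) = 0 := by exact_mod_cast hq
          have h3 : n.1 ^ 2 + n.2 ^ 2 = 0 := Int.cast_eq_zero.1 h2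
          exact Prod.ext (by nlinarith [sq_nonneg n.1, sq_nonneg n.2] : n.1 = 0)
            (by nlinarith [sq_nonneg n.1, sq_nonneg n.2] : n.2 = 0))
        simp [gsym, dsym, fr]
        field_simp [Complex.I_ne_zero, pi_ne_zero]
  have hs1 : Summable fun n => fc (cx f) n * chr n x := by
    refine Summable.of_norm_bounded ((hC P rfl).1 _ _ hf.2.2).1 fun n => ?_
    simp [chr, norm_mul, Complex.norm_exp]
  have key : ((Dop 0 (Ginv f 0) x + Dop 1 (Ginv f 1) x : ℝ) : ℂ) = (f x : ℂ) - fc (cx f) 0 := by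
    have e1 : (f x : ℂ) = ∑' n, fc (cx f) n * chr n x := (congrFun hW x).symm
    have e2 : ((Dop 0 (Ginv f 0) x + Dop 1 (Ginv f 1) x : ℝ) : ℂ)
        = ∑' n, (if n = 0 then 0 else fc (cx f) n * chr n x) := by
      refine (congrFun hS x).symm.trans (tsum_congr fun n => ?_)
      rw [hco]; split <;> simp
    rw [e2, e1, hs1.tsum_eq_add_tsum_ite 0]
    simp [chr]
  have := congrArg Complex.re key
  simpa [Fin.sum_univ_two] using this

end divergence

end Vale.Agent.P205
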