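import Vale.Agent.P205.CoreFix

/-!
# P205, core: statements of the two last helper modules
-/

namespace Vale.Agent.P205

open Real
open scoped ContDiff

/-- Smooth periodic. -/
def SP (f : E2 → ℝ) : Prop := ContDiff ℝ ∞ f ∧ Per f

/-- Spaces for the given data, with every weight exponent available. -/
def CtxStmt : Prop := Facts → ∀ D : Dat, ∃ K : Ctx, Good K D ∧ (∀ j, ∃ P, K.Adm P ∧ P.j = j)

/-- The pointwise relations at the base point. -/
def BaseRelStmt : Prop := Facts → ∀ D : Dat, BaseRel D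

/-- The regularity identity for a state satisfying the algebraic relations. -/
def StateIdentStmt : Prop := Facts → ∀ (D : Dat) (η ε : ℝ) (z : St),
  SP z.iv → SP z.m → SP z.bet → SP z.iq → SP z.rho →
  (∀ x, z.iv x * D.nu η x = 1) → (∀ x, 0 < z.m x) →
  (∀ x, D.detH η ε z x * (z.m x * z.m x) = 1) → (∀ x, 0 < D.nn η ε z x) →
  (∀ x, z.iq x * D.nn η ε z x = 1) →
  (∀ x, pd 0 (D.flux η ε z 0) x + pd 1 (D.flux η ε z 1) x = 0) →
  ∀ r : E2 → ℝ, SP r → (∀ x, 0 < r x) → (∀ x, r x * r x * D.nn η ε z x = D.detH η ε z x) →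
  let W : Fin 2 → E2 → ℝ := fun i x => z.m x *
    ((D.adjh η ε z i 0 x * pd 0 r x + D.adjh η ε z i 1 x * pd 1 r x) / r x
      + D.fq η ε z x * D.vv η ε z i x)
  ∀ x, pd 0 (W 0) x + pd 1 (W 1) x = D.src η ε z x

end Vale.Agent.P205
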