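import Mathlib

/-!
# P205, smooth isometric immersions of two-tori into four-space: definitions

Functions on the torus are functions on `E2` with period lattice the integer pairs. All the
estimates are made on Fourier coefficients with the weights `wt`.
-/

namespace Vale.Agent.P205

open Real
open scoped ContDiff

/-- The plane. -/
abbrev E2 : Type := ℝ × ℝ

/-- Period lattice `ℤ × ℤ`. -/
def Per {α : Type*} (f : E2 → α) : Prop :=
  ∀ (x : E2) (a b : ℤ), f (x + ((a : ℝ), (b : ℝ))) = f x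

/-- The coordinate vectors. -/
def e (i : Fin 2) : E2 := if i = 0 then (1, 0) else (0, 1)

/-- Partial derivatives. -/
noncomputable def pd {α : Type*} [NormedAddCommGroup α] [NormedSpace ℝ α] (i : Fin 2) (f : E2 → α)
    (x : E2) : α := fderiv ℝ f x (e i)

/-- A smooth metric on the torus, by its three components. -/
structure Metric where
  a : E2 → ℝ
  b : E2 → ℝ
  c : E2 → ℝ
  smooth_a : ContDiff ℝ ∞ a
  smooth_b : ContDiff ℝ ∞ b
  smooth_c : ContDiff ℝ ∞ c
  per_a : Per a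
  per_b : Per b
  per_c : Per c
  pos : ∀ x, 0 < a x
  det_pos : ∀ x, b x ^ 2 < a x * c x

/-- The components as a symmetric matrix. -/
def Metric.comp (g : Metric) (i j : Fin 2) : E2 → ℝ :=
  if i = 0 then (if j = 0 then g.a else g.b) else (if j = 0 then g.b else g.c)

/-- The determinant. -/
def Metric.det (g : Metric) (x : E2) : ℝ := g.a x * g.c x - g.b x ^ 2

/-- The unit-determinant conductivity `adj g / sqrt (det g)`. -/
noncomputable def Metric.cond (g : Metric) (i j : Fin 2) (x : E2) : ℝ :=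
  (if i = j then g.comp (1 - i) (1 - j) x else -g.b x) / Real.sqrt (g.det x)

/-! ### Fourier coefficients -/

/-- Coefficient families. -/
abbrev Co : Type := ℤ × ℤ → ℂ

/-- Length of a frequency. -/
def len (n : ℤ × ℤ) : ℝ := |(n.1 : ℝ)| + |(n.2 : ℝ)|

/-- Weight parameters. -/
structure Par where
  R0 : ℝ
  R : ℝ
  j : ℕ
  one_le_R0 : 1 ≤ R0
  R0_le : R0 ≤ R

/-- The weights; submultiplicative in the frequency. -/
noncomputable def wt (P : Par) (s : ℕ) (n : ℤ × ℤ) : ℝ :=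
  (1 + len n / P.R0) ^ s * (1 + len n / P.R) ^ P.j

/-- The weighted square norm of the coefficient family is at most `M`. -/
def Bd (P : Par) (s : ℕ) (c : Co) (M : ℝ) : Prop :=
  0 ≤ M ∧ ∀ S : Finset (ℤ × ℤ), ∑ n ∈ S, (wt P s n * ‖c n‖) ^ 2 ≤ M ^ 2

/-- The character. -/
noncomputable def chr (n : ℤ × ℤ) (x : E2) : ℂ :=
  Complex.exp (2 * π * ((n.1 : ℝ) * x.1 + (n.2 : ℝ) * x.2) * Complex.I)

/-- Fourier coefficient of a periodic function. -/
noncomputable def fc (f : E2 → ℂ) (n : ℤ × ℤ) : ℂ :=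
  ∫ x in (0 : ℝ)..1, ∫ y in (0 : ℝ)..1, chr (-n) (x, y) * f (x, y)

/-- Sum of a Fourier series. -/
noncomputable def ev (c : Co) (x : E2) : ℂ := ∑' n, c n * chr n x

/-- Convolution. -/
noncomputable def cv (a b : Co) : Co := fun n => ∑' m, a m * b (n - m)

/-- Membership of a function in the weighted space, with norm at most `M`. -/
def Nb (P : Par) (s : ℕ) (f : E2 → ℂ) (M : ℝ) : Prop :=
  Continuous f ∧ Per f ∧ Bd P s (fc f) M

/-- Component of a frequency. -/
def fr (i : Fin 2) (n : ℤ × ℤ) : ℤ := if i = 0 then n.1 else n.2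

/-- A Fourier multiplier, on functions. -/
noncomputable def mult (σ : ℤ × ℤ → ℂ) (f : E2 → ℂ) : E2 → ℂ := ev fun n => σ n * fc f n

/-- Derivative as a multiplier. -/
noncomputable def dsym (i : Fin 2) (n : ℤ × ℤ) : ℂ := 2 * π * (fr i n : ℂ) * Complex.I

/-- `∂ᵢ Δ⁻¹`, zero on constants. -/
noncomputable def gsym (i : Fin 2) (n : ℤ × ℤ) : ℂ :=
  (fr i n : ℂ) / (2 * π * Complex.I * ((n.1 : ℂ) ^ 2 + (n.2 : ℂ) ^ 2))

/-- The orthogonal projection to gradients, `∂ᵢ Δ⁻¹ ∂ₖ`. -/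
noncomputable def psym (i k : Fin 2) (n : ℤ × ℤ) : ℂ :=
  (fr i n : ℂ) * (fr k n : ℂ) / ((n.1 : ℂ) ^ 2 + (n.2 : ℂ) ^ 2)

/-- A normalised pair of isothermal functions: periods `(1,0)` and `(τ₁,τ₂)`. -/
structure Iso (g : Metric) where
  u : E2 → ℝ
  v : E2 → ℝ
  τ1 : ℝ
  τ2 : ℝ
  smooth_u : ContDiff ℝ ∞ u
  smooth_v : ContDiff ℝ ∞ v
  per_u : ∀ (x : E2) (a b : ℤ), u (x + ((a : ℝ), (b : ℝ))) = u x + a
  per_v : ∀ (x : E2) (a b : ℤ), v (x + ((a : ℝ), (b : ℝ))) = v x + (a * τ1 + b * τ2)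
  τ2_pos : 0 < τ2
  cr0 : ∀ x, g.cond 0 0 x * pd 0 u x + g.cond 0 1 x * pd 1 u x = pd 1 v x
  cr1 : ∀ x, g.cond 1 0 x * pd 0 u x + g.cond 1 1 x * pd 1 u x = -pd 0 v x
  regular : ∀ x, pd 0 u x ≠ 0 ∨ pd 1 u x ≠ 0

/-- The isometric immersion sought. -/
def Immerses (g : Metric) (f : E2 → Fin 4 → ℝ) : Prop :=
  ContDiff ℝ ∞ f ∧ Per f ∧
    ∀ x (i k : Fin 2), ∑ l : Fin 4, pd i f x l * pd k f x l = g.comp i k x

/-- The theorem. -/
def TorusStmt : Prop := ∀ g : Metric, ∃ f : E2 → Fin 4 → ℝ, Immerses g f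

/-- Isothermal coordinates on the torus. -/
def IsoStmt : Prop := ∀ g : Metric, Nonempty (Iso g)

/-- From isothermal coordinates to the immersion. -/
def CoreStmt : Prop := ∀ g : Metric, Iso g → ∃ f : E2 → Fin 4 → ℝ, Immerses g f

theorem torus_of (h1 : IsoStmt) (h2 : CoreStmt) : TorusStmt := fun g =>
  (h1 g).elim (h2 g)

end Vale.Agent.P205
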