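import Vale.Agent.P205.Defs

/-!
# P205, interfaces of the modules

`Space.lean` proves the `Space` statements, `Iso.lean` proves `IsoStmt`, `Ident.lean` the pointwise
identity, `Core*.lean` proves `CoreStmt`.
-/

namespace Vale.Agent.P205

open Real
open scoped ContDiff

/-- A pair of functions with combined weighted norm at most `M`. -/
def Nb2 (P : Par) (s : ℕ) (v : Fin 2 → E2 → ℂ) (M : ℝ) : Prop :=
  (∀ i, Continuous (v i) ∧ Per (v i)) ∧ 0 ≤ M ∧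
    ∀ S : Finset (ℤ × ℤ), ∑ i, ∑ n ∈ S, (wt P s n * ‖fc (v i) n‖) ^ 2 ≤ M ^ 2

/-- Absolute summability, inversion and uniqueness. -/
def EvalStmt : Prop := ∀ R0 : ℝ, 1 ≤ R0 → ∀ s, 3 ≤ s → ∃ C : ℝ, ∀ P : Par, P.R0 = R0 →
  (∀ c M, Bd P s c M → Summable (fun n => ‖c n‖) ∧ ∑' n, ‖c n‖ ≤ C * M ∧
    Continuous (ev c) ∧ Per (ev c) ∧ fc (ev c) = c) ∧
  ∀ f M, Nb P s f M → ev (fc f) = f ∧ ∀ x, ‖f x‖ ≤ C * M

/-- Products, with a constant uniform in `R` and `j`. -/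
def AlgStmt : Prop := ∀ R0 : ℝ, 1 ≤ R0 → ∀ s, 3 ≤ s → ∃ C : ℝ, ∀ P : Par, P.R0 = R0 →
  ∀ f h M N, Nb P s f M → Nb P s h N → Nb P s (fun x => f x * h x) (C * M * N)

/-- Multipliers. -/
def MultStmt : Prop := ∀ P : Par, ∀ s t, 3 ≤ t → ∀ (σ : ℤ × ℤ → ℂ) (K : ℝ), 0 ≤ K →
  (∀ n, ‖σ n‖ * wt P t n ≤ K * wt P s n) → ∀ f M, Nb P s f M → Nb P t (mult σ f) (K * M)

/-- Derivatives are multipliers. -/
def DerivStmt : Prop := ∀ P : Par, ∀ s, 4 ≤ s → ∀ f M, Nb P s f M →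
  ContDiff ℝ 1 f ∧ ∀ i x, pd i f x = mult (dsym i) f x

/-- Smooth periodic functions belong to every space, with norms uniform for large `R`. -/
def SmoothMemStmt : Prop := ∀ f : E2 → ℂ, ContDiff ℝ ∞ f → Per f → ∀ R0 : ℝ, 1 ≤ R0 → ∀ s,
  ∃ M : ℝ, ∀ j, ∃ R1 : ℝ, ∀ P : Par, P.R0 = R0 → P.j = j → (j = 0 ∨ R1 ≤ P.R) → Nb P s f M

/-- Functions in all the spaces are smooth. -/
def SmoothOutStmt : Prop := ∀ f : E2 → ℂ, ∀ s, 3 ≤ s →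
  (∀ j, ∃ P : Par, P.j = j ∧ ∃ M, Nb P s f M) → ContDiff ℝ ∞ f

/-- Multiplication by a smooth matrix has norm close to its supremum norm for large radii. -/
def MulOpStmt : Prop := ∀ a : Fin 2 → Fin 2 → E2 → ℂ, (∀ i k, ContDiff ℝ ∞ (a i k) ∧ Per (a i k)) →
  ∀ θ θ' : ℝ, 0 ≤ θ → θ < θ' →
  (∀ x (v : Fin 2 → ℂ), ∑ i, ‖∑ k, a i k x * v k‖ ^ 2 ≤ θ ^ 2 * ∑ k, ‖v k‖ ^ 2) →
  ∀ s, 3 ≤ s → ∃ R00 : ℝ, ∀ R0, R00 ≤ R0 → ∀ j, ∃ R1 : ℝ, ∀ P : Par,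
    P.R0 = R0 → P.j = j → (j = 0 ∨ R1 ≤ P.R) → ∀ v M, Nb2 P s v M →
      Nb2 P s (fun i x => ∑ k, a i k x * v k x) (θ' * M)

/-- Completeness: geometrically Cauchy sequences converge with the same bounds. -/
def ComplStmt : Prop := ∀ P : Par, ∀ s, 3 ≤ s → ∀ (f : ℕ → E2 → ℂ) (C q : ℝ), 0 ≤ q → q < 1 →
  (∃ M, Nb P s (f 0) M) → (∀ k, Nb P s (fun x => f (k + 1) x - f k x) (C * q ^ k)) →
  ∃ l : E2 → ℂ, ∀ k, Nb P s (fun x => l x - f k x) (C * q ^ k / (1 - q))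

/-- The identity behind the regularity gain, at one point: `h` a positive symmetric matrix with
derivatives `dh`, `al` a closed one-form with derivatives `dal` satisfying
`div (adj h · al / (sqrt (det h) · nu)) = 0`. -/
def IdentStmt : Prop := ∀ (h : Fin 2 → Fin 2 → ℝ) (dh : Fin 2 → Fin 2 → Fin 2 → ℝ)
  (al : Fin 2 → ℝ) (dal : Fin 2 → Fin 2 → ℝ) (nu : ℝ) (dnu : Fin 2 → ℝ),
  let adj : Fin 2 → Fin 2 → ℝ := fun p k => if p = k then h (1 - p) (1 - k) else -h p k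
  let dadj : Fin 2 → Fin 2 → Fin 2 → ℝ := fun i p k =>
    if p = k then dh i (1 - p) (1 - k) else -dh i p k
  let D := h 0 0 * h 1 1 - h 0 1 ^ 2
  let dD : Fin 2 → ℝ := fun i => dh i 0 0 * h 1 1 + h 0 0 * dh i 1 1 - 2 * h 0 1 * dh i 0 1
  let v : Fin 2 → ℝ := fun p => ∑ k, adj p k * al k
  let N := ∑ p, al p * v p
  let dN : Fin 2 → ℝ := fun i => 2 * (∑ p, dal i p * v p) + ∑ p, ∑ k, al p * dadj i p k * al k
  let Gam : Fin 2 → Fin 2 → Fin 2 → ℝ := fun p i k => (dh i p k + dh k p i - dh p i k) / 2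
  let w : Fin 2 → Fin 2 → ℝ := fun i k => D * dal i k - ∑ p, Gam p i k * v p
  let Om : Fin 2 → ℝ := fun i => (al 0 * w i 1 - al 1 * w i 0) / N
  (∀ p k, h p k = h k p) → (∀ i p k, dh i p k = dh i k p) → (∀ i k, dal i k = dal k i) →
  0 < D → N ≠ 0 → nu ≠ 0 →
  (∑ i, ((∑ k, (dadj i i k * al k + adj i k * dal i k)) / nu - v i * dnu i / nu ^ 2
    - v i * dD i / (2 * D * nu))) = 0 →
  ∀ i, (∑ k, adj i k * (dD k / (2 * D) - dN k / (2 * N)))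
      + (∑ k, dnu k * v k) / (nu * N) * v i = if i = 0 then Om 1 else -Om 0

end Vale.Agent.P205
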