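import Vale.Agent.P205.IsoBeltrami

/-!
# P205: isothermal coordinates on the torus

`iso_of` proves `IsoStmt` from the statements of the coefficient module. For the Beltrami
coefficient `μ` of the metric the one-form `exp s (dz + μ dzbar)` is closed with nowhere vanishing
coefficient; its primitive, normalised, gives the isothermal pair.
-/

namespace Vale.Agent.P205.Isoth

open Real Set Filter Topology
open scoped ContDiff ComplexConjugate

/-- A form `z (dz + m dzbar)` with `|m| < 1` has no real degenerate direction. -/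
theorem nondegenerate {z m : ℂ} (hm : ‖m‖ < 1) (h1 : (z * (1 + m)).im = 0)
    (h2 : (Complex.I * z * (1 - m)).im = 0) : z = 0 := by
  simp [Complex.mul_re, Complex.mul_im] at h1 h2
  have e : z * m = conj z := by
    apply Complex.ext <;> simp [Complex.mul_re, Complex.mul_im] <;> linarith
  by_contra hz
  have h := congrArg norm e
  rw [norm_mul, Complex.norm_conj] at h
  have : (0 : ℝ) < ‖z‖ := norm_pos_iff.2 hz
  nlinarith

section
variable (g : Metric)

/-- Denominator of the Beltrami coefficient. -/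
noncomputable def den (x : E2) : ℝ := g.a x + g.c x + 2 * √(g.det x)

/-- The Beltrami coefficient. -/
noncomputable def mu (x : E2) : ℂ :=
  ((g.a x - g.c x : ℝ) + ((2 * g.b x : ℝ) : ℂ) * Complex.I) / (den g x : ℝ)

theorem det_gt (x : E2) : 0 < g.det x := by
  have := g.det_pos x
  unfold Metric.det
  linarith

theorem c_pos (x : E2) : 0 < g.c x := by
  have := g.det_pos x
  nlinarith [g.pos x, sq_nonneg (g.b x)]

theorem den_pos (x : E2) : 0 < den g x := by
  have := g.pos x
  have := c_pos g x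
  unfold den
  positivity

theorem mu_lt (x : E2) : ‖mu g x‖ < 1 := by
  rw [mu, norm_div, Complex.norm_real, Real.norm_eq_abs, abs_of_pos (den_pos g x),
    div_lt_one (den_pos g x), Complex.norm_add_mul_I, Real.sqrt_lt' (den_pos g x), den]
  have hS : √(g.det x) ^ 2 = g.det x := Real.sq_sqrt (det_gt g x).le
  have hp : 0 < √(g.det x) := Real.sqrt_pos.2 (det_gt g x)
  unfold Metric.det at hS hp ⊢
  nlinarith [mul_pos hp (add_pos (g.pos x) (c_pos g x)), pow_pos hp 2]

theorem smooth_mu : ContDiff ℝ ∞ (mu g) := by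
  have hs : ContDiff ℝ ∞ g.det := (g.smooth_a.mul g.smooth_c).sub (g.smooth_b.pow 2)
  have hd : ContDiff ℝ ∞ (den g) :=
    (g.smooth_a.add g.smooth_c).add (contDiff_const.mul (hs.sqrt fun x => (det_gt g x).ne'))
  have hO : ∀ {f : E2 → ℝ}, ContDiff ℝ ∞ f → ContDiff ℝ ∞ fun x => (f x : ℂ) :=
    fun hf => Complex.ofRealCLM.contDiff.comp hf
  have e : mu g = fun x => ((g.a x - g.c x : ℝ) + ((2 * g.b x : ℝ) : ℂ) * Complex.I)
      * (((den g x)⁻¹ : ℝ) : ℂ) := by
    funext x; rw [mu, Complex.ofReal_inv, div_eq_mul_inv]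
  rw [e]
  exact ((hO (g.smooth_a.sub g.smooth_c)).add ((hO (contDiff_const.mul g.smooth_b)).mul
    contDiff_const)).mul (hO (hd.inv fun x => (den_pos g x).ne'))

theorem per_mu : Per (mu g) := fun x a b => by
  simp only [mu, den, Metric.det, g.per_a x a b, g.per_b x a b, g.per_c x a b]

/-- The coordinate equations of a form `z (dz + μ dzbar)`. -/
theorem cr_mu (x : E2) (z L0 L1 : ℂ) (h0 : L0 = z * (1 + mu g x))
    (h1 : L1 = Complex.I * z * (1 - mu g x)) :
    g.cond 0 0 x * L0.re + g.cond 0 1 x * L1.re = L1.im ∧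
      g.cond 1 0 x * L0.re + g.cond 1 1 x * L1.re = -L0.im := by
  have hS : √(g.det x) ^ 2 = g.det x := Real.sq_sqrt (det_gt g x).le
  have hp : √(g.det x) ≠ 0 := (Real.sqrt_pos.2 (det_gt g x)).ne'
  have hd := (den_pos g x).ne'
  have m1 : (mu g x).re = (g.a x - g.c x) / den g x := by simp [mu, Complex.div_ofReal_re]
  have m2 : (mu g x).im = 2 * g.b x / den g x := by simp [mu, Complex.div_ofReal_im]
  subst h0 h1
  simp [Metric.cond, Metric.comp, Complex.mul_re, Complex.mul_im, m1, m2]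
  constructor <;>
    (field_simp
     simp only [den] at *
     unfold Metric.det at hS ⊢
     first
      | linear_combination (-2 * z.re) * hS
      | linear_combination (2 * z.im) * hS)

end

theorem lip_exp {a b : ℂ} {M : ℝ} (ha : ‖a‖ ≤ M) (hb : ‖b‖ ≤ M) :
    ‖Complex.exp a - Complex.exp b‖ ≤ Real.exp M * ‖a - b‖ :=
  Convex.norm_image_sub_le_of_norm_deriv_le (s := Metric.closedBall (0 : ℂ) M)
    (fun x _ => Complex.differentiableAt_exp)
    (fun x hx => by
      rw [Complex.deriv_exp, Complex.norm_exp]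
      exact Real.exp_le_exp.2 ((Complex.re_le_norm x).trans (mem_closedBall_zero_iff.1 hx)))
    (convex_closedBall 0 M) (mem_closedBall_zero_iff.2 hb) (mem_closedBall_zero_iff.2 ha)

theorem continuousOn_of_lip {f : ℝ → ℂ} {K : ℝ}
    (h : ∀ t ∈ Icc (0 : ℝ) 1, ∀ t' ∈ Icc (0 : ℝ) 1, ‖f t - f t'‖ ≤ K * |t - t'|) :
    ContinuousOn f (Icc 0 1) :=
  (LipschitzOnWith.of_dist_le' (K := K) fun t ht t' ht' => by
    rw [dist_eq_norm, Real.dist_eq]; exact h t ht t' ht').continuousOn

theorem pd_exp {s : E2 → ℂ} (hs : ContDiff ℝ ∞ s) (i : Fin 2) (x : E2) :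
    pd i (fun y => Complex.exp (s y)) x = Complex.exp (s x) * pd i s x := by
  simp [pd, ((hs.differentiable (by simp)).differentiableAt.hasFDerivAt (x := x)).cexp.fderiv]

theorem pd_mul {f h : E2 → ℂ} (hf : ContDiff ℝ ∞ f) (hh : ContDiff ℝ ∞ h) (i : Fin 2) (x : E2) :
    pd i (fun y => f y * h y) x = f x * pd i h x + h x * pd i f x := by
  simp [pd, fderiv_fun_mul (hf.differentiable (by simp)).differentiableAt
    (hh.differentiable (by simp)).differentiableAt]

theorem iso_of (hE : EvalStmt) (hD : DerivStmt) (hM : SmoothMemStmt) (hO : SmoothOutStmt)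
    (hX : MulOpStmt) : IsoStmt := by
  intro g
  set μ := mu g with hμdef
  have hμ : ContDiff ℝ ∞ μ := smooth_mu g
  have hμp : Per μ := per_mu g
  obtain ⟨xm, hxm⟩ := per_max (r := fun x => ‖μ x‖) hμ.continuous.norm
    (fun x a b => by simp only [μ, hμp x a b])
  set θ := ‖μ xm‖ with hθdef
  have hθ0 : 0 ≤ θ := norm_nonneg _
  have hθ1 : θ < 1 := mu_lt g xm
  obtain ⟨L, hL, hsol, hlip, hbd, hs0⟩ := exists_sol hE hD hM hO hX hμ hμp hθ0 hθ1 hxm
  set p : ℝ → E2 → ℂ := fun t x => Complex.exp (sol μ t x) with hp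
  set q : ℝ → E2 → ℂ := fun t x => (t : ℂ) * (μ x * p t x) with hq
  have ps : ∀ t ∈ Icc (0 : ℝ) 1, ContDiff ℝ ∞ (p t) ∧ Per (p t) := fun t ht =>
    ⟨(hsol t ht).1.cexp, fun x a b => by simp only [p, (hsol t ht).2.1 x a b]⟩
  have qs : ∀ t ∈ Icc (0 : ℝ) 1, ContDiff ℝ ∞ (q t) ∧ Per (q t) := fun t ht =>
    ⟨contDiff_const.mul (hμ.mul (ps t ht).1),
      fun x a b => by simp only [q, μ, hμp x a b, (ps t ht).2 x a b]⟩
  have key : ∀ t ∈ Icc (0 : ℝ) 1, ∀ n,
      dw n * fc (p t) n + obs μ t * fc (p t) n = dz n * fc (q t) n := by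
    intro t ht n
    obtain ⟨s1, s2, seq⟩ := hsol t ht
    have e : (fun x => (1 : ℂ) * Dw (p t) x + obs μ t * p t x) = Dz (q t) := by
      funext x
      have a0 := pd_exp s1 0 x
      have a1 := pd_exp s1 1 x
      have hm : ∀ i, pd i (q t) x = (t : ℂ) * (μ x * pd i (p t) x + p t x * pd i μ x) := fun i => by
        show pd i (fun y => (t : ℂ) * (μ y * p t y)) x = _
        rw [pd_mul contDiff_const (hμ.mul (ps t ht).1), pd_mul hμ (ps t ht).1]
        simp [pd]
      have := seq x
      simp only [Dz, Dw, hm, p] at this ⊢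
      rw [a0, a1]
      linear_combination Complex.exp (sol μ t x) * this
    have h := congrFun (congrArg fc e) n
    rw [fc_comb' hE hM (smooth_Dw (ps t ht).1) (per_Dw (ps t ht).2) (ps t ht).1 (ps t ht).2,
      fc_Dw hE hM hD (ps t ht).1 (ps t ht).2, fc_Dz hE hM hD (qs t ht).1 (qs t ht).2] at h
    simpa using h
  have pne : ∀ t x, p t x ≠ 0 := fun t x => Complex.exp_ne_zero _
  obtain ⟨R0, hR0, θ', C0, hθ', hθ'1, -, hP⟩ := exists_ctx hM hX hμ hμp hθ0 hθ1 hxm
  obtain ⟨P, hPR, -, -, -, hmul⟩ := hP 0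
  have mean_ne : ∀ t ∈ Icc (0 : ℝ) 1, obs μ t = 0 → fc (p t) 0 ≠ 0 := by
    intro t ht hb h0
    obtain ⟨p1, p2⟩ := ps t ht
    have hc : ∀ n, fc (p t) n = bsym n * fc (q t) n := fun n => by
      by_cases hn : n = 0
      · subst hn; rw [h0, bsym_zero, zero_mul]
      · have h := key t ht n
        rw [hb, zero_mul, add_zero] at h
        rw [bsym, div_mul_eq_mul_div, ← h, mul_div_cancel_left₀ _ (dw_ne_zero hn)]
    obtain ⟨C, hC⟩ := hM (p t) p1 p2 R0 hR0 4
    obtain ⟨R1, hR1⟩ := hC 0
    have hbase : Nb (base hR0) 4 (p t) C := hR1 _ rfl rfl (Or.inl rfl)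
    obtain ⟨P', hP'R, hP'j, hP'b, -, hmul'⟩ := hP 0
    rw [hP'b rfl] at hmul'
    have step : ∀ k : ℕ, Nb (base hR0) 4 (p t) (θ' ^ k * C) := fun k => by
      induction k with
      | zero => simpa using hbase
      | succ k ih =>
        have h2 := bd_smul (bd_const (hmul' _ _ ih).2.2 (t : ℂ)) zero_le_one bsym_le
        have e : fc (q t) = fun n => (t : ℂ) * fc (fun x => μ x * p t x) n := by
          have := fc_comb' hE hM (hμ.mul p1) (fun x a b => by simp only [μ, hμp x a b, p2 x a b])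
            p1 p2 (t : ℂ) 0
          simpa [q] using this
        refine ⟨ih.1, ih.2.1, bd_mono (M := 1 * (‖(t : ℂ)‖ * (θ' * (θ' ^ k * C)))) ?_ ?_⟩
        · convert h2 using 1
          funext n
          rw [hc n, e]
        · rw [one_mul, Complex.norm_real, Real.norm_eq_abs, abs_of_nonneg ht.1, pow_succ]
          have := mul_le_of_le_one_left (mul_nonneg hθ' ih.2.2.1) ht.2
          linarith
    have hz : fc (p t) = fun _ => 0 := funext fun n => by
      refine norm_eq_zero.1 (le_antisymm ?_ (norm_nonneg _))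
      exact ge_of_tendsto' (by simpa using
        (tendsto_pow_atTop_nhds_zero_of_lt_one hθ' hθ'1).mul_const C)
        (fun k => bd_apply (step k).2.2 n)
    have := nb_eq hE (by norm_num) hbase
    rw [hz] at this
    exact pne t 0 (by rw [← congrFun this 0]; simp [ev])
  have plip : ∀ t ∈ Icc (0 : ℝ) 1, ∀ t' ∈ Icc (0 : ℝ) 1, ∀ x,
      ‖p t x - p t' x‖ ≤ Real.exp L * L * |t - t'| := fun t ht t' ht' x => by
    refine (lip_exp (hbd t ht x) (hbd t' ht' x)).trans ?_
    rw [mul_assoc]
    exact mul_le_mul_of_nonneg_left ((hlip t ht t' ht').2 x) (Real.exp_pos L).le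
  have pbd : ∀ t ∈ Icc (0 : ℝ) 1, ∀ x, ‖p t x‖ ≤ Real.exp L := fun t ht x => by
    rw [hp, Complex.norm_exp]
    exact Real.exp_le_exp.2 ((Complex.re_le_norm _).trans (hbd t ht x))
  have ca : ContinuousOn (fun t => fc (p t) 0) (Icc 0 1) :=
    continuousOn_of_lip (K := Real.exp L * L) fun t ht t' ht' => by
      have e := congrFun (fc_comb' hE hM (ps t ht).1 (ps t ht).2 (ps t' ht').1 (ps t' ht').2 1 (-1)) 0
      have e' : fc (p t) 0 - fc (p t') 0 = fc (fun x => 1 * p t x + -1 * p t' x) 0 := by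
        rw [e]; ring
      rw [e']
      refine norm_fc_zero_le fun x => ?_
      simpa [← sub_eq_add_neg] using plip t ht t' ht' x
  have cb : ContinuousOn (fun t => fc (q t) 0) (Icc 0 1) :=
    continuousOn_of_lip (K := Real.exp L * L + Real.exp L) fun t ht t' ht' => by
      have e := congrFun (fc_comb' hE hM (qs t ht).1 (qs t ht).2 (qs t' ht').1 (qs t' ht').2 1 (-1)) 0
      have e' : fc (q t) 0 - fc (q t') 0 = fc (fun x => 1 * q t x + -1 * q t' x) 0 := by
        rw [e]; ring
      rw [e']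
      refine norm_fc_zero_le fun x => ?_
      have e2 : (1 : ℂ) * q t x + -1 * q t' x
          = μ x * ((t : ℂ) * (p t x - p t' x) + ((t - t' : ℝ) : ℂ) * p t' x) := by
        simp only [q]; push_cast; ring
      rw [e2, norm_mul]
      refine (mul_le_of_le_one_left (norm_nonneg _) (mu_lt g x).le).trans ?_
      refine (norm_add_le _ _).trans ?_
      rw [norm_mul, norm_mul, Complex.norm_real, Complex.norm_real, Real.norm_eq_abs,
        Real.norm_eq_abs, abs_of_nonneg ht.1, add_mul, mul_comm (Real.exp L) |t - t'|]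
      exact add_le_add ((mul_le_of_le_one_left (norm_nonneg _) ht.2).trans (plip t ht t' ht' x))
        (mul_le_mul_of_nonneg_left (pbd t' ht' x) (abs_nonneg _))
  have cobs : ContinuousOn (fun t => obs μ t) (Icc 0 1) :=
    continuousOn_of_lip fun t ht t' ht' => (hlip t ht t' ht').1
  have obs0 : ∀ t ∈ Icc (0 : ℝ) 1, obs μ t * fc (p t) 0 = 0 := fun t ht => by
    have h := key t ht 0
    simpa [show dw 0 = 0 by simp [dw, dsym, fr], dz_zero] using h
  have hall : Icc (0 : ℝ) 1 ⊆ {t | obs μ t = 0} := by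
    refine IsClosed.Icc_subset_of_forall_mem_nhdsWithin ?_ (by simp [obs]) fun t ht => ?_
    · rw [inter_comm]
      exact cobs.preimage_isClosed_of_isClosed isClosed_Icc (isClosed_singleton (x := (0 : ℂ)))
    · have htI : t ∈ Icc (0 : ℝ) 1 := Ico_subset_Icc_self ht.2
      have h1 : ∀ᶠ s in 𝓝[Icc 0 1] t, fc (p s) 0 ≠ 0 :=
        (ca t htI).eventually_ne (mean_ne t htI ht.1)
      have h2 : 𝓝[>] t ≤ 𝓝[Icc 0 1] t := by
        rw [← nhdsWithin_Ioo_eq_nhdsGT ht.2.2]
        exact nhdsWithin_mono _ fun s hs => ⟨ht.2.1.trans hs.1.le, hs.2.le⟩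
      filter_upwards [h2 (h1.and self_mem_nhdsWithin)] with s hs
      exact (mul_eq_zero.1 (obs0 s hs.2)).resolve_right hs.1
  set P1 : ℝ → ℂ := fun t => fc (p t) 0 + fc (q t) 0 with hP1
  set P2 : ℝ → ℂ := fun t => Complex.I * (fc (p t) 0 - fc (q t) 0) with hP2
  set W : ℝ → E2 → ℂ := fun t => ev fun n => zinv n * fc (p t) n with hW
  set w : ℝ → E2 → ℂ := fun t x => P1 t * (x.1 : ℂ) + P2 t * (x.2 : ℂ) + W t x with hw
  have prim : ∀ t ∈ Icc (0 : ℝ) 1, ContDiff ℝ ∞ (W t) ∧ Per (W t) ∧ ContDiff ℝ ∞ (w t) ∧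
      ∀ x, pd 0 (w t) x = p t x * (1 + t * μ x) ∧
        pd 1 (w t) x = Complex.I * p t x * (1 - t * μ x) := by
    intro t ht
    obtain ⟨C, hC⟩ := hM (p t) (ps t ht).1 (ps t ht).2 1 le_rfl 4
    have hs : Smo 5 fun n => zinv n * fc (p t) n := fun j => by
      obtain ⟨R1, h⟩ := hC j
      exact ⟨⟨1, max 1 R1, j, le_rfl, le_max_left _ _⟩, rfl, _,
        bd_zinv (h _ rfl rfl (Or.inr (le_max_right _ _))).2.2⟩
    obtain ⟨w1, w2, w3⟩ := smooth_ev hE hO (by norm_num) hs
    have hone : ∀ (k : ℂ) n, n ≠ 0 → fc (fun _ : E2 => k) n = 0 := fun k n hn => by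
      have h := congrFun (fc_Dz hE hM hD (contDiff_const (c := k)) (fun x a b => rfl)) n
      have e : Dz (fun _ : E2 => k) = fun _ => 0 := by funext x; simp [Dz, pd]
      rw [e] at h
      have z : fc (fun _ : E2 => (0 : ℂ)) n = 0 := by simp [fc]
      rw [z] at h
      exact (mul_eq_zero.1 h.symm).resolve_left (dz_ne_zero hn)
    have ez : ∀ x, Dz (W t) x = p t x - fc (p t) 0 := by
      have e : Dz (W t) = fun x => (1 : ℂ) * p t x + (-fc (p t) 0) * 1 := by
        refine eq_of_fc hE hM (smooth_Dz w1) (per_Dz w2) ((contDiff_const.mul (ps t ht).1).add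
          (contDiff_const.mul contDiff_const)) (fun x a b => by simp only [(ps t ht).2 x a b]) ?_
        rw [fc_comb' hE hM (ps t ht).1 (ps t ht).2 contDiff_const (fun x a b => rfl),
          fc_Dz hE hM hD w1 w2, w3]
        funext n
        by_cases hn : n = 0
        · subst hn; simp [dz_zero, fc_const]
        · simp [hone _ _ hn, zinv, ← mul_assoc, mul_inv_cancel₀ (dz_ne_zero hn)]
      intro x; rw [e]; ring
    have ew : ∀ x, Dw (W t) x = q t x - fc (q t) 0 := by
      have e : Dw (W t) = fun x => (1 : ℂ) * q t x + (-fc (q t) 0) * 1 := by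
        refine eq_of_fc hE hM (smooth_Dw w1) (per_Dw w2) ((contDiff_const.mul (qs t ht).1).add
          (contDiff_const.mul contDiff_const)) (fun x a b => by simp only [(qs t ht).2 x a b]) ?_
        rw [fc_comb' hE hM (qs t ht).1 (qs t ht).2 contDiff_const (fun x a b => rfl),
          fc_Dw hE hM hD w1 w2, w3]
        funext n
        by_cases hn : n = 0
        · subst hn; simp [show dw 0 = 0 by simp [dw, dsym, fr], fc_const]
        · have h := key t ht n
          rw [show obs μ t = 0 from hall ht, zero_mul, add_zero] at h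
          simp only [hone _ _ hn, zinv, mul_zero, add_zero, one_mul]
          rw [mul_left_comm, h, inv_mul_cancel_left₀ (dz_ne_zero hn)]
      intro x; rw [e]; ring
    set lin : E2 →L[ℝ] ℂ := (ContinuousLinearMap.fst ℝ ℝ ℝ).smulRight (P1 t)
      + (ContinuousLinearMap.snd ℝ ℝ ℝ).smulRight (P2 t) with hlin
    have ew' : w t = fun x => lin x + W t x := by
      funext x; simp [w, lin, mul_comm]
    refine ⟨w1, w2, by rw [ew']; exact lin.contDiff.add w1, fun x => ?_⟩
    have hd : ∀ i, pd i (w t) x = lin (e i) + pd i (W t) x := fun i => by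
      have h2 : HasFDerivAt (fun x => lin x + W t x) (lin + fderiv ℝ (W t) x) x :=
        lin.hasFDerivAt.add (w1.differentiable (by simp)).differentiableAt.hasFDerivAt
      rw [ew']
      show fderiv ℝ _ x (e i) = _
      rw [h2.fderiv]
      rfl
    have z1 := ez x
    have z2 := ew x
    simp only [Dz, Dw] at z1 z2
    constructor
    · rw [hd 0]
      simp [lin, e, P1, q]
      simp only [q] at z2
      linear_combination z1 + z2
    · rw [hd 1]
      simp [lin, e, P2, q]
      simp only [q] at z2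
      linear_combination Complex.I * (z1 - z2) + pd 1 (W t) x * Complex.I_sq
  set Δ : ℝ → ℝ := fun t => (conj (P1 t) * P2 t).im with hΔ
  have dne : ∀ t ∈ Icc (0 : ℝ) 1, Δ t ≠ 0 := by
    intro t ht h
    obtain ⟨w1, w2, w3, wd⟩ := prim t ht
    obtain ⟨l, hl, hl1, hl2⟩ : ∃ l : ℂ, l ≠ 0 ∧ (l * P1 t).im = 0 ∧ (l * P2 t).im = 0 := by
      by_cases h1 : P1 t = 0
      · by_cases h2 : P2 t = 0
        · exact ⟨1, one_ne_zero, by simp [h1], by simp [h2]⟩
        · exact ⟨conj (P2 t), by simpa using h2, by simp [h1],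
            by simp [Complex.mul_im, mul_comm]⟩
      · exact ⟨conj (P1 t), by simpa using h1, by simp [Complex.mul_im, mul_comm], h⟩
    have hr : (fun x => (l * w t x).im) = fun x => (l * W t x).im := by
      funext x
      simp only [w, mul_add, ← mul_assoc, Complex.add_im, Complex.im_mul_ofReal, hl1, hl2,
        zero_mul, zero_add]
    obtain ⟨x0, hx0⟩ := per_max (r := fun x => (l * W t x).im)
      (Complex.continuous_im.comp (continuous_const.mul w1.continuous))
      (fun x a b => by simp only [w2 x a b])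
    have hzero : fderiv ℝ (fun x => (l * w t x).im) x0 = 0 := by
      rw [hr]; exact IsLocalMax.fderiv_eq_zero (Eventually.of_forall hx0)
    have hder : ∀ i, (l * pd i (w t) x0).im = 0 := fun i => by
      have hh : HasFDerivAt (fun x => (l * w t x).im)
          (Complex.imCLM.comp (l • fderiv ℝ (w t) x0)) x0 :=
        Complex.imCLM.hasFDerivAt.comp x0
          (((w3.differentiable (by simp)).differentiableAt.hasFDerivAt).const_mul l)
      have := hh.fderiv ▸ hzero
      simpa [pd] using congrArg (fun T => T (e i)) this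
    have d0 := hder 0
    have d1 := hder 1
    rw [(wd x0).1, ← mul_assoc] at d0
    rw [(wd x0).2, show l * (Complex.I * p t x0 * (1 - t * μ x0))
      = Complex.I * (l * p t x0) * (1 - t * μ x0) by ring] at d1
    refine mul_ne_zero hl (pne t x0) (nondegenerate (m := (t : ℂ) * μ x0) ?_ d0 d1)
    rw [norm_mul, Complex.norm_real, Real.norm_eq_abs, abs_of_nonneg ht.1]
    exact lt_of_le_of_lt (mul_le_of_le_one_left (norm_nonneg _) ht.2) (mu_lt g x0)
  have hΔ1 : 0 < Δ 1 := by
    have c0 : ContinuousOn Δ (Icc 0 1) :=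
      Complex.continuous_im.comp_continuousOn
        ((Complex.continuous_conj.comp_continuousOn (ca.add cb)).mul
          (continuousOn_const.mul (ca.sub cb)))
    have h0 : Δ 0 = 1 := by
      have e1 : p 0 = fun _ => 1 := by funext x; simp [p, hs0]
      have e2 : q 0 = fun _ => 0 := by funext x; simp [q]
      simp [Δ, P1, P2, e1, e2, fc_const]
    by_contra hle
    push Not at hle
    obtain ⟨t, ht, ht0⟩ := intermediate_value_Icc' zero_le_one c0 ⟨hle, by rw [h0]; norm_num⟩
    exact dne t ht ht0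
  have h1 : (1 : ℝ) ∈ Icc (0 : ℝ) 1 := ⟨zero_le_one, le_rfl⟩
  obtain ⟨w1, w2, w3, wd⟩ := prim 1 h1
  set lam : ℂ := Complex.I * conj (P2 1) / (Δ 1 : ℝ) with hlam
  have hΔne : Δ 1 ≠ 0 := hΔ1.ne'
  have p2ne : P2 1 ≠ 0 := fun h => hΔne (by simp [Δ, h])
  have lne : lam ≠ 0 := by
    simp [hlam, p2ne, hΔne]
  have hp1 : (lam * P1 1).re = 1 := by
    rw [hlam, div_mul_eq_mul_div, Complex.div_ofReal_re, div_eq_one_iff_eq hΔne]
    simp [Δ, Complex.mul_re, Complex.mul_im]
    ring
  have hp2 : (lam * P2 1).re = 0 ∧ 0 < (lam * P2 1).im := by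
    rw [hlam, div_mul_eq_mul_div, mul_assoc, ← Complex.normSq_eq_conj_mul_self,
      Complex.div_ofReal_re, Complex.div_ofReal_im]
    simp [div_pos (Complex.normSq_pos.2 p2ne) hΔ1]
  have hshift : ∀ (x : E2) (a b : ℤ), lam * w 1 (x + ((a : ℝ), (b : ℝ)))
      = lam * w 1 x + (lam * P1 1 * ((a : ℝ) : ℂ) + lam * P2 1 * ((b : ℝ) : ℂ)) := fun x a b => by
    simp only [w, w2 x a b, Prod.fst_add, Prod.snd_add]
    push_cast
    ring
  have hsm : ContDiff ℝ ∞ fun x => lam * w 1 x := contDiff_const.mul w3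
  have hpd : ∀ i x, pd i (fun y => (lam * w 1 y).re) x = (lam * pd i (w 1) x).re ∧
      pd i (fun y => (lam * w 1 y).im) x = (lam * pd i (w 1) x).im := fun i x => by
    have hh : HasFDerivAt (fun y => lam * w 1 y) (lam • fderiv ℝ (w 1) x) x :=
      ((w3.differentiable (by simp)).differentiableAt.hasFDerivAt).const_mul lam
    constructor
    · have h2 : HasFDerivAt (fun y => (lam * w 1 y).re) _ x :=
        Complex.reCLM.hasFDerivAt.comp x hh
      show fderiv ℝ _ x (e i) = _
      rw [h2.fderiv]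
      rfl
    · have h2 : HasFDerivAt (fun y => (lam * w 1 y).im) _ x :=
        Complex.imCLM.hasFDerivAt.comp x hh
      show fderiv ℝ _ x (e i) = _
      rw [h2.fderiv]
      rfl
  have hform : ∀ x, lam * pd 0 (w 1) x = lam * p 1 x * (1 + μ x) ∧
      lam * pd 1 (w 1) x = Complex.I * (lam * p 1 x) * (1 - μ x) := fun x => by
    rw [(wd x).1, (wd x).2]
    push_cast
    exact ⟨by ring, by ring⟩
  refine ⟨⟨fun x => (lam * w 1 x).re, fun x => (lam * w 1 x).im, (lam * P1 1).im, (lam * P2 1).im,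
    Complex.reCLM.contDiff.comp hsm, Complex.imCLM.contDiff.comp hsm, fun x a b => ?_,
    fun x a b => ?_, hp2.2, fun x => ?_, fun x => ?_, fun x => ?_⟩⟩
  · rw [hshift, Complex.add_re, Complex.add_re, Complex.re_mul_ofReal, Complex.re_mul_ofReal, hp1,
      hp2.1]
    ring
  · rw [hshift, Complex.add_im, Complex.add_im, Complex.im_mul_ofReal, Complex.im_mul_ofReal]
    ring
  · rw [(hpd 0 x).1, (hpd 1 x).1, (hpd 1 x).2]
    exact (cr_mu g x _ _ _ (hform x).1 (hform x).2).1
  · rw [(hpd 0 x).1, (hpd 1 x).1, (hpd 0 x).2]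
    exact (cr_mu g x _ _ _ (hform x).1 (hform x).2).2
  · rw [(hpd 0 x).1, (hpd 1 x).1, (hform x).1, (hform x).2]
    by_contra hc
    push Not at hc
    have hz := nondegenerate (z := Complex.I * (lam * p 1 x)) (m := μ x) (mu_lt g x)
      (by rw [mul_assoc, Complex.I_mul_im]; exact hc.1)
      (by rw [mul_assoc Complex.I, Complex.I_mul_im]; exact hc.2)
    exact mul_ne_zero Complex.I_ne_zero (mul_ne_zero lne (pne 1 x)) hz

end Vale.Agent.P205.Isoth
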