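import Vale.Agent.P205.IsoCoef

/-!
# P205: the periodic Beltrami equation

For a smooth periodic `μ` with `|μ| < 1` we produce, for `t ∈ [0,1]`, the periodic solution `s` of
`Dw s + β = t (μ Dz s + Dz μ)`, smooth and Lipschitz in `t`.
-/

namespace Vale.Agent.P205.Isoth

open Real Set Filter Topology
open scoped ContDiff ComplexConjugate

/-- One step of the iteration, on coefficients. -/
noncomputable def step (μ : E2 → ℂ) (t : ℝ) (c : Co) : Co :=
  fun n => bsym n * ((t : ℂ) * (fc (fun x => μ x * ev c x) n + fc (Dz μ) n))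

/-- The iterates. -/
noncomputable def iter (μ : E2 → ℂ) (t : ℝ) (k : ℕ) : Co := (step μ t)^[k] 0

/-- A coefficient family with its smoothness certificate. -/
def Smo (s : ℕ) (c : Co) : Prop := ∀ j, ∃ P : Par, P.j = j ∧ ∃ M, Bd P s c M

theorem bd_zero (P : Par) (s : ℕ) : Bd P s (fun _ => 0) 0 := ⟨le_rfl, fun S => by simp⟩

theorem nb_ev (hE : EvalStmt) {P : Par} {s : ℕ} (hs : 3 ≤ s) {c : Co} {M : ℝ} (h : Bd P s c M) :
    Nb P s (ev c) M := by
  obtain ⟨-, h1, h2, h3⟩ := ev_props hE hs h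
  exact ⟨h1, h2, by rw [h3]; exact h⟩

theorem smooth_ev (hE : EvalStmt) (hO : SmoothOutStmt) {s : ℕ} (hs : 3 ≤ s) {c : Co}
    (h : Smo s c) : ContDiff ℝ ∞ (ev c) ∧ Per (ev c) ∧ fc (ev c) = c := by
  refine ⟨hO _ s hs fun j => ?_, ?_⟩
  · obtain ⟨P, hj, M, hM⟩ := h j
    exact ⟨P, hj, M, nb_ev hE hs hM⟩
  · obtain ⟨P, -, M, hM⟩ := h 0
    obtain ⟨-, -, h2, h3⟩ := ev_props hE hs hM
    exact ⟨h2, h3⟩

/-- Everything the iteration needs about `μ`. -/
theorem exists_ctx (hM : SmoothMemStmt) (hO : MulOpStmt) {μ : E2 → ℂ} (hμ : ContDiff ℝ ∞ μ)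
    (hμp : Per μ) {θ : ℝ} (hθ : 0 ≤ θ) (hθ1 : θ < 1) (hle : ∀ x, ‖μ x‖ ≤ θ) :
    ∃ (R0 : ℝ) (hR0 : 1 ≤ R0) (θ' C0 : ℝ), 0 ≤ θ' ∧ θ' < 1 ∧ 0 ≤ C0 ∧ ∀ j, ∃ P : Par,
      P.R0 = R0 ∧ P.j = j ∧ (j = 0 → P = base hR0) ∧
      Bd P 4 (fc (Dz μ)) C0 ∧
      ∀ f M, Nb P 4 f M → Nb P 4 (fun x => μ x * f x) (θ' * M) := by
  obtain ⟨θ', hθ'⟩ : ∃ θ', θ' = (1 + θ) / 2 := ⟨_, rfl⟩
  have hmat : ∀ i k : Fin 2, ContDiff ℝ ∞ (fun x => if i = k then μ x else 0) ∧
      Per (fun x => if i = k then μ x else 0) := fun i k => by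
    by_cases h : i = k <;> simp only [h, ↓reduceIte]
    · exact ⟨hμ, hμp⟩
    · exact ⟨contDiff_const, fun x a b => rfl⟩
  obtain ⟨R00, hR⟩ := hO (fun i k x => if i = k then μ x else 0) hmat θ θ' hθ (by linarith)
    (fun x v => by
      simp only [ite_mul, zero_mul, Finset.sum_ite_eq, Finset.mem_univ, ↓reduceIte, norm_mul,
        mul_pow, Finset.mul_sum]
      exact Finset.sum_le_sum fun i _ => mul_le_mul_of_nonneg_right
        (pow_le_pow_left₀ (norm_nonneg _) (hle x) 2) (sq_nonneg _))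
    4 (by norm_num)
  set R0 := max R00 1
  have hR0 : 1 ≤ R0 := le_max_right _ _
  obtain ⟨C0, hC⟩ := hM (Dz μ) (smooth_Dz hμ) (per_Dz hμp) R0 hR0 4
  have hC0 : 0 ≤ C0 := by
    obtain ⟨R1, h⟩ := hC 0
    exact (h (base hR0) rfl rfl (Or.inl rfl)).2.2.1
  refine ⟨R0, hR0, θ', C0, by linarith, by linarith, hC0, fun j => ?_⟩
  obtain ⟨R1, h1⟩ := hR R0 (le_max_left _ _) j
  obtain ⟨R2, h2⟩ := hC j
  obtain ⟨P, hP0, hPj, hPb, hPR⟩ : ∃ P : Par, P.R0 = R0 ∧ P.j = j ∧ (j = 0 → P = base hR0) ∧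
      (j = 0 ∨ (R1 ≤ P.R ∧ R2 ≤ P.R)) := by
    by_cases hj : j = 0
    · exact ⟨base hR0, rfl, hj.symm, fun _ => rfl, Or.inl hj⟩
    · exact ⟨⟨R0, max R0 (max R1 R2), j, hR0, le_max_left _ _⟩, rfl, rfl, fun h => absurd h hj,
        Or.inr ⟨(le_max_left _ _).trans (le_max_right _ _),
          (le_max_right _ _).trans (le_max_right _ _)⟩⟩
  refine ⟨P, hP0, hPj, hPb, (h2 P hP0 hPj (hPR.imp id fun h => h.2)).2.2, fun f M hf => ?_⟩
  have h0 : fc (fun _ : E2 => (0 : ℂ)) = fun _ => 0 := funext fun n => by simp [fc]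
  have hv : Nb2 P 4 ![f, fun _ => 0] M := by
    refine ⟨fun i => ?_, hf.2.2.1, fun S => ?_⟩
    · fin_cases i
      · exact ⟨hf.1, hf.2.1⟩
      · exact ⟨continuous_const, fun x a b => rfl⟩
    · simp only [Fin.sum_univ_two, Matrix.cons_val_zero, Matrix.cons_val_one, h0, norm_zero,
        mul_zero, ne_eq, OfNat.ofNat_ne_zero, not_false_eq_true, zero_pow, Finset.sum_const_zero,
        add_zero]
      exact hf.2.2.2 S
  obtain ⟨g1, g2, g3⟩ := h1 P hP0 hPj (hPR.imp id fun h => h.1) _ M hv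
  have e : (fun x => ∑ k, (if (0 : Fin 2) = k then μ x else 0) * ![f, fun _ => 0] k x)
      = fun x => μ x * f x := by
    funext x; simp
  refine ⟨e ▸ (g1 0).1, e ▸ (g1 0).2, g2, fun S => le_trans ?_ (g3 S)⟩
  rw [Fin.sum_univ_two]
  beta_reduce
  rw [e]
  exact le_add_of_nonneg_right (Finset.sum_nonneg fun n _ => sq_nonneg _)

section
variable (hE : EvalStmt) {μ : E2 → ℂ} {R0 θ' C0 : ℝ} (hθ0 : 0 ≤ θ') (hθ1 : θ' < 1) {P : Par}
  (hdm : Bd P 4 (fc (Dz μ)) C0)
  (hmul : ∀ f M, Nb P 4 f M → Nb P 4 (fun x => μ x * f x) (θ' * M))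
include hE hθ0 hθ1 hdm hmul

omit hθ0 hθ1 hdm in
theorem bd_mulev {c : Co} {M : ℝ} (h : Bd P 4 c M) :
    Bd P 4 (fc fun x => μ x * ev c x) (θ' * M) :=
  (hmul _ _ (nb_ev hE (by norm_num) h)).2.2

omit hθ0 hθ1 hdm in
theorem bd_mulev_sub {c d : Co} {M N K : ℝ} (hc : Bd P 4 c M) (hd : Bd P 4 d N)
    (hcd : Bd P 4 (fun n => c n - d n) K) :
    Bd P 4 (fun n => fc (fun x => μ x * ev c x) n - fc (fun x => μ x * ev d x) n) (θ' * K) := by
  have hs : (3 : ℕ) ≤ 4 := by norm_num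
  have h := bd_mulev hE hmul hcd
  have e : (fun x => μ x * ev (fun n => c n - d n) x)
      = fun x => (1 : ℂ) * (μ x * ev c x) + (-1) * (μ x * ev d x) := by
    funext x
    have s1 := summable_ev (ev_props hE hs hc).1 x
    have s2 := summable_ev (ev_props hE hs hd).1 x
    have : ev (fun n => c n - d n) x = ev c x - ev d x := by
      simp only [ev, sub_mul]; exact s1.tsum_sub s2
    rw [this]; ring
  rw [e, fc_comb hE hs (hmul _ _ (nb_ev hE hs hc)) (hmul _ _ (nb_ev hE hs hd))] at h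
  simpa [← sub_eq_add_neg] using h

omit hθ0 hθ1 in
theorem bd_step {c : Co} {M t : ℝ} (ht : t ∈ Icc (0 : ℝ) 1) (h : Bd P 4 c M) :
    Bd P 4 (step μ t c) (θ' * M + C0) := by
  have h1 := bd_const (bd_add (bd_mulev hE hmul h) hdm) (t : ℂ)
  refine bd_mono (bd_smul h1 zero_le_one bsym_le) ?_
  rw [one_mul, Complex.norm_real, Real.norm_eq_abs, abs_of_nonneg ht.1]
  exact mul_le_of_le_one_left (add_nonneg (bd_mulev hE hmul h).1 hdm.1) ht.2

omit hθ0 in
theorem bd_iter {t : ℝ} (ht : t ∈ Icc (0 : ℝ) 1) (k : ℕ) :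
    Bd P 4 (iter μ t k) (C0 / (1 - θ')) := by
  have h1 : 0 < 1 - θ' := by linarith
  induction k with
  | zero => exact bd_mono (bd_zero P 4) (div_nonneg hdm.1 h1.le)
  | succ k ih =>
    rw [iter, Function.iterate_succ_apply']
    refine bd_mono (bd_step hE hdm hmul ht ih) (le_of_eq ?_)
    field_simp
    ring

omit hθ0 in
theorem bd_iter_succ {t : ℝ} (ht : t ∈ Icc (0 : ℝ) 1) (k : ℕ) :
    Bd P 4 (fun n => iter μ t (k + 1) n - iter μ t k n) (θ' ^ k * (C0 / (1 - θ'))) := by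
  induction k with
  | zero =>
    simpa [iter] using bd_iter hE hθ1 hdm hmul ht 1
  | succ k ih =>
    have h := bd_mulev_sub hE hmul (bd_iter hE hθ1 hdm hmul ht (k + 1))
      (bd_iter hE hθ1 hdm hmul ht k) ih
    have h2 : ∀ n, ‖bsym n * (t : ℂ)‖ ≤ 1 := fun n => by
      rw [norm_mul, Complex.norm_real, Real.norm_eq_abs, abs_of_nonneg ht.1]
      exact mul_le_one₀ (bsym_le n) ht.1 ht.2
    convert bd_mono (bd_smul h zero_le_one h2) (le_of_eq ?_) using 1
    · funext n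
      simp only [iter, Function.iterate_succ_apply', step]
      ring
    · rw [pow_succ]; ring

theorem bd_iter_lip {t t' : ℝ} (ht : t ∈ Icc (0 : ℝ) 1) (ht' : t' ∈ Icc (0 : ℝ) 1) (k : ℕ) :
    Bd P 4 (fun n => iter μ t k n - iter μ t' k n)
      (|t - t'| * ((θ' * (C0 / (1 - θ')) + C0) / (1 - θ'))) := by
  have h1 : 0 < 1 - θ' := by linarith
  have hC := hdm.1
  set Q := θ' * (C0 / (1 - θ')) + C0 with hQ
  induction k with
  | zero => exact bd_mono (by simpa [iter] using bd_zero P 4) (by positivity)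
  | succ k ih =>
    have a := bd_const (bd_mulev_sub hE hmul (bd_iter hE hθ1 hdm hmul ht k)
      (bd_iter hE hθ1 hdm hmul ht' k) ih) (t : ℂ)
    have b := bd_const (bd_add (bd_mulev hE hmul (bd_iter hE hθ1 hdm hmul ht' k)) hdm)
      ((t - t' : ℝ) : ℂ)
    rw [Complex.norm_real, Real.norm_eq_abs] at b
    rw [Complex.norm_real, Real.norm_eq_abs, abs_of_nonneg ht.1] at a
    convert bd_mono (bd_smul (bd_add a b) zero_le_one bsym_le) ?_ using 1
    · funext n
      simp only [iter, Function.iterate_succ_apply', step]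
      push_cast
      ring
    · have h3 : 0 ≤ θ' * (|t - t'| * (Q / (1 - θ'))) := by positivity
      have h4 := mul_le_of_le_one_left h3 ht.2
      have e : θ' * (|t - t'| * (Q / (1 - θ'))) + |t - t'| * Q = |t - t'| * (Q / (1 - θ')) := by
        field_simp; ring
      rw [one_mul]
      linarith

end

/-- The limit of the iterates. -/
noncomputable def lim (μ : E2 → ℂ) (t : ℝ) : Co :=
  fun n => limUnder atTop fun k => iter μ t k n

/-- The solution. -/
noncomputable def sol (μ : E2 → ℂ) (t : ℝ) : E2 → ℂ := ev fun n => zinv n * lim μ t n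

/-- The constant obstruction. -/
noncomputable def obs (μ : E2 → ℂ) (t : ℝ) : ℂ :=
  t * (fc (fun x => μ x * ev (lim μ t) x) 0 + fc (Dz μ) 0)

theorem exists_sol (hE : EvalStmt) (hD : DerivStmt) (hM : SmoothMemStmt) (hO : SmoothOutStmt)
    (hX : MulOpStmt) {μ : E2 → ℂ} (hμ : ContDiff ℝ ∞ μ) (hμp : Per μ) {θ : ℝ} (hθ : 0 ≤ θ)
    (hθ1 : θ < 1) (hle : ∀ x, ‖μ x‖ ≤ θ) :
    ∃ L : ℝ, 0 ≤ L ∧
    (∀ t ∈ Icc (0 : ℝ) 1, ContDiff ℝ ∞ (sol μ t) ∧ Per (sol μ t) ∧
      ∀ x, Dw (sol μ t) x + obs μ t = t * (μ x * Dz (sol μ t) x + Dz μ x)) ∧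
    (∀ t ∈ Icc (0 : ℝ) 1, ∀ t' ∈ Icc (0 : ℝ) 1,
      ‖obs μ t - obs μ t'‖ ≤ L * |t - t'| ∧ ∀ x, ‖sol μ t x - sol μ t' x‖ ≤ L * |t - t'|) ∧
    (∀ t ∈ Icc (0 : ℝ) 1, ∀ x, ‖sol μ t x‖ ≤ L) ∧ (∀ x, sol μ 0 x = 0) := by
  obtain ⟨R0, hR0, θ', C0, hθ0, hθ'1, hC0, hP⟩ := exists_ctx hM hX hμ hμp hθ hθ1 hle
  choose P hPR hPj hPb hdm hmul using hP
  set B := C0 / (1 - θ') with hB
  set L0 := (θ' * B + C0) / (1 - θ') with hL0
  have h1 : 0 < 1 - θ' := by linarith
  have hB0 : 0 ≤ B := div_nonneg hC0 h1.le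
  have hb : P 0 = base hR0 := hPb 0 rfl
  have hit : ∀ j, ∀ t ∈ Icc (0 : ℝ) 1, ∀ k, Bd (P j) 4 (iter μ t k) B :=
    fun j t ht k => bd_iter hE hθ'1 (hdm j) (hmul j) ht k
  have hcv : ∀ t ∈ Icc (0 : ℝ) 1, ∀ n, Tendsto (fun k => iter μ t k n) atTop (𝓝 (lim μ t n)) :=
    fun t ht n => (cauchySeq_of_le_geometric θ' B hθ'1 fun k => by
      rw [dist_eq_norm', mul_comm]
      exact bd_apply (bd_iter_succ hE hθ'1 (hdm 0) (hmul 0) ht k) n).tendsto_limUnder
  have hlim : ∀ t ∈ Icc (0 : ℝ) 1, ∀ j, Bd (P j) 4 (lim μ t) B := fun t ht j =>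
    bd_lim (Eventually.of_forall (hit j t ht)) (hcv t ht)
  have hlip : ∀ t ∈ Icc (0 : ℝ) 1, ∀ t' ∈ Icc (0 : ℝ) 1,
      Bd (P 0) 4 (fun n => lim μ t n - lim μ t' n) (|t - t'| * L0) := fun t ht t' ht' =>
    bd_lim (Eventually.of_forall fun k => bd_iter_lip hE hθ0 hθ'1 (hdm 0) (hmul 0) ht ht' k)
      fun n => (hcv t ht n).sub (hcv t' ht' n)
  have hfix : ∀ t ∈ Icc (0 : ℝ) 1, step μ t (lim μ t) = lim μ t := fun t ht => by
    have hgeo : ∀ k, Bd (P 0) 4 (fun n => lim μ t n - iter μ t k n) (θ' ^ k * B / (1 - θ')) := by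
      intro k
      have hsum : ∀ m, Bd (P 0) 4 (fun n => iter μ t (k + m) n - iter μ t k n)
          (∑ i ∈ Finset.range m, θ' ^ (k + i) * B) := fun m => by
        induction m with
        | zero => simpa using bd_zero (P 0) 4
        | succ m ih =>
          rw [Finset.sum_range_succ]
          convert bd_add ih (bd_iter_succ hE hθ'1 (hdm 0) (hmul 0) ht (k + m)) using 1
          funext n
          rw [show k + (m + 1) = k + m + 1 by ring]
          ring
      refine bd_lim (Eventually.of_forall fun m => bd_mono (hsum m) ?_) fun n => ?_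
      · rw [← Finset.sum_mul, mul_div_right_comm, Finset.sum_congr rfl (fun i _ => pow_add θ' k i),
          ← Finset.mul_sum, div_eq_mul_inv]
        refine mul_le_mul_of_nonneg_right (mul_le_mul_of_nonneg_left ?_ (pow_nonneg hθ0 k)) hB0
        refine le_of_le_of_eq (Summable.sum_le_tsum _ (fun i _ => pow_nonneg hθ0 i)
          (summable_geometric_of_lt_one hθ0 hθ'1)) (tsum_geometric_of_lt_one hθ0 hθ'1)
      · exact ((hcv t ht n).comp (tendsto_atTop_mono (fun m => Nat.le_add_left m k) tendsto_id)).sub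
          tendsto_const_nhds
    funext n
    refine tendsto_nhds_unique (?_ : Tendsto (fun k => iter μ t (k + 1) n) atTop _)
      ((hcv t ht n).comp (tendsto_add_atTop_nat 1))
    rw [tendsto_iff_norm_sub_tendsto_zero]
    refine squeeze_zero (fun k => norm_nonneg _) (fun k => ?_)
      (show Tendsto (fun k => θ' * (θ' ^ k * B / (1 - θ'))) atTop (𝓝 0) by
        simpa using ((((tendsto_pow_atTop_nhds_zero_of_lt_one hθ0 hθ'1).mul_const B).div_const
          (1 - θ')).const_mul θ'))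
    have h := bd_apply (bd_mulev_sub hE (hmul 0) (hlim t ht 0) (hit 0 t ht k) (hgeo k)) n
    rw [norm_sub_rev, iter, Function.iterate_succ_apply', ← iter, step, step, ← mul_sub, ← mul_sub,
      norm_mul, norm_mul, Complex.norm_real, Real.norm_eq_abs, abs_of_nonneg ht.1,
      add_sub_add_right_eq_sub]
    refine le_trans (mul_le_of_le_one_left (mul_nonneg ht.1 (norm_nonneg _)) (bsym_le n)) ?_
    exact le_trans (mul_le_of_le_one_left (norm_nonneg _) ht.2) h
  obtain ⟨C5, hC5⟩ := hE R0 hR0 5 (by norm_num)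
  have hsum5 : ∀ {c : Co} {M : ℝ}, Bd (P 0) 5 c M → ∀ x, ‖ev c x‖ ≤ C5 * M := fun h x => by
    obtain ⟨h1, h2, -⟩ := (hC5 (P 0) (hPR 0)).1 _ _ h
    exact (norm_ev_le h1 x).trans h2
  refine ⟨θ' * L0 + θ' * B + C0 + 2 * |C5| * (L0 + B), by positivity, fun t ht => ?_,
    fun t ht t' ht' => ⟨?_, fun x => ?_⟩, fun t ht x => ?_, fun x => ?_⟩
  · have hc : Smo 4 (lim μ t) := fun j => ⟨P j, hPj j, B, hlim t ht j⟩
    have hs : Smo 5 fun n => zinv n * lim μ t n :=
      fun j => ⟨P j, hPj j, _, bd_zinv (hlim t ht j)⟩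
    obtain ⟨c1, c2, c3⟩ := smooth_ev hE hO (by norm_num) hc
    obtain ⟨s1, s2, s3⟩ := smooth_ev hE hO (by norm_num) hs
    have f1 : ContDiff ℝ ∞ fun x => μ x * ev (lim μ t) x := hμ.mul c1
    have f2 : Per fun x => μ x * ev (lim μ t) x := fun x a b => by simp only [hμp x a b, c2 x a b]
    have hl : ∀ n, lim μ t n
        = bsym n * (t * (fc (fun x => μ x * ev (lim μ t) x) n + fc (Dz μ) n)) :=
      fun n => (congrFun (hfix t ht) n).symm
    have h0 : lim μ t 0 = 0 := by rw [hl 0, bsym_zero, zero_mul]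
    have hz : Dz (sol μ t) = ev (lim μ t) := by
      unfold sol
      refine eq_of_fc hE hM (smooth_Dz s1) (per_Dz s2) c1 c2 ?_
      rw [fc_Dz hE hM hD s1 s2, c3, s3]
      funext n
      by_cases hn : n = 0
      · subst hn; simp [h0]
      · rw [← mul_assoc, zinv, mul_inv_cancel₀ (dz_ne_zero hn), one_mul]
    refine ⟨s1, s2, ?_⟩
    have hw : (fun x => (1 : ℂ) * Dw (ev fun n => zinv n * lim μ t n) x + obs μ t * 1)
        = fun x => (t : ℂ) * (μ x * ev (lim μ t) x) + (t : ℂ) * Dz μ x := by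
      refine eq_of_fc hE hM ((contDiff_const.mul (smooth_Dw s1)).add
        (contDiff_const.mul contDiff_const)) (fun x a b => by simp only [per_Dw s2 x a b])
        ((contDiff_const.mul f1).add (contDiff_const.mul (smooth_Dz hμ)))
        (fun x a b => by simp only [f2 x a b, per_Dz hμp x a b]) ?_
      rw [fc_comb' hE hM (smooth_Dw s1) (per_Dw s2) contDiff_const (fun x a b => rfl),
        fc_comb' hE hM f1 f2 (smooth_Dz hμ) (per_Dz hμp), fc_Dw hE hM hD s1 s2, s3]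
      funext n
      by_cases hn : n = 0
      · subst hn
        beta_reduce
        rw [fc_const, h0, obs]
        ring
      · have hc0 : fc (fun _ : E2 => (1 : ℂ)) n = 0 := by
          have hone := fc_pd hE hM hD (contDiff_const (c := (1 : ℂ))) (fun x a b => rfl)
          have e : ∀ i, pd i (fun _ : E2 => (1 : ℂ)) = fun _ => 0 := fun i => by
            funext x; simp [pd]
          have z : fc (fun _ : E2 => (0 : ℂ)) = fun _ => 0 := funext fun m => by simp [fc]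
          by_contra hne
          have k0 := congrFun (hone 0) n
          have k1 := congrFun (hone 1) n
          simp only [e, z, eq_comm (a := (0 : ℂ)), mul_eq_zero, hne, or_false] at k0 k1
          exact dz_ne_zero hn (by simp [dz, k0, k1])
        beta_reduce
        rw [hc0, hl n, bsym, zinv]
        have := dz_ne_zero hn
        have := dw_ne_zero hn
        field_simp
        ring
    intro x
    rw [hz, sol]
    linear_combination congrFun hw x
  · have hd := bd_mulev_sub hE (hmul 0) (hlim t ht 0) (hlim t' ht' 0) (hlip t ht t' ht')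
    have h2 := bd_apply (bd_add (bd_const hd (t : ℂ))
      (bd_const (bd_add (bd_mulev hE (hmul 0) (hlim t' ht' 0)) (hdm 0)) ((t - t' : ℝ) : ℂ))) 0
    rw [Complex.norm_real, Complex.norm_real, Real.norm_eq_abs, Real.norm_eq_abs,
      abs_of_nonneg ht.1] at h2
    have e : obs μ t - obs μ t' = (t : ℂ) * (fc (fun x => μ x * ev (lim μ t) x) 0
          - fc (fun x => μ x * ev (lim μ t') x) 0)
        + ((t - t' : ℝ) : ℂ) * (fc (fun x => μ x * ev (lim μ t') x) 0 + fc (Dz μ) 0) := by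
      simp only [obs]; push_cast; ring
    rw [e]
    refine h2.trans ?_
    have hL : 0 ≤ L0 := by positivity
    have h5 : 0 ≤ |t - t'| := abs_nonneg _
    have h6 : t * (θ' * (|t - t'| * L0)) ≤ θ' * (|t - t'| * L0) :=
      mul_le_of_le_one_left (by positivity) ht.2
    nlinarith [abs_nonneg C5, mul_nonneg h5 (mul_nonneg (abs_nonneg C5) (add_nonneg hL hB0))]
  · have e : sol μ t x - sol μ t' x = ev (fun n => zinv n * (lim μ t n - lim μ t' n)) x := by
      have s1 := summable_ev (ev_props hE (by norm_num) (bd_zinv (hlim t ht 0))).1 x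
      have s2 := summable_ev (ev_props hE (by norm_num) (bd_zinv (hlim t' ht' 0))).1 x
      simp only [sol, ev, mul_sub, sub_mul]
      exact (s1.tsum_sub s2).symm
    rw [e]
    refine (hsum5 (bd_zinv (hlip t ht t' ht')) x).trans ?_
    have hL : 0 ≤ L0 := by positivity
    nlinarith [mul_nonneg (abs_nonneg (t - t')) hL, le_abs_self C5, abs_nonneg (t - t'),
      mul_nonneg (mul_nonneg (abs_nonneg (t - t')) hθ0) hL,
      mul_nonneg (abs_nonneg (t - t')) (mul_nonneg hθ0 hB0),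
      mul_nonneg (abs_nonneg (t - t')) hC0,
      mul_nonneg (abs_nonneg (t - t')) (mul_nonneg (abs_nonneg C5) hB0)]
  · refine (hsum5 (bd_zinv (hlim t ht 0)) x).trans ?_
    have hL : 0 ≤ L0 := by positivity
    nlinarith [le_abs_self C5, mul_nonneg hθ0 hL, mul_nonneg hθ0 hB0,
      mul_nonneg (abs_nonneg C5) hL]
  · have h0 : ∀ n, lim μ 0 n = 0 := fun n => by
      rw [← congrFun (hfix 0 ⟨le_rfl, zero_le_one⟩) n]
      simp [step]
    simp [sol, ev, h0]

end Vale.Agent.P205.Isoth
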