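import Vale.Agent.P205.Interfaces

/-!
# P205: coefficient tools for the isothermal module
-/

namespace Vale.Agent.P205.Isoth

open Real Set Filter Topology
open scoped ContDiff ComplexConjugate

theorem len_nonneg (n : ℤ × ℤ) : 0 ≤ len n := add_nonneg (abs_nonneg _) (abs_nonneg _)

theorem le_wt_base (P : Par) (s : ℕ) (n : ℤ × ℤ) : 1 ≤ wt P s n := by
  have h0 : 0 < P.R0 := zero_lt_one.trans_le P.one_le_R0
  have h1 : 0 < P.R := h0.trans_le P.R0_le
  have := len_nonneg n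
  exact one_le_mul_of_one_le_of_one_le
    (one_le_pow₀ (le_add_of_nonneg_right (by positivity)))
    (one_le_pow₀ (le_add_of_nonneg_right (by positivity)))

theorem wt_succ (P : Par) (s : ℕ) (n : ℤ × ℤ) :
    wt P (s + 1) n = wt P s n * (1 + len n / P.R0) := by
  simp only [wt, pow_succ]; ring

theorem bd_of_le {P : Par} {s t : ℕ} {c d : Co} {M K : ℝ} (h : Bd P s c M) (hK : 0 ≤ K)
    (hle : ∀ n, wt P t n * ‖d n‖ ≤ K * (wt P s n * ‖c n‖)) : Bd P t d (K * M) := by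
  refine ⟨mul_nonneg hK h.1, fun S => ?_⟩
  calc ∑ n ∈ S, (wt P t n * ‖d n‖) ^ 2 ≤ ∑ n ∈ S, K ^ 2 * (wt P s n * ‖c n‖) ^ 2 :=
        Finset.sum_le_sum fun n _ => by
          rw [← mul_pow]
          exact pow_le_pow_left₀
            (mul_nonneg (zero_le_one.trans (le_wt_base P t n)) (norm_nonneg _)) (hle n) 2
    _ = K ^ 2 * ∑ n ∈ S, (wt P s n * ‖c n‖) ^ 2 := by rw [Finset.mul_sum]
    _ ≤ K ^ 2 * M ^ 2 := mul_le_mul_of_nonneg_left (h.2 S) (sq_nonneg K)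
    _ = _ := (mul_pow K M 2).symm

theorem bd_mono {P : Par} {s : ℕ} {c : Co} {M N : ℝ} (h : Bd P s c M) (hMN : M ≤ N) :
    Bd P s c N :=
  ⟨h.1.trans hMN, fun S => (h.2 S).trans (pow_le_pow_left₀ h.1 hMN 2)⟩

theorem bd_smul {P : Par} {s : ℕ} {c : Co} {M K : ℝ} (h : Bd P s c M) (hK : 0 ≤ K) {k : Co}
    (hk : ∀ n, ‖k n‖ ≤ K) : Bd P s (fun n => k n * c n) (K * M) :=
  bd_of_le h hK fun n => by
    rw [norm_mul, mul_left_comm K]
    exact mul_le_mul_of_nonneg_left (mul_le_mul_of_nonneg_right (hk n) (norm_nonneg _))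
      (zero_le_one.trans (le_wt_base P s n))

theorem bd_const {P : Par} {s : ℕ} {c : Co} {M : ℝ} (h : Bd P s c M) (k : ℂ) :
    Bd P s (fun n => k * c n) (‖k‖ * M) :=
  bd_smul h (norm_nonneg k) fun _ => le_rfl

theorem bd_add {P : Par} {s : ℕ} {c d : Co} {M N : ℝ} (hc : Bd P s c M) (hd : Bd P s d N) :
    Bd P s (fun n => c n + d n) (M + N) := by
  refine ⟨add_nonneg hc.1 hd.1, fun S => ?_⟩
  have h1 := hc.2 S
  have h2 := hd.2 S
  have h3 : (∑ n ∈ S, wt P s n * ‖c n‖ * (wt P s n * ‖d n‖)) ^ 2 ≤ (M * N) ^ 2 := by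
    refine (Finset.sum_mul_sq_le_sq_mul_sq S _ _).trans ?_
    rw [mul_pow]
    exact mul_le_mul h1 h2 (Finset.sum_nonneg fun n _ => sq_nonneg _) (sq_nonneg M)
  have h4 := abs_le_of_sq_le_sq h3 (mul_nonneg hc.1 hd.1)
  calc ∑ n ∈ S, (wt P s n * ‖c n + d n‖) ^ 2
      ≤ ∑ n ∈ S, (wt P s n * ‖c n‖ + wt P s n * ‖d n‖) ^ 2 :=
        Finset.sum_le_sum fun n _ => by
          have hw := zero_le_one.trans (le_wt_base P s n)
          refine pow_le_pow_left₀ (by positivity) ?_ 2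
          rw [← mul_add]
          exact mul_le_mul_of_nonneg_left (norm_add_le _ _) hw
    _ = ∑ n ∈ S, (wt P s n * ‖c n‖) ^ 2
          + 2 * ∑ n ∈ S, wt P s n * ‖c n‖ * (wt P s n * ‖d n‖)
          + ∑ n ∈ S, (wt P s n * ‖d n‖) ^ 2 := by
        simp only [add_sq, Finset.sum_add_distrib, Finset.mul_sum, mul_assoc]
    _ ≤ _ := by linarith [(abs_le.1 h4).2, add_sq M N]

theorem bd_lim {P : Par} {s : ℕ} {c : ℕ → Co} {l : Co} {M : ℝ}
    (h : ∀ᶠ k in atTop, Bd P s (c k) M)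
    (hl : ∀ n, Tendsto (fun k => c k n) atTop (𝓝 (l n))) : Bd P s l M := by
  refine ⟨h.exists.choose_spec.1, fun S => ?_⟩
  exact le_of_tendsto (tendsto_finsetSum S fun n _ => (((hl n).norm).const_mul (wt P s n)).pow 2)
    (h.mono fun k hk => hk.2 S)

theorem bd_apply {P : Par} {s : ℕ} {c : Co} {M : ℝ} (h : Bd P s c M) (n : ℤ × ℤ) : ‖c n‖ ≤ M := by
  have h1 := h.2 {n}
  rw [Finset.sum_singleton] at h1
  have h2 := (abs_le.1 (abs_le_of_sq_le_sq h1 h.1)).2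
  have h3 := le_mul_of_one_le_left (norm_nonneg (c n)) (le_wt_base P s n)
  linarith

theorem chr_norm (n : ℤ × ℤ) (x : E2) : ‖chr n x‖ = 1 := by
  have e : chr n x
      = Complex.exp (((2 * π * ((n.1 : ℝ) * x.1 + (n.2 : ℝ) * x.2) : ℝ) : ℂ) * Complex.I) := by
    simp [chr]
  rw [e, Complex.norm_exp_ofReal_mul_I]

theorem summable_ev {c : Co} (h : Summable fun n => ‖c n‖) (x : E2) :
    Summable fun n => c n * chr n x :=
  Summable.of_norm (by simpa [chr_norm] using h)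

theorem norm_ev_le {c : Co} (h : Summable fun n => ‖c n‖) (x : E2) : ‖ev c x‖ ≤ ∑' n, ‖c n‖ := by
  refine (norm_tsum_le_tsum_norm (by simpa [chr_norm] using h)).trans (le_of_eq ?_)
  simp [chr_norm]

/-- The base parameters. -/
def base {R0 : ℝ} (h : 1 ≤ R0) : Par := ⟨R0, R0, 0, h, le_rfl⟩

variable (hE : EvalStmt)
include hE

theorem ev_props {P : Par} {s : ℕ} (hs : 3 ≤ s) {c : Co} {M : ℝ} (h : Bd P s c M) :
    Summable (fun n => ‖c n‖) ∧ Continuous (ev c) ∧ Per (ev c) ∧ fc (ev c) = c := by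
  obtain ⟨C, hC⟩ := hE P.R0 P.one_le_R0 s hs
  obtain ⟨h1, -, h2⟩ := (hC P rfl).1 c M h
  exact ⟨h1, h2⟩

theorem nb_eq {P : Par} {s : ℕ} (hs : 3 ≤ s) {f : E2 → ℂ} {M : ℝ} (h : Nb P s f M) :
    ev (fc f) = f := by
  obtain ⟨C, hC⟩ := hE P.R0 P.one_le_R0 s hs
  exact ((hC P rfl).2 f M h).1

/-- Coefficients of a linear combination. -/
theorem fc_comb {P : Par} {s : ℕ} (hs : 3 ≤ s) {f h : E2 → ℂ} {M N : ℝ} (hf : Nb P s f M)
    (hh : Nb P s h N) (a b : ℂ) :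
    fc (fun x => a * f x + b * h x) = fun n => a * fc f n + b * fc h n := by
  have hb := bd_add (bd_const hf.2.2 a) (bd_const hh.2.2 b)
  have e : (fun x => a * f x + b * h x) = ev (fun n => a * fc f n + b * fc h n) := by
    funext x
    have s1 := summable_ev (ev_props hE hs hf.2.2).1 x
    have s2 := summable_ev (ev_props hE hs hh.2.2).1 x
    show _ = ∑' n, (a * fc f n + b * fc h n) * chr n x
    simp only [add_mul, mul_assoc]
    rw [(s1.mul_left a).tsum_add (s2.mul_left b), tsum_mul_left, tsum_mul_left]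
    show _ = a * ev (fc f) x + b * ev (fc h) x
    rw [nb_eq hE hs hf, nb_eq hE hs hh]
  rw [e, (ev_props hE hs hb).2.2.2]

omit hE

theorem contDiff_pd {f : E2 → ℂ} (hf : ContDiff ℝ ∞ f) (i : Fin 2) : ContDiff ℝ ∞ (pd i f) :=
  (hf.fderiv_right (by simp)).clm_apply contDiff_const

theorem per_pd {f : E2 → ℂ} (hp : Per f) (i : Fin 2) : Per (pd i f) := fun x a b => by
  have e : (fun y => f (y + ((a : ℝ), (b : ℝ)))) = f := funext fun y => hp y a b
  show fderiv ℝ f _ _ = fderiv ℝ f x _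
  rw [← fderiv_comp_add_right, e]

/-- The operator `(∂₀ - i ∂₁) / 2`. -/
noncomputable def Dz (f : E2 → ℂ) (x : E2) : ℂ := (pd 0 f x - Complex.I * pd 1 f x) / 2

/-- The operator `(∂₀ + i ∂₁) / 2`. -/
noncomputable def Dw (f : E2 → ℂ) (x : E2) : ℂ := (pd 0 f x + Complex.I * pd 1 f x) / 2

theorem smooth_Dz {f : E2 → ℂ} (hf : ContDiff ℝ ∞ f) : ContDiff ℝ ∞ (Dz f) :=
  ((contDiff_pd hf 0).sub (contDiff_const.mul (contDiff_pd hf 1))).div_const 2

theorem per_Dz {f : E2 → ℂ} (hp : Per f) : Per (Dz f) := fun x a b => by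
  simp only [Dz, per_pd hp 0 x a b, per_pd hp 1 x a b]

theorem smooth_Dw {f : E2 → ℂ} (hf : ContDiff ℝ ∞ f) : ContDiff ℝ ∞ (Dw f) :=
  ((contDiff_pd hf 0).add (contDiff_const.mul (contDiff_pd hf 1))).div_const 2

theorem per_Dw {f : E2 → ℂ} (hp : Per f) : Per (Dw f) := fun x a b => by
  simp only [Dw, per_pd hp 0 x a b, per_pd hp 1 x a b]

/-- Symbol of `Dz`. -/
noncomputable def dz (n : ℤ × ℤ) : ℂ := (dsym 0 n - Complex.I * dsym 1 n) / 2

/-- Symbol of `Dw`. -/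
noncomputable def dw (n : ℤ × ℤ) : ℂ := (dsym 0 n + Complex.I * dsym 1 n) / 2

/-- Their quotient, zero at zero. -/
noncomputable def bsym (n : ℤ × ℤ) : ℂ := dz n / dw n

/-- Inverse symbol of `Dz`, zero at zero. -/
noncomputable def zinv (n : ℤ × ℤ) : ℂ := (dz n)⁻¹

theorem dz_eq (n : ℤ × ℤ) :
    dz n = ((π * n.2 : ℝ) : ℂ) + ((π * n.1 : ℝ) : ℂ) * Complex.I := by
  simp only [dz, dsym, fr, Fin.isValue, ↓reduceIte, one_ne_zero]
  push_cast
  linear_combination (-(π : ℂ) * (n.2 : ℂ)) * Complex.I_sq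

theorem dw_eq (n : ℤ × ℤ) :
    dw n = ((-(π * n.2) : ℝ) : ℂ) + ((π * n.1 : ℝ) : ℂ) * Complex.I := by
  simp only [dw, dsym, fr, Fin.isValue, ↓reduceIte, one_ne_zero]
  push_cast
  linear_combination ((π : ℂ) * (n.2 : ℂ)) * Complex.I_sq

theorem dz_norm_dw (n : ℤ × ℤ) : ‖dw n‖ = ‖dz n‖ := by
  rw [dw_eq, dz_eq, Complex.norm_add_mul_I, Complex.norm_add_mul_I, neg_sq]

theorem dz_zero : dz 0 = 0 := by simp [dz, dsym, fr]

theorem dz_ne_zero {n : ℤ × ℤ} (hn : n ≠ 0) : dz n ≠ 0 := by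
  intro h
  rw [dz_eq] at h
  have h1 := congrArg Complex.re h
  have h2 := congrArg Complex.im h
  simp [Real.pi_ne_zero] at h1 h2
  exact hn (Prod.ext (by exact_mod_cast h2) (by exact_mod_cast h1))

theorem dw_ne_zero {n : ℤ × ℤ} (hn : n ≠ 0) : dw n ≠ 0 := fun h => by
  have := dz_norm_dw n
  rw [h, norm_zero] at this
  exact dz_ne_zero hn (norm_eq_zero.1 this.symm)

theorem bsym_zero : bsym 0 = 0 := by simp [bsym, dz_zero]

theorem bsym_le (n : ℤ × ℤ) : ‖bsym n‖ ≤ 1 := by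
  rw [bsym, norm_div, dz_norm_dw]
  exact div_self_le_one _

theorem zinv_le (P : Par) (s : ℕ) (n : ℤ × ℤ) : wt P (s + 1) n * ‖zinv n‖ ≤ 2 * wt P s n := by
  by_cases hn : n = 0
  · subst hn
    simp [zinv, dz_zero, zero_le_one.trans (le_wt_base P s 0)]
  have hl1 : 1 ≤ len n := by
    rcases eq_or_ne n.1 0 with h | h
    · have h2 : n.2 ≠ 0 := fun h' => hn (Prod.ext h h')
      have : (1 : ℝ) ≤ |(n.2 : ℝ)| := by exact_mod_cast Int.one_le_abs h2
      unfold len; linarith [abs_nonneg (n.1 : ℝ)]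
    · have : (1 : ℝ) ≤ |(n.1 : ℝ)| := by exact_mod_cast Int.one_le_abs h
      unfold len; linarith [abs_nonneg (n.2 : ℝ)]
  have h0 : 0 < P.R0 := zero_lt_one.trans_le P.one_le_R0
  have h1 : π * |(n.2 : ℝ)| ≤ ‖dz n‖ := by
    refine le_trans (le_of_eq ?_) (Complex.abs_re_le_norm (dz n))
    rw [dz_eq]; simp [abs_mul, abs_of_pos Real.pi_pos]
  have h2 : π * |(n.1 : ℝ)| ≤ ‖dz n‖ := by
    refine le_trans (le_of_eq ?_) (Complex.abs_im_le_norm (dz n))
    rw [dz_eq]; simp [abs_mul, abs_of_pos Real.pi_pos]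
  have hpos : 0 < ‖dz n‖ := norm_pos_iff.2 (dz_ne_zero hn)
  have hd : 1 + len n / P.R0 ≤ 2 * ‖dz n‖ := by
    have h3 : len n / P.R0 ≤ len n := div_le_self (len_nonneg n) P.one_le_R0
    have h4 : π * len n ≤ 2 * ‖dz n‖ := by
      unfold len
      linarith
    nlinarith [Real.pi_gt_three]
  rw [wt_succ, zinv, norm_inv, mul_assoc, mul_comm 2 _]
  refine mul_le_mul_of_nonneg_left ?_ (zero_le_one.trans (le_wt_base P s n))
  rwa [mul_inv_le_iff₀ hpos]

theorem bd_zinv {P : Par} {s : ℕ} {c : Co} {M : ℝ} (h : Bd P s c M) :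
    Bd P (s + 1) (fun n => zinv n * c n) (2 * M) :=
  bd_of_le h zero_le_two fun n => by
    rw [norm_mul, ← mul_assoc, ← mul_assoc]
    exact mul_le_mul_of_nonneg_right (zinv_le P s n) (norm_nonneg _)

theorem bd_dsym {P : Par} {s : ℕ} {c : Co} {M : ℝ} (h : Bd P (s + 1) c M) (i : Fin 2) :
    Bd P s (fun n => dsym i n * c n) (2 * π * P.R0 * M) := by
  have h0 : 0 < P.R0 := zero_lt_one.trans_le P.one_le_R0
  refine bd_of_le h (by positivity) fun n => ?_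
  rw [norm_mul, wt_succ]
  have hi : |(fr i n : ℝ)| ≤ len n := by
    unfold len fr
    split_ifs <;> linarith [abs_nonneg (n.1 : ℝ), abs_nonneg (n.2 : ℝ)]
  have hd : ‖dsym i n‖ ≤ 2 * π * P.R0 * (1 + len n / P.R0) := by
    have e : ‖dsym i n‖ = 2 * π * |(fr i n : ℝ)| := by
      simp [dsym, Real.pi_pos.le]
    rw [e, mul_assoc (2 * π), mul_add, mul_div_cancel₀ _ h0.ne', mul_one]
    exact mul_le_mul_of_nonneg_left (by linarith) Real.two_pi_pos.le
  calc wt P s n * (‖dsym i n‖ * ‖c n‖)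
      ≤ wt P s n * (2 * π * P.R0 * (1 + len n / P.R0) * ‖c n‖) :=
        mul_le_mul_of_nonneg_left (mul_le_mul_of_nonneg_right hd (norm_nonneg _))
          (zero_le_one.trans (le_wt_base P s n))
    _ = _ := by ring

variable (hM : SmoothMemStmt) (hD : DerivStmt)
include hM

theorem exists_nb {f : E2 → ℂ} (hf : ContDiff ℝ ∞ f) (hp : Per f) (s : ℕ) :
    ∃ M, Nb (base le_rfl) s f M := by
  obtain ⟨M, hMj⟩ := hM f hf hp 1 le_rfl s
  obtain ⟨R1, h⟩ := hMj 0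
  exact ⟨M, h _ rfl rfl (Or.inl rfl)⟩

include hE

theorem fc_comb' {f h : E2 → ℂ} (hf : ContDiff ℝ ∞ f) (hfp : Per f) (hh : ContDiff ℝ ∞ h)
    (hhp : Per h) (a b : ℂ) :
    fc (fun x => a * f x + b * h x) = fun n => a * fc f n + b * fc h n :=
  fc_comb hE le_rfl (exists_nb hM hf hfp 3).choose_spec (exists_nb hM hh hhp 3).choose_spec a b

theorem eq_of_fc {f h : E2 → ℂ} (hf : ContDiff ℝ ∞ f) (hfp : Per f) (hh : ContDiff ℝ ∞ h)
    (hhp : Per h) (e : fc f = fc h) : f = h := by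
  rw [← nb_eq hE le_rfl (exists_nb hM hf hfp 3).choose_spec, e,
    nb_eq hE le_rfl (exists_nb hM hh hhp 3).choose_spec]

include hD

theorem fc_pd {f : E2 → ℂ} (hf : ContDiff ℝ ∞ f) (hp : Per f) (i : Fin 2) :
    fc (pd i f) = fun n => dsym i n * fc f n := by
  obtain ⟨M, h⟩ := exists_nb hM hf hp 5
  have e : pd i f = ev (fun n => dsym i n * fc f n) :=
    funext fun x => ((hD _ 5 (by norm_num) f M h).2 i x)
  rw [e, (ev_props hE (show 3 ≤ 4 by norm_num) (bd_dsym h.2.2 i)).2.2.2]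

theorem fc_Dz {f : E2 → ℂ} (hf : ContDiff ℝ ∞ f) (hp : Per f) :
    fc (Dz f) = fun n => dz n * fc f n := by
  have e : Dz f = fun x => (1 / 2 : ℂ) * pd 0 f x + (-Complex.I / 2) * pd 1 f x := by
    funext x; rw [Dz]; ring
  rw [e, fc_comb' hE hM (contDiff_pd hf 0) (per_pd hp 0) (contDiff_pd hf 1) (per_pd hp 1),
    fc_pd hE hM hD hf hp, fc_pd hE hM hD hf hp]
  funext n; rw [dz]; ring

theorem fc_Dw {f : E2 → ℂ} (hf : ContDiff ℝ ∞ f) (hp : Per f) :
    fc (Dw f) = fun n => dw n * fc f n := by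
  have e : Dw f = fun x => (1 / 2 : ℂ) * pd 0 f x + (Complex.I / 2) * pd 1 f x := by
    funext x; rw [Dw]; ring
  rw [e, fc_comb' hE hM (contDiff_pd hf 0) (per_pd hp 0) (contDiff_pd hf 1) (per_pd hp 1),
    fc_pd hE hM hD hf hp, fc_pd hE hM hD hf hp]
  funext n; rw [dw]; ring

omit hE hM hD

theorem fc_const (k : ℂ) : fc (fun _ => k) 0 = k := by
  simp [fc, chr]

theorem norm_fc_zero_le {f : E2 → ℂ} {C : ℝ} (h : ∀ x, ‖f x‖ ≤ C) : ‖fc f 0‖ ≤ C := by
  have h1 : ∀ x : ℝ, ‖∫ y in (0 : ℝ)..1, chr (-0) (x, y) * f (x, y)‖ ≤ C := fun x => by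
    refine (intervalIntegral.norm_integral_le_of_norm_le_const (C := C) fun y _ => ?_).trans
      (by simp)
    rw [norm_mul, chr_norm, one_mul]
    exact h _
  exact (intervalIntegral.norm_integral_le_of_norm_le_const (C := C) fun x _ => h1 x).trans
    (by simp)

/-- Continuous periodic functions attain their maximum. -/
theorem per_max {r : E2 → ℝ} (hr : Continuous r) (hp : Per r) : ∃ x, ∀ y, r y ≤ r x := by
  obtain ⟨x, -, hx⟩ := (isCompact_Icc (a := ((0 : ℝ), (0 : ℝ))) (b := (1, 1))).exists_isMaxOn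
    ⟨(0, 0), le_rfl, Prod.mk_le_mk.2 ⟨zero_le_one, zero_le_one⟩⟩ hr.continuousOn
  refine ⟨x, fun y => ?_⟩
  have e : r y = r (Int.fract y.1, Int.fract y.2) := by
    conv_lhs => rw [show y = ((Int.fract y.1, Int.fract y.2) : E2)
      + ((⌊y.1⌋ : ℝ), (⌊y.2⌋ : ℝ)) from Prod.ext (Int.fract_add_floor _).symm
        (Int.fract_add_floor _).symm]
    exact hp _ _ _
  rw [e]
  exact hx (show (Int.fract y.1, Int.fract y.2) ∈ Icc ((0 : ℝ), (0 : ℝ)) (1, 1) from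
    ⟨Prod.mk_le_mk.2 ⟨Int.fract_nonneg _, Int.fract_nonneg _⟩,
      Prod.mk_le_mk.2 ⟨(Int.fract_lt_one _).le, (Int.fract_lt_one _).le⟩⟩)

end Vale.Agent.P205.Isoth
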