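import Vale.Agent.P205.Space.Alg
import Vale.Agent.P205.Space.Compl
import Vale.Agent.P205.Space.Mult
import Vale.Agent.P205.Space.MulOp
import Vale.Agent.P205.Space.Smooth

/-!
# P205, weighted Fourier spaces on the torus
-/
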